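import Claimed.Agent.R280.FF.Defs

/-!
# Row 280, package Ell (Weierstrass function fields): definitions

* `IsWFF W M x y` : `M = k(x,y)` is the function field of the Weierstrass curve `W/k`.
* `Place.IsAtXY P x y a b` : `P` is the place of `M` at the affine point `(a,b)`;  `Place.IsInf P x` : the place at infinity.
* `Place.IsAtPt P x y Q` : the same for `Q : W.Point`.
* `transX W x y a b`, `transY W x y a b` : the coordinates of `(x,y) + (a,b)` (generic point plus a rational point).

FROZEN once landed (owner helper129).
-/

set_option autoImplicit false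

namespace Claimed.Agent.R280

open WithZero WeierstrassCurve

/-- `M = k(x,y)` is the function field of the Weierstrass curve `W` over `k` -/
structure IsWFF {k : Type} [Field k] (W : WeierstrassCurve k) (M : Type) [Field M] [Algebra k M]
    (x y : M) : Prop where
  equation : (W.baseChange M).toAffine.Equation x y
  transc : Transcendental k x
  gen : IntermediateField.adjoin k {x, y} = ⊤

section

variable {k M : Type} [Field k] [Field M] [Algebra k M]

/-- `P` is the place at the affine point `(a,b)` -/
def Place.IsAtXY (P : Place k M) (x y : M) (a b : k) : Prop :=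
  P.v (x - algebraMap k M a) < 1 ∧ P.v (y - algebraMap k M b) < 1

/-- `P` is the place at infinity -/
def Place.IsInf (P : Place k M) (x : M) : Prop := 1 < P.v x

/-- `P` is the place at the point `Q` -/
def Place.IsAtPt {W : WeierstrassCurve k} (P : Place k M) (x y : M) : W.toAffine.Point → Prop
  | .zero => P.IsInf x
  | .some a b _ => P.IsAtXY x y a b

/-- `x`-coordinate of `(x,y) + (a,b)`, `(x,y)` the generic point -/
noncomputable def transX (W : WeierstrassCurve k) (x y : M) (a b : k) : M :=
  (W.baseChange M).toAffine.addX x (algebraMap k M a)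
    ((y - algebraMap k M b) / (x - algebraMap k M a))

/-- `y`-coordinate of `(x,y) + (a,b)`, `(x,y)` the generic point -/
noncomputable def transY (W : WeierstrassCurve k) (x y : M) (a b : k) : M :=
  (W.baseChange M).toAffine.addY x (algebraMap k M a) y
    ((y - algebraMap k M b) / (x - algebraMap k M a))

/-- `(x',y') = (x,y) + Q`, `(x,y)` the generic point -/
def IsTransBy (W : WeierstrassCurve k) (x y x' y' : M) : W.toAffine.Point → Prop
  | .zero => x' = x ∧ y' = y
  | .some a b _ => x' = transX W x y a b ∧ y' = transY W x y a b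

end

section Red

variable {K F : Type} [Field K] [Field F]

open Classical in
/-- the residue of `a` (junk `0` outside `A`) -/
noncomputable def resA (A : ValuationSubring K) (r : A →+* F) (a : K) : F :=
  if h : a ∈ A then r ⟨a, h⟩ else 0

/-- `W0` is the reduction of `Wt` modulo the valuation ring `A` with residue map `r` -/
def RedCurveA (A : ValuationSubring K) (r : A →+* F) (Wt : WeierstrassCurve K)
    (W0 : WeierstrassCurve F) : Prop :=
  (Wt.a₁ ∈ A ∧ resA A r Wt.a₁ = W0.a₁) ∧ (Wt.a₂ ∈ A ∧ resA A r Wt.a₂ = W0.a₂) ∧
  (Wt.a₃ ∈ A ∧ resA A r Wt.a₃ = W0.a₃) ∧ (Wt.a₄ ∈ A ∧ resA A r Wt.a₄ = W0.a₄) ∧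
  (Wt.a₆ ∈ A ∧ resA A r Wt.a₆ = W0.a₆)

/-- the point `Qbar` is the reduction of `Q` -/
def RedPtA (A : ValuationSubring K) (r : A →+* F) {Wt : WeierstrassCurve K}
    {W0 : WeierstrassCurve F} : Wt.toAffine.Point → W0.toAffine.Point → Prop
  | .zero, .zero => True
  | .some a _ _, .zero => a ∉ A
  | .zero, .some _ _ _ => False
  | .some a b _, .some a' b' _ => a ∈ A ∧ b ∈ A ∧ resA A r a = a' ∧ resA A r b = b'

end Red

end Claimed.Agent.R280
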