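import Claimed.Agent.R280.Ell.Defs
import Claimed.Agent.R280.FF.Main

/-!
# Row 280, package Ell1a: the model `Frac k[W]`, the coordinate ring inside `M`, the mapping property

`k` field, `W/k` ANY Weierstrass curve (no hypothesis on `Δ`), `M = k(x,y)` (`h : IsWFF W M x y`).
Mathlib only (`WeierstrassCurve.Affine.CoordinateRing = AdjoinRoot W.polynomial`, a domain, free over `k[X]` on `1, Y`).

PLAN (~600 lines)
* `exists_isWFF`: `M := W.toAffine.FunctionField`, `x := algebraMap _ _ (mk W (C X))`, `y := algebraMap _ _ (mk W Y)`.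
  equation: `AdjoinRoot.mk_self` pushed through `Affine.equation_iff`/`evalEval`; transcendence: `k[X] → k[W] → Frac` is injective
  (`FaithfulSMul k[X] k[W]`, `IsFractionRing.injective`); generation: every element is `a / b`, `a b ∈ k[W]`, and
  `k[W]` is generated by `mk (C X), mk Y` (`CoordinateRing.exists_smul_basis_eq`).
* `IsWFF.exists_semiHom`: `AdjoinRoot.lift ((eval₂RingHom f x')) y' _`.  Injectivity: the kernel `𝔭` is prime; if `z = p•1 + q•mk Y ∈ 𝔭`
  then `N z = z * z' ∈ 𝔭` (`CoordinateRing.coe_norm_smul_basis`) is the image of a polynomial in `X` alone, which is killed only if it is `0` (`htr`);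
  `N z = 0 → z = 0` (`Algebra.norm_eq_zero_iff` or `degree_norm_smul_basis`).
* `IsWFF.exists_coordHom` = the special case `N = M`, `f = algebraMap k M`, upgraded to an algebra hom.
* `IsWFF.exists_frac`: `{f | ∃ a b, b ≠ 0 ∧ f * ι b = ι a}` is a subfield containing `k, x, y`; use `h.gen`
  (`IntermediateField.adjoin_le_iff` for a hand-made `IntermediateField`, or `IntermediateField.adjoin_induction`).
* `IsWFF.lift`: `φ (ι a / ι b) := ψ a / ψ b` (`IsFractionRing.lift` after `IsFractionRing k[W] M` from `exists_frac` + injectivity, algebra structure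
  `ι.toRingHom.toAlgebra`).  Uniqueness: two ring homs of fields agreeing on `k, x, y` agree on `ι k[W]`, hence on fractions.
-/

set_option autoImplicit false

namespace Claimed.Agent.R280

open WithZero WeierstrassCurve Polynomial
open scoped Classical Polynomial.Bivariate

section Ell1a

variable {k M : Type} [Field k] [Field M] [Algebra k M] {W : WeierstrassCurve k} {x y : M}

theorem exists_isWFF (W : WeierstrassCurve k) :
    ∃ (M : Type) (_ : Field M) (_ : Algebra k M) (x y : M), IsWFF W M x y := by
  set A := W.toAffine.CoordinateRing with hA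
  set F := W.toAffine.FunctionField with hF
  set x : F := algebraMap A F (Affine.CoordinateRing.mk W.toAffine (C X)) with hx
  set y : F := algebraMap A F (Affine.CoordinateRing.mk W.toAffine Y) with hy
  have hinj : Function.Injective (algebraMap A F) := IsFractionRing.injective A F
  -- the composite `k[X] → A → F` is evaluation at `x`
  have hev : ∀ p : k[X], algebraMap A F (Affine.CoordinateRing.mk W.toAffine (C p)) = aeval x p := by
    intro p
    induction p using Polynomial.induction_on' with
    | add p q hp hq => rw [map_add, map_add, map_add, map_add, hp, hq]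
    | monomial n c =>
      rw [← C_mul_X_pow_eq_monomial, map_mul, map_mul, map_mul, map_mul, map_pow, map_pow, map_pow,
        map_pow, aeval_X, aeval_C, ← hx]
      rfl
  refine ⟨F, inferInstance, inferInstance, x, y, ?_, ?_, ?_⟩
  · -- the equation
    have hP : ∀ P : k[X][Y], eval₂ (eval₂RingHom (algebraMap k F) x) y P
        = algebraMap A F (Affine.CoordinateRing.mk W.toAffine P) := by
      intro P
      induction P using Polynomial.induction_on' with
      | add p q hp hq => rw [eval₂_add, map_add, map_add, hp, hq]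
      | monomial n c =>
        rw [← C_mul_X_pow_eq_monomial, eval₂_mul, eval₂_pow, eval₂_X, eval₂_C, map_mul, map_mul,
          map_pow, map_pow, hev, ← hy, coe_eval₂RingHom, aeval_def]
    show evalEval x y (W.map (algebraMap k F)).toAffine.polynomial = 0
    rw [Affine.map_polynomial, ← Polynomial.eval₂_eval₂RingHom_apply, hP, AdjoinRoot.mk_self,
      map_zero]
  · rw [transcendental_iff_injective]
    intro p q hpq
    rw [← hev, ← hev] at hpq
    have h1 := hinj hpq
    exact FaithfulSMul.algebraMap_injective k[X] A h1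
  · rw [eq_top_iff]
    intro z _
    obtain ⟨a, b, -, rfl⟩ := IsFractionRing.div_surjective A z
    have hmem : ∀ a : A, algebraMap A F a ∈ IntermediateField.adjoin k {x, y} := by
      intro a
      obtain ⟨p, q, rfl⟩ := Affine.CoordinateRing.exists_smul_basis_eq a
      rw [Affine.CoordinateRing.smul, Affine.CoordinateRing.smul, mul_one, map_add, map_mul, hev,
        hev, ← hy]
      have hxm : x ∈ IntermediateField.adjoin k {x, y} :=
        IntermediateField.subset_adjoin _ _ (by simp)
      have hym : y ∈ IntermediateField.adjoin k {x, y} :=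
        IntermediateField.subset_adjoin _ _ (by simp)
      have hpm : ∀ p : k[X], aeval x p ∈ IntermediateField.adjoin k {x, y} := fun p => by
        have := IntermediateField.aeval_coe (IntermediateField.adjoin k {x, y}) (R := k) ⟨x, hxm⟩ p
        rw [show aeval x p = _ from this]
        exact SetLike.coe_mem _
      exact add_mem (hpm p) (mul_mem (hpm q) hym)
    exact div_mem (hmem a) (hmem b)

/-- a "generic" solution `(x',y')` of the `f`-twisted equation in a field `N` defines an embedding of the coordinate ring -/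
theorem exists_semiHom (W : WeierstrassCurve k) {N : Type} [Field N] (f : k →+* N) (x' y' : N)
    (heq : (W.map f).toAffine.Equation x' y')
    (htr : ∀ q : k[X], q ≠ 0 → (q.map f).eval x' ≠ 0) :
    ∃ ψ : W.toAffine.CoordinateRing →+* N, Function.Injective ψ ∧
      (∀ p : k[X], ψ (Affine.CoordinateRing.mk W.toAffine (C p)) = (p.map f).eval x') ∧
      ψ (Affine.CoordinateRing.mk W.toAffine Y) = y' := by
  have h0 : W.toAffine.polynomial.eval₂ (eval₂RingHom f x') y' = 0 := by
    rw [Polynomial.eval₂_eval₂RingHom_apply, ← Affine.map_polynomial]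
    exact heq
  have hC : ∀ p : k[X], AdjoinRoot.lift (eval₂RingHom f x') y' h0
      (Affine.CoordinateRing.mk W.toAffine (C p)) = (p.map f).eval x' := by
    intro p
    rw [AdjoinRoot.lift_mk, eval₂_C, coe_eval₂RingHom, eval_map]
  have hY : AdjoinRoot.lift (eval₂RingHom f x') y' h0
      (Affine.CoordinateRing.mk W.toAffine Y) = y' := by
    rw [AdjoinRoot.lift_mk, eval₂_X]
  refine ⟨AdjoinRoot.lift (eval₂RingHom f x') y' h0, ?_, hC, hY⟩
  rw [injective_iff_map_eq_zero]
  intro z hz
  obtain ⟨p, q, rfl⟩ := Affine.CoordinateRing.exists_smul_basis_eq z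
  have hn := Affine.CoordinateRing.coe_norm_smul_basis (W' := W.toAffine) p q
  have hz' : Affine.CoordinateRing.mk W.toAffine (C p + C q * X)
      = p • (1 : W.toAffine.CoordinateRing) + q • Affine.CoordinateRing.mk W.toAffine Y := by
    rw [Affine.CoordinateRing.smul, Affine.CoordinateRing.smul, map_add, map_mul, mul_one]
  have h1 : AdjoinRoot.lift (eval₂RingHom f x') y' h0
      (Affine.CoordinateRing.mk W.toAffine (C (Algebra.norm k[X]
        (p • (1 : W.toAffine.CoordinateRing) + q • Affine.CoordinateRing.mk W.toAffine Y)))) = 0 := by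
    have : Affine.CoordinateRing.mk W.toAffine (C (Algebra.norm k[X]
        (p • (1 : W.toAffine.CoordinateRing) + q • Affine.CoordinateRing.mk W.toAffine Y)))
        = Affine.CoordinateRing.mk W.toAffine
          ((C p + C q * X) * (C p + C q * (-X - C (C W.toAffine.a₁ * X + C W.toAffine.a₃)))) := hn
    rw [this, map_mul, map_mul, hz', hz, zero_mul]
  rw [hC] at h1
  have h2 : Algebra.norm k[X]
        (p • (1 : W.toAffine.CoordinateRing) + q • Affine.CoordinateRing.mk W.toAffine Y) = 0 := by
    by_contra hne
    exact htr _ hne h1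
  have : Module.Finite k[X] W.toAffine.CoordinateRing :=
    Module.Finite.of_basis (Affine.CoordinateRing.basis W.toAffine)
  exact Algebra.norm_eq_zero_iff.1 h2

/-- the coordinate ring `k[W] = k[x,y] ⊆ M` -/
theorem IsWFF.exists_coordHom (h : IsWFF W M x y) :
    ∃ ι : W.toAffine.CoordinateRing →ₐ[k] M, Function.Injective ι ∧
      (∀ p : k[X], ι (Affine.CoordinateRing.mk W.toAffine (C p)) = aeval x p) ∧
      ι (Affine.CoordinateRing.mk W.toAffine Y) = y := by
  have htr : ∀ q : k[X], q ≠ 0 → (q.map (algebraMap k M)).eval x ≠ 0 := by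
    intro q hq h0
    rw [eval_map, ← aeval_def] at h0
    exact hq ((transcendental_iff.1 h.transc) q h0)
  obtain ⟨ψ, hinj, hC, hY⟩ := exists_semiHom W (algebraMap k M) x y h.equation htr
  have hcomm : ∀ c : k, ψ (algebraMap k W.toAffine.CoordinateRing c) = algebraMap k M c := by
    intro c
    have : algebraMap k W.toAffine.CoordinateRing c
        = Affine.CoordinateRing.mk W.toAffine (C (C c)) := rfl
    rw [this, hC, map_C, eval_C]
  refine ⟨{ ψ with commutes' := hcomm }, hinj, ?_, hY⟩
  intro p
  have := hC p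
  rw [eval_map, ← aeval_def] at this
  exact this

/-- `M = Frac k[x,y]` -/
theorem IsWFF.exists_frac (h : IsWFF W M x y) (ι : W.toAffine.CoordinateRing →ₐ[k] M)
    (hι : Function.Injective ι)
    (hX : ∀ p : k[X], ι (Affine.CoordinateRing.mk W.toAffine (C p)) = aeval x p)
    (hY : ι (Affine.CoordinateRing.mk W.toAffine Y) = y) (f : M) :
    ∃ a b : W.toAffine.CoordinateRing, b ≠ 0 ∧ f * ι b = ι a := by
  have hf : f ∈ IntermediateField.adjoin k {x, y} := by
    rw [h.gen]
    exact IntermediateField.mem_top
  induction hf using IntermediateField.adjoin_induction with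
  | mem z hz =>
    rcases hz with rfl | hz
    · refine ⟨Affine.CoordinateRing.mk W.toAffine (C X), 1, one_ne_zero, ?_⟩
      rw [hX, aeval_X, map_one, mul_one]
    · rw [Set.mem_singleton_iff] at hz
      subst hz
      exact ⟨Affine.CoordinateRing.mk W.toAffine Y, 1, one_ne_zero, by rw [hY, map_one, mul_one]⟩
  | algebraMap c =>
    exact ⟨algebraMap k _ c, 1, one_ne_zero, by rw [map_one, mul_one, AlgHom.commutes]⟩
  | add f1 f2 _ _ h1 h2 =>
    obtain ⟨a1, b1, hb1, e1⟩ := h1
    obtain ⟨a2, b2, hb2, e2⟩ := h2
    refine ⟨a1 * b2 + a2 * b1, b1 * b2, mul_ne_zero hb1 hb2, ?_⟩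
    rw [map_add, map_mul, map_mul, map_mul, ← e1, ← e2]
    ring
  | inv f1 _ h1 =>
    obtain ⟨a1, b1, hb1, e1⟩ := h1
    by_cases hf0 : f1 = 0
    · exact ⟨0, 1, one_ne_zero, by rw [hf0, inv_zero, zero_mul, map_zero]⟩
    · refine ⟨b1, a1, ?_, ?_⟩
      · rintro rfl
        rw [map_zero] at e1
        rcases mul_eq_zero.1 e1 with h' | h'
        · exact hf0 h'
        · exact hb1 (hι (by rw [h', map_zero]))
      · rw [← e1, ← mul_assoc, inv_mul_cancel₀ hf0, one_mul]
  | mul f1 f2 _ _ h1 h2 =>
    obtain ⟨a1, b1, hb1, e1⟩ := h1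
    obtain ⟨a2, b2, hb2, e2⟩ := h2
    refine ⟨a1 * a2, b1 * b2, mul_ne_zero hb1 hb2, ?_⟩
    rw [map_mul, map_mul, ← e1, ← e2]
    ring

/-- two ring homomorphisms out of `M = k(x,y)` which agree on `k`, `x`, `y` are equal -/
theorem IsWFF.ell1a_hom_ext (h : IsWFF W M x y) {N : Type} [Field N] (φ₁ φ₂ : M →+* N)
    (hk : ∀ c, φ₁ (algebraMap k M c) = φ₂ (algebraMap k M c)) (hx : φ₁ x = φ₂ x)
    (hy : φ₁ y = φ₂ y) : φ₁ = φ₂ := by
  ext m
  have hm : m ∈ IntermediateField.adjoin k {x, y} := by
    rw [h.gen]
    exact IntermediateField.mem_top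
  induction hm using IntermediateField.adjoin_induction with
  | mem z hz =>
    rcases hz with rfl | hz
    · exact hx
    · rw [Set.mem_singleton_iff] at hz
      subst hz
      exact hy
  | algebraMap c => exact hk c
  | add f1 f2 _ _ h1 h2 => rw [map_add, map_add, h1, h2]
  | inv f1 _ h1 => rw [map_inv₀, map_inv₀, h1]
  | mul f1 f2 _ _ h1 h2 => rw [map_mul, map_mul, h1, h2]

/-- mapping property: a "generic" solution `(x',y')` in a field `N` defines an embedding `M → N` -/
theorem IsWFF.lift (h : IsWFF W M x y) {N : Type} [Field N] (f : k →+* N) (x' y' : N)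
    (heq : (W.map f).toAffine.Equation x' y')
    (htr : ∀ q : k[X], q ≠ 0 → (q.map f).eval x' ≠ 0) :
    ∃! φ : M →+* N, (∀ c, φ (algebraMap k M c) = f c) ∧ φ x = x' ∧ φ y = y' := by
  obtain ⟨ι, hι, hX, hY⟩ := h.exists_coordHom
  obtain ⟨ψ, hψ, hψC, hψY⟩ := exists_semiHom W f x' y' heq htr
  let _ : Algebra W.toAffine.CoordinateRing M := ι.toRingHom.toAlgebra
  have halg : ∀ a, algebraMap W.toAffine.CoordinateRing M a = ι a := fun _ => rfl
  have : FaithfulSMul W.toAffine.CoordinateRing M :=
    (faithfulSMul_iff_algebraMap_injective _ _).2 hι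
  have : IsFractionRing W.toAffine.CoordinateRing M := by
    refine IsFractionRing.of_field _ _ fun z => ?_
    obtain ⟨a, b, hb, e⟩ := h.exists_frac ι hι hX hY z
    refine ⟨a, b, ?_⟩
    rw [halg, halg, ← e, mul_div_assoc, div_self, mul_one]
    intro h0
    exact hb (hι (by rw [h0, map_zero]))
  have hL1 : ∀ c, IsFractionRing.lift hψ (algebraMap k M c) = f c := by
    intro c
    have e1 : algebraMap k M c = algebraMap W.toAffine.CoordinateRing M
        (Affine.CoordinateRing.mk W.toAffine (C (C c))) := by
      rw [halg, hX, aeval_C]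
    rw [e1, IsFractionRing.lift_algebraMap, hψC, map_C, eval_C]
  have hL2 : IsFractionRing.lift hψ x = x' := by
    have e1 : x = algebraMap W.toAffine.CoordinateRing M
        (Affine.CoordinateRing.mk W.toAffine (C X)) := by
      rw [halg, hX, aeval_X]
    conv_lhs => rw [e1]
    rw [IsFractionRing.lift_algebraMap, hψC, map_X, eval_X]
  have hL3 : IsFractionRing.lift hψ y = y' := by
    have e1 : y = algebraMap W.toAffine.CoordinateRing M
        (Affine.CoordinateRing.mk W.toAffine Y) := by
      rw [halg, hY]
    conv_lhs => rw [e1]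
    rw [IsFractionRing.lift_algebraMap, hψY]
  refine ⟨IsFractionRing.lift hψ, ⟨hL1, hL2, hL3⟩, ?_⟩
  · rintro φ ⟨hφ1, hφ2, hφ3⟩
    refine h.ell1a_hom_ext φ _ ?_ ?_ ?_
    · intro c
      rw [hφ1, hL1]
    · rw [hφ2, hL2]
    · rw [hφ3, hL3]

end Ell1a

end Claimed.Agent.R280
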