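import Claimed.Agent.R280.Ell.P1a

/-!
# Row 280, package Ell1b: `1, y` is a basis of `M` over `k(x)`; `M/k` is a function field; constants

`W/k` ANY Weierstrass curve (no hypothesis on `Δ`).  Uses only the STATEMENTS of Ell1a.

PROVED (helper151).  PLAN (~650 lines)
* `IsWFF.repr_unique`: `ι (A • 1 + B • mk Y) = aeval x A + aeval x B * y` (`CoordinateRing.smul`), injectivity of `ι`, `CoordinateRing.smul_basis_eq_zero`.
* `IsWFF.repr`: `exists_frac` gives `f * ι b = ι a`; multiply by the conjugate `b' = ` (`b = p•1+q•mk Y ↦ p•1 + q•mk (negPolynomial)`);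
  `b * b' = mk (C (N b))` (`CoordinateRing.coe_norm_smul_basis`), `N b ≠ 0`; `a * b' = A•1 + B•mk Y` (`exists_smul_basis_eq`).
* `IsWFF.isFF`: `x` is transcendental; `M = k(x)(y)`, `y` integral over `k(x)` (monic quadratic from `h.equation`); `IntermediateField.adjoin.finiteDimensional`
  + `h.gen` + `IntermediateField.adjoin_adjoin_left`-type restriction of scalars.   Or: `1, y` span `M` over `k(x)` by `repr`.
* `IsWFF.finrank_x`: `![1, y]` is a basis over `k(x)`: span by `repr` (`aeval x C ≠ 0` is invertible IN `k(x)`), independence: clear denominators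
  (every element of `k(x)` is `aeval x A / aeval x C`: `IntermediateField.mem_adjoin_simple_iff`) and use `repr_unique`.
* `finrank_x_sub`, `finrank_x_inv`: `k(x - a) = k(x) = k(x⁻¹)` as intermediate fields (`IntermediateField.adjoin_simple_le_iff` both ways), then `rw`.
* `IsWFF.exists_embed`: `exists_isWFF (W.baseChange k')` + `IsWFF.lift` with `f = (algebraMap k' M').comp (algebraMap k k')`
  (`(W.baseChange k').baseChange M' = W.map f` by `WeierstrassCurve.map_map`; `(q.map f).eval x' = aeval x' (q.map (algebraMap k k'))`).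
* `IsWFF.algClosed`: `k' := AlgebraicClosure k`, `φ : M → M'` from `exists_embed`.  `φ f` is algebraic over `k'`, hence `φ f = algebraMap k' M' c`
  (`IsAlgClosed.algebraMap_surjective_of_isIntegral'`-type lemma, or: minpoly splits, a root).  `f * aeval x C = aeval x A + aeval x B * y`; apply `φ`;
  `repr_unique` over `k'` for `(A.map - c • C.map, B.map)`: `B = 0`, `A.map = c • C.map`; compare the leading coefficient of `C`: `c = algebraMap k k' c₀`,
  `A = c₀ • C`, `f = algebraMap k M c₀`.
-/

set_option autoImplicit false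

namespace Claimed.Agent.R280

open WithZero WeierstrassCurve Polynomial
open scoped Classical
open scoped Polynomial.Bivariate

section Ell1b

variable {k M : Type} [Field k] [Field M] [Algebra k M] {W : WeierstrassCurve k} {x y : M}

theorem ell1b_iota (ι : W.toAffine.CoordinateRing →ₐ[k] M)
    (hX : ∀ p : k[X], ι (Affine.CoordinateRing.mk W.toAffine (C p)) = aeval x p)
    (hY : ι (Affine.CoordinateRing.mk W.toAffine Y) = y) (A B : k[X]) :
    ι (A • (1 : W.toAffine.CoordinateRing) + B • Affine.CoordinateRing.mk W.toAffine Y)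
      = aeval x A + aeval x B * y := by
  rw [Affine.CoordinateRing.smul, Affine.CoordinateRing.smul, map_add, map_mul, map_mul, hX, hX, hY,
    map_one, mul_one]

theorem IsWFF.repr_unique (h : IsWFF W M x y) {A B : k[X]} (h0 : aeval x A + aeval x B * y = 0) :
    A = 0 ∧ B = 0 := by
  obtain ⟨ι, hι, hX, hY⟩ := h.exists_coordHom
  rw [← ell1b_iota ι hX hY] at h0
  exact Affine.CoordinateRing.smul_basis_eq_zero (hι (h0.trans (map_zero ι).symm))

/-- `1, y` is a basis of `M` over `k(x)` -/
theorem IsWFF.repr (h : IsWFF W M x y) (f : M) :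
    ∃ A B C : k[X], C ≠ 0 ∧ f * aeval x C = aeval x A + aeval x B * y := by
  obtain ⟨ι, hι, hX, hY⟩ := h.exists_coordHom
  obtain ⟨a, b, hb, hfb⟩ := h.exists_frac ι hι hX hY f
  obtain ⟨p, q, rfl⟩ := Affine.CoordinateRing.exists_smul_basis_eq b
  have hN := Affine.CoordinateRing.coe_norm_smul_basis (W' := W.toAffine) p q
  have hN0 : Algebra.norm k[X] (p • (1 : W.toAffine.CoordinateRing) + q • Affine.CoordinateRing.mk W.toAffine Y) ≠ 0 := by
    have : Module.Finite k[X] W.toAffine.CoordinateRing :=
      Module.Finite.of_basis (Affine.CoordinateRing.basis W.toAffine)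
    exact Algebra.norm_ne_zero_iff.2 hb
  set N := Algebra.norm k[X] (p • (1 : W.toAffine.CoordinateRing) + q • Affine.CoordinateRing.mk W.toAffine Y) with hNdef
  set b' : W.toAffine.CoordinateRing := Affine.CoordinateRing.mk W.toAffine
    (C p + C q * (-(Y : k[X][Y]) - C (C W.toAffine.a₁ * X + C W.toAffine.a₃))) with hb'
  have hbb : (p • (1 : W.toAffine.CoordinateRing) + q • Affine.CoordinateRing.mk W.toAffine Y) * b'
      = Affine.CoordinateRing.mk W.toAffine (C N) := by
    have : Affine.CoordinateRing.mk W.toAffine (C N) = AdjoinRoot.of W.toAffine.polynomial N := rfl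
    rw [this, hN, map_mul, hb', Affine.CoordinateRing.smul, Affine.CoordinateRing.smul]
    simp
  obtain ⟨A, B, hAB⟩ := Affine.CoordinateRing.exists_smul_basis_eq (a * b')
  refine ⟨A, B, N, hN0, ?_⟩
  rw [← ell1b_iota ι hX hY, hAB, ← hX, ← hbb, map_mul, map_mul, ← hfb, mul_assoc]

theorem IsWFF.ell1b_aeval_ne (h : IsWFF W M x y) {C : k[X]} (hC : C ≠ 0) : aeval x C ≠ 0 :=
  fun h0 => hC ((transcendental_iff.1 h.transc) C h0)

theorem ell1b_aeval_mem (x : M) (A : k[X]) : aeval x A ∈ IntermediateField.adjoin k {x} := by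
  rw [IntermediateField.mem_adjoin_simple_iff]
  exact ⟨A, 1, by simp⟩

theorem ell1b_mem_adjoin {x s : M} (hs : s ∈ IntermediateField.adjoin k {x}) :
    ∃ A C : k[X], C ≠ 0 ∧ s * aeval x C = aeval x A := by
  rw [IntermediateField.mem_adjoin_simple_iff] at hs
  obtain ⟨A, C, rfl⟩ := hs
  by_cases h0 : aeval x C = 0
  · exact ⟨0, 1, one_ne_zero, by simp [h0]⟩
  · refine ⟨A, C, fun hC => h0 (by simp [hC]), ?_⟩
    field_simp

theorem IsWFF.ell1b_li (h : IsWFF W M x y) :
    LinearIndependent (IntermediateField.adjoin k {x}) ![(1 : M), y] := by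
  rw [LinearIndependent.pair_iff]
  intro s t hst
  obtain ⟨A₁, C₁, hC₁, h₁⟩ := ell1b_mem_adjoin s.2
  obtain ⟨A₂, C₂, hC₂, h₂⟩ := ell1b_mem_adjoin t.2
  have hst' : (s : M) + (t : M) * y = 0 := by
    simpa [Algebra.smul_def] using hst
  have key : aeval x (A₁ * C₂) + aeval x (A₂ * C₁) * y = 0 := by
    rw [map_mul, map_mul, ← h₁, ← h₂]
    linear_combination (aeval x C₁ * aeval x C₂) * hst'
  obtain ⟨e₁, e₂⟩ := h.repr_unique key
  have a₁ : A₁ = 0 := (mul_eq_zero.1 e₁).resolve_right hC₂
  have a₂ : A₂ = 0 := (mul_eq_zero.1 e₂).resolve_right hC₁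
  rw [a₁, map_zero] at h₁
  rw [a₂, map_zero] at h₂
  constructor
  · exact Subtype.ext ((mul_eq_zero.1 h₁).resolve_right (h.ell1b_aeval_ne hC₁))
  · exact Subtype.ext ((mul_eq_zero.1 h₂).resolve_right (h.ell1b_aeval_ne hC₂))

theorem IsWFF.ell1b_span (h : IsWFF W M x y) :
    ⊤ ≤ Submodule.span (IntermediateField.adjoin k {x}) (Set.range ![(1 : M), y]) := by
  intro f _
  obtain ⟨A, B, C, hC, hf⟩ := h.repr f
  have hC0 := h.ell1b_aeval_ne hC
  have hA : aeval x A / aeval x C ∈ IntermediateField.adjoin k {x} :=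
    div_mem (ell1b_aeval_mem x A) (ell1b_aeval_mem x C)
  have hB : aeval x B / aeval x C ∈ IntermediateField.adjoin k {x} :=
    div_mem (ell1b_aeval_mem x B) (ell1b_aeval_mem x C)
  have : f = (⟨_, hA⟩ : IntermediateField.adjoin k {x}) • (1 : M)
      + (⟨_, hB⟩ : IntermediateField.adjoin k {x}) • y := by
    simp only [Algebra.smul_def, IntermediateField.algebraMap_apply, mul_one]
    field_simp
    exact hf
  rw [this]
  refine Submodule.add_mem _ (Submodule.smul_mem _ _ (Submodule.subset_span ⟨0, rfl⟩))
    (Submodule.smul_mem _ _ (Submodule.subset_span ⟨1, rfl⟩))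

theorem IsWFF.finrank_x (h : IsWFF W M x y) :
    Module.finrank (IntermediateField.adjoin k {x}) M = 2 := by
  rw [Module.finrank_eq_card_basis (Module.Basis.mk h.ell1b_li h.ell1b_span)]
  rfl

theorem IsWFF.isFF (h : IsWFF W M x y) : IsFF k M :=
  ⟨x, h.transc, Module.finite_of_finrank_pos (by rw [h.finrank_x]; norm_num)⟩

theorem IsWFF.finrank_x_sub (h : IsWFF W M x y) (a : k) :
    Module.finrank (IntermediateField.adjoin k {x - algebraMap k M a}) M = 2 := by
  have : IntermediateField.adjoin k {x - algebraMap k M a} = IntermediateField.adjoin k {x} := by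
    apply le_antisymm
    · rw [IntermediateField.adjoin_simple_le_iff]
      exact sub_mem (IntermediateField.mem_adjoin_simple_self k x) (IntermediateField.algebraMap_mem _ a)
    · rw [IntermediateField.adjoin_simple_le_iff]
      have := add_mem (IntermediateField.mem_adjoin_simple_self k (x - algebraMap k M a))
        (IntermediateField.algebraMap_mem _ a)
      simpa using this
  rw [this]
  exact h.finrank_x

theorem IsWFF.finrank_x_inv (h : IsWFF W M x y) :
    Module.finrank (IntermediateField.adjoin k {x⁻¹}) M = 2 := by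
  have : IntermediateField.adjoin k {x⁻¹} = IntermediateField.adjoin k {x} := by
    apply le_antisymm
    · rw [IntermediateField.adjoin_simple_le_iff]
      exact inv_mem (IntermediateField.mem_adjoin_simple_self k x)
    · rw [IntermediateField.adjoin_simple_le_iff]
      have := inv_mem (IntermediateField.mem_adjoin_simple_self k (x⁻¹))
      simpa using this
  rw [this]
  exact h.finrank_x

/-- embedding into the Weierstrass function field over an extension of the ground field -/
theorem IsWFF.exists_embed (h : IsWFF W M x y) (k' : Type) [Field k'] [Algebra k k'] :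
    ∃ (M' : Type) (_ : Field M') (_ : Algebra k' M') (x' y' : M') (φ : M →+* M'),
      IsWFF (W.baseChange k') M' x' y' ∧ φ x = x' ∧ φ y = y' ∧
      ∀ c : k, φ (algebraMap k M c) = algebraMap k' M' (algebraMap k k' c) := by
  obtain ⟨M', _, _, x', y', h'⟩ := exists_isWFF (W.baseChange k')
  have heq : (W.map ((algebraMap k' M').comp (algebraMap k k'))).toAffine.Equation x' y' := by
    have := h'.equation
    rwa [WeierstrassCurve.baseChange, WeierstrassCurve.baseChange, WeierstrassCurve.map_map] at this
  have htr : ∀ q : k[X], q ≠ 0 →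
      (q.map ((algebraMap k' M').comp (algebraMap k k'))).eval x' ≠ 0 := by
    intro q hq
    rw [← Polynomial.map_map, eval_map_algebraMap]
    exact h'.ell1b_aeval_ne ((Polynomial.map_ne_zero_iff (algebraMap k k').injective).2 hq)
  obtain ⟨φ, ⟨hc, hx, hy⟩, -⟩ := h.lift _ x' y' heq htr
  exact ⟨M', _, _, x', y', φ, h', hx, hy, hc⟩

theorem IsWFF.algClosed (h : IsWFF W M x y) (f : M) (hf : IsAlgebraic k f) :
    f ∈ Set.range (algebraMap k M) := by
  obtain ⟨M', _, _, x', y', φ, h', hx, hy, hc⟩ := h.exists_embed (AlgebraicClosure k)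
  -- `φ` transports polynomial values
  have hφ : ∀ (z : M) (A : k[X]),
      φ (aeval z A) = aeval (φ z) (A.map (algebraMap k (AlgebraicClosure k))) := by
    intro z A
    induction A using Polynomial.induction_on' with
    | add p q hp hq => simp only [map_add, Polynomial.map_add, hp, hq]
    | monomial n a =>
      simp only [aeval_monomial, map_mul, map_pow, hc, Polynomial.map_monomial]
  -- `φ f` is algebraic over the algebraic closure, hence a constant
  have halg : IsAlgebraic (AlgebraicClosure k) (φ f) := by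
    obtain ⟨p, hp0, hp⟩ := hf
    refine ⟨p.map (algebraMap k (AlgebraicClosure k)),
      (Polynomial.map_ne_zero_iff (algebraMap k (AlgebraicClosure k)).injective).2 hp0, ?_⟩
    rw [← hφ, hp, map_zero]
  obtain ⟨c, hcf⟩ : ∃ c : AlgebraicClosure k, algebraMap _ M' c = φ f :=
    minpoly.mem_range_of_degree_eq_one _ _
      (IsAlgClosed.degree_eq_one_of_irreducible _ (minpoly.irreducible halg.isIntegral))
  obtain ⟨A, B, C', hC, hfC⟩ := h.repr f
  have h1 := congrArg φ hfC
  rw [map_mul, map_add, map_mul, hφ, hφ, hφ, hx, hy, ← hcf] at h1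
  set σ := algebraMap k (AlgebraicClosure k) with hσ
  have h2 : aeval x' (A.map σ - C c * C'.map σ) + aeval x' (B.map σ) * y' = 0 := by
    rw [map_sub, map_mul, aeval_C]
    linear_combination -h1
  obtain ⟨e₁, e₂⟩ := h'.repr_unique h2
  have hB : B = 0 := (Polynomial.map_eq_zero_iff σ.injective).1 e₂
  have hlc : C'.leadingCoeff ≠ 0 := leadingCoeff_ne_zero.2 hC
  have e₃ : A.map σ = C c * C'.map σ := sub_eq_zero.1 e₁
  have e₄ := congrArg (fun p => p.coeff C'.natDegree) e₃
  simp only [coeff_map, coeff_C_mul] at e₄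
  have hc0 : c = σ (A.coeff C'.natDegree / C'.leadingCoeff) := by
    rw [map_div₀, e₄]
    have : σ C'.leadingCoeff ≠ 0 := (map_ne_zero σ).2 hlc
    rw [← Polynomial.leadingCoeff]
    field_simp
  refine ⟨A.coeff C'.natDegree / C'.leadingCoeff, φ.injective ?_⟩
  rw [hc, ← hcf, hc0]

end Ell1b

end Claimed.Agent.R280
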