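import Claimed.Agent.R280.Ell.P1b

/-!
# Row 280, package Ell2a: the place at infinity, evaluation, places of degree one

`W/k` ANY Weierstrass curve (no hypothesis on `Δ` is used in this file).  Uses the STATEMENTS of Ell1 and FF1, FF2.
Start every proof with `haveI := h.isFF`.

PLAN (~700 lines)
* `Place.v_aeval_le_one`: induction on the polynomial (`Polynomial.induction_on'` / `aeval_eq_sum_range` + `Valuation.map_sum_le`), `P.triv`.
* `Place.v_aeval_of_one_lt`: `1 < P.v x`: the leading term dominates strictly (`Valuation.map_add_eq_of_lt_left`; induct with `Polynomial.eraseLead` or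
  write `A = C a * X^n + A'`, `deg A' < n`, `v (aeval x A') ≤ v x^(n-1)·…`).
* `IsWFF.inf_rel`: equation `y² + a₁xy + a₃y = x³ + a₂x² + a₄x + a₆` (`Affine.equation_iff`, coefficients `algebraMap k M aᵢ` of valuation `≤ 1`).
  `v(RHS) = v x ^ 3`.  If `v y ≤ v x` then `v(LHS) ≤ v x ^ 2 < v x ^ 3`.  So `v y > v x > 1` and `v(LHS) = v y ^ 2`.
* `IsWFF.sum_poles_x`: `sum_zeros` for `x⁻¹` (transcendental) and `finrank_x_inv`.
* `existsUnique_inf`, `inf_spec`: existence `exists_place_lt_one` for `x⁻¹`.  For `P` at infinity write `P.v x = exp e`, `P.v y = exp e'`, `2e' = 3e`, `e > 0`: so `2 ∣ e`, `e ≥ 2`.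
  The summand of `P` in `sum_poles_x` is `e * deg P ≥ 2` (`Place.deg_pos`).  All summands are `≥ 0`, the support is finite (`finite_setOf_v_ne_one`).
  Two different places at infinity would give a sum `≥ 4`; one place: `e * deg P = 2` (other summands vanish), so `e = 2`, `deg P = 1`, `e' = 3`.
  (`finsum_eq_sum_of_support_subset`, `Finset.sum_le_sum_of_subset_of_nonneg`.)
* `le_one_of_not_inf`: `v x ≤ 1`; if `1 < v y` then `v(LHS) = v y ^ 2 > 1 ≥ v(RHS)`.
* `v_aeval_inf`, `v_mul_y_inf`, `v_repr_inf`: from `inf_spec`, `v_aeval_of_one_lt`; the two terms have valuations `exp (even)`, `exp (odd)` or `0`: different unless both `0`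
  (`Valuation.map_add_eq_of_lt_left/right`).
* `eval_at`: `A - C (A.eval a) = (X - C a) * q` (`Polynomial.X_sub_C_mul_divByMonic_eq_sub_modByMonic`/`dvd_iff_isRoot`), `v_aeval_le_one` (`v x ≤ 1` because `v (x - a) < 1`).
* `exists_at_of_deg_one`: `finrank k P.Res = 1` ⟹ `algebraMap k P.Res` is surjective (`finrank_eq_one_iff`/`Subalgebra.bot_eq_top_of_finrank_eq_one`/`Module.finrank_eq_one...`);
  `a :=` preimage of the residue of `⟨x, _⟩`; `residue z = 0 ↔ v z < 1` (`IsLocalRing.residue_eq_zero_iff`, `Valuation.mem_maximalIdeal...`, `ValuationSubring.valuation_lt_one_iff`).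
* `atPt_inj`: 4 cases; `v (algebraMap (a - a')) < 1 → a = a'` by `P.triv`.
-/

set_option autoImplicit false

namespace Claimed.Agent.R280

open WithZero WeierstrassCurve Polynomial
open scoped Classical

section Ell2a

variable {k M : Type} [Field k] [Field M] [Algebra k M] {W : WeierstrassCurve k} {x y : M}

theorem ell2a_v_alg_le {k M : Type*} [Field k] [Field M] [Algebra k M] (P : Place k M) (a : k) :
    P.v (algebraMap k M a) ≤ 1 := (Valuation.mem_valuationSubring_iff _ _).1 (P.algebraMap_mem a)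

omit [Field k] [Field M] [Algebra k M] in
theorem Place.v_aeval_le_one {k M : Type*} [Field k] [Field M] [Algebra k M] (P : Place k M) {z : M}
    (hz : P.v z ≤ 1) (A : k[X]) : P.v (aeval z A) ≤ 1 := by
  rw [aeval_eq_sum_range]
  refine P.v.map_sum_le fun i _ => ?_
  rw [Algebra.smul_def, map_mul, map_pow]
  exact mul_le_one' (ell2a_v_alg_le P _) (pow_le_one' hz i)

omit [Field k] [Field M] [Algebra k M] in
theorem Place.v_aeval_of_one_lt {k M : Type*} [Field k] [Field M] [Algebra k M] (P : Place k M)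
    {z : M} (hz : 1 < P.v z) {A : k[X]} (hA : A ≠ 0) : P.v (aeval z A) = P.v z ^ A.natDegree := by
  rw [aeval_eq_sum_range, Finset.sum_range_succ]
  have h1 : P.v (A.coeff A.natDegree • z ^ A.natDegree) = P.v z ^ A.natDegree := by
    rw [Algebra.smul_def, map_mul, map_pow, P.triv _ (by simpa using hA), one_mul]
  have h0 : P.v z ^ A.natDegree ≠ 0 := pow_ne_zero _ (ne_of_gt (lt_trans zero_lt_one hz))
  have h2 : P.v (∑ i ∈ Finset.range A.natDegree, A.coeff i • z ^ i) < P.v z ^ A.natDegree := by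
    refine P.v.map_sum_lt h0 fun i hi => ?_
    rw [Algebra.smul_def, map_mul, map_pow]
    calc P.v (algebraMap k M (A.coeff i)) * P.v z ^ i ≤ 1 * P.v z ^ i :=
          mul_le_mul_left (ell2a_v_alg_le P _) _
      _ = P.v z ^ i := one_mul _
      _ < P.v z ^ A.natDegree := pow_lt_pow_right₀ hz (Finset.mem_range.1 hi)
  rw [P.v.map_add_eq_of_lt_right (by rw [h1]; exact h2), h1]

/-- the equation, in factored form -/
theorem ell2a_eqn (h : IsWFF W M x y) :
    y * (y + (algebraMap k M W.a₁ * x + algebraMap k M W.a₃))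
      = x ^ 3 + (algebraMap k M W.a₂ * x ^ 2 + algebraMap k M W.a₄ * x + algebraMap k M W.a₆) := by
  have := (Affine.equation_iff _ _).1 h.equation
  simp only [WeierstrassCurve.baseChange, WeierstrassCurve.map_a₁, WeierstrassCurve.map_a₂,
    WeierstrassCurve.map_a₃, WeierstrassCurve.map_a₄, WeierstrassCurve.map_a₆] at this
  linear_combination this

theorem IsWFF.inf_rel (h : IsWFF W M x y) {P : Place k M} (hP : P.IsInf x) :
    P.v y ^ 2 = P.v x ^ 3 := by
  have hx : 1 < P.v x := hP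
  have hx1 : (1 : ℤᵐ⁰) ≤ P.v x := hx.le
  have e := congrArg P.v (ell2a_eqn h)
  -- the right side
  have hd : P.v (algebraMap k M W.a₂ * x ^ 2 + algebraMap k M W.a₄ * x + algebraMap k M W.a₆)
      ≤ P.v x ^ 2 := by
    refine P.v.map_add_le (P.v.map_add_le ?_ ?_) ?_
    · rw [map_mul, map_pow]
      exact (mul_le_mul_left (ell2a_v_alg_le P _) _).trans (one_mul _).le
    · rw [map_mul]
      refine ((mul_le_mul_left (ell2a_v_alg_le P _) _).trans (one_mul _).le).trans ?_
      exact le_self_pow₀ hx1 (by norm_num)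
    · exact (ell2a_v_alg_le P _).trans (one_le_pow₀ hx1)
  have h23 : P.v x ^ 2 < P.v x ^ 3 := pow_lt_pow_right₀ hx (by norm_num)
  have hR : P.v (x ^ 3 + (algebraMap k M W.a₂ * x ^ 2 + algebraMap k M W.a₄ * x
      + algebraMap k M W.a₆)) = P.v x ^ 3 := by
    rw [P.v.map_add_eq_of_lt_left (by rw [map_pow]; exact lt_of_le_of_lt hd h23), map_pow]
  rw [hR, map_mul] at e
  have hc : P.v (algebraMap k M W.a₁ * x + algebraMap k M W.a₃) ≤ P.v x := by
    refine P.v.map_add_le ?_ ((ell2a_v_alg_le P _).trans hx1)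
    rw [map_mul]
    exact (mul_le_mul_left (ell2a_v_alg_le P _) _).trans (one_mul _).le
  rcases le_or_gt (P.v y) (P.v x) with hy | hy
  · exfalso
    have : P.v y * P.v (y + (algebraMap k M W.a₁ * x + algebraMap k M W.a₃)) ≤ P.v x ^ 2 := by
      rw [sq]
      exact mul_le_mul' hy (P.v.map_add_le hy hc)
    rw [e] at this
    exact absurd this (not_le.2 h23)
  · rw [P.v.map_add_eq_of_lt_left (lt_of_le_of_lt hc hy)] at e
    rw [sq, e]

theorem IsWFF.le_one_of_not_inf (h : IsWFF W M x y) {P : Place k M} (hP : ¬ P.IsInf x) :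
    P.v x ≤ 1 ∧ P.v y ≤ 1 := by
  have hx : P.v x ≤ 1 := not_lt.1 hP
  refine ⟨hx, ?_⟩
  by_contra hy
  have hy : 1 < P.v y := not_le.1 hy
  have e := congrArg P.v (ell2a_eqn h)
  have hR : P.v (x ^ 3 + (algebraMap k M W.a₂ * x ^ 2 + algebraMap k M W.a₄ * x
      + algebraMap k M W.a₆)) ≤ 1 := by
    refine P.v.map_add_le ?_ (P.v.map_add_le (P.v.map_add_le ?_ ?_) (ell2a_v_alg_le P _))
    · rw [map_pow]; exact pow_le_one' hx 3
    · rw [map_mul, map_pow]; exact mul_le_one' (ell2a_v_alg_le P _) (pow_le_one' hx 2)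
    · rw [map_mul]; exact mul_le_one' (ell2a_v_alg_le P _) hx
  have hc : P.v (algebraMap k M W.a₁ * x + algebraMap k M W.a₃) ≤ 1 := by
    refine P.v.map_add_le ?_ (ell2a_v_alg_le P _)
    rw [map_mul]; exact mul_le_one' (ell2a_v_alg_le P _) hx
  rw [map_mul, P.v.map_add_eq_of_lt_left (lt_of_le_of_lt hc hy)] at e
  rw [← e] at hR
  exact absurd hR (not_le.2 (one_lt_mul'' hy hy))

theorem ell2a_x_ne_zero (h : IsWFF W M x y) : x ≠ 0 := by
  rintro rfl
  exact h.transc isAlgebraic_zero

theorem ell2a_transc_inv (h : IsWFF W M x y) : Transcendental k x⁻¹ := by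
  intro hx
  exact h.transc (by simpa using hx.inv)

theorem IsWFF.sum_poles_x (h : IsWFF W M x y) :
    ∑ᶠ P : Place k M, max (P.ord x⁻¹) 0 * (P.deg : ℤ) = 2 := by
  have := h.isFF
  rw [sum_zeros (ell2a_transc_inv h), h.finrank_x_inv]
  rfl

theorem ell2a_inf_data (h : IsWFF W M x y) {P : Place k M} (hP : P.IsInf x) :
    ∃ m : ℤ, 1 ≤ m ∧ P.v x = exp (2 * m) ∧ P.v y = exp (3 * m) := by
  have hx : 1 < P.v x := hP
  have hx0 : P.v x ≠ 0 := ne_of_gt (lt_trans zero_lt_one hx)
  have hrel := h.inf_rel hP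
  have hy0 : P.v y ≠ 0 := by
    intro h0
    rw [h0] at hrel
    exact pow_ne_zero 3 hx0 (by rw [← hrel]; simp)
  obtain ⟨e, he⟩ : ∃ e, P.v x = exp e := ⟨log (P.v x), (exp_log hx0).symm⟩
  obtain ⟨e', he'⟩ : ∃ e', P.v y = exp e' := ⟨log (P.v y), (exp_log hy0).symm⟩
  rw [he, he', ← exp_nsmul, ← exp_nsmul, exp_inj] at hrel
  rw [he, ← exp_zero, exp_lt_exp] at hx
  simp only [nsmul_eq_mul] at hrel
  push_cast at hrel
  refine ⟨e' - e, by omega, ?_, ?_⟩
  · rw [he]; congr 1; omega
  · rw [he']; congr 1; omega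

theorem ell2a_term {P : Place k M} {m : ℤ} (hm : P.v x = exp (2 * m)) (h1 : 1 ≤ m) :
    max (P.ord x⁻¹) 0 * (P.deg : ℤ) = 2 * m * P.deg := by
  rw [P.ord_inv, Place.ord, hm, log_exp, neg_neg, max_eq_left (by omega)]

theorem ell2a_support (h : IsWFF W M x y) :
    (Function.support fun P : Place k M => max (P.ord x⁻¹) 0 * (P.deg : ℤ)).Finite := by
  have := h.isFF
  refine (finite_setOf_v_ne_one (k := k) (f := x⁻¹) (inv_ne_zero (ell2a_x_ne_zero h))).subset
    fun P hP h1 => hP ?_
  simp [Place.ord, h1]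

theorem ell2a_pair_le {α : Type*} (f : α → ℤ) (hf : (Function.support f).Finite)
    (h0 : ∀ a, 0 ≤ f a) {a b : α} (hab : a ≠ b) : f a + f b ≤ ∑ᶠ i, f i := by
  rw [finsum_eq_sum_of_support_subset f (s := hf.toFinset ∪ {a, b})
    (by intro i hi; simp [Function.mem_support.1 hi]), ← Finset.sum_pair hab]
  exact Finset.sum_le_sum_of_subset_of_nonneg Finset.subset_union_right (fun i _ _ => h0 i)

theorem ell2a_nonneg (P : Place k M) : 0 ≤ max (P.ord x⁻¹) 0 * (P.deg : ℤ) :=
  mul_nonneg (le_max_right _ _) (Int.natCast_nonneg _)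

theorem IsWFF.existsUnique_inf (h : IsWFF W M x y) : ∃! P : Place k M, P.IsInf x := by
  have := h.isFF
  obtain ⟨P, hP⟩ := exists_place_lt_one (ell2a_transc_inv h)
  have hx0 : 0 < P.v x := zero_lt_iff.2 (P.v_ne_zero (ell2a_x_ne_zero h))
  rw [map_inv₀, inv_lt_one₀ hx0] at hP
  refine ⟨P, hP, fun Q hQ => ?_⟩
  by_contra hne
  obtain ⟨m, hm1, hm, -⟩ := ell2a_inf_data h (P := P) hP
  obtain ⟨m', hm1', hm', -⟩ := ell2a_inf_data h hQ
  have := ell2a_pair_le _ (ell2a_support h) (fun P => ell2a_nonneg (x := x) P) hne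
  rw [h.sum_poles_x, ell2a_term hm hm1, ell2a_term hm' hm1'] at this
  have d1 : (1 : ℤ) ≤ P.deg := by exact_mod_cast P.deg_pos
  have d2 : (1 : ℤ) ≤ Q.deg := by exact_mod_cast Q.deg_pos
  nlinarith [mul_le_mul hm1 d1 (by norm_num) (by omega), mul_le_mul hm1' d2 (by norm_num) (by omega)]

theorem IsWFF.inf_spec (h : IsWFF W M x y) {P : Place k M} (hP : P.IsInf x) :
    P.v x = exp 2 ∧ P.v y = exp 3 ∧ P.deg = 1 := by
  have := h.isFF
  obtain ⟨m, hm1, hm, hm3⟩ := ell2a_inf_data h hP
  have := single_le_finsum P (ell2a_support h) (fun P => ell2a_nonneg (x := x) P)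
  rw [h.sum_poles_x, ell2a_term hm hm1] at this
  have d1 : (1 : ℤ) ≤ P.deg := by exact_mod_cast P.deg_pos
  have e1 : m = 1 := by nlinarith
  have e2 : (P.deg : ℤ) = 1 := by nlinarith
  subst e1
  exact ⟨by simpa using hm, by simpa using hm3, by exact_mod_cast e2⟩

theorem IsWFF.v_aeval_inf (h : IsWFF W M x y) {P : Place k M} (hP : P.IsInf x) {A : k[X]}
    (hA : A ≠ 0) : P.v (aeval x A) = exp (2 * (A.natDegree : ℤ)) := by
  rw [P.v_aeval_of_one_lt hP hA, (h.inf_spec hP).1, ← exp_nsmul, nsmul_eq_mul, mul_comm]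

theorem IsWFF.v_mul_y_inf (h : IsWFF W M x y) {P : Place k M} (hP : P.IsInf x) {B : k[X]}
    (hB : B ≠ 0) : P.v (aeval x B * y) = exp (2 * (B.natDegree : ℤ) + 3) := by
  rw [map_mul, h.v_aeval_inf hP hB, (h.inf_spec hP).2.1, exp_add]

/-- no cancellation at infinity between the even and the odd part -/
theorem IsWFF.v_repr_inf (h : IsWFF W M x y) {P : Place k M} (hP : P.IsInf x) (A B : k[X]) :
    P.v (aeval x A + aeval x B * y) = max (P.v (aeval x A)) (P.v (aeval x B * y)) := by
  by_cases hA : A = 0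
  · simp [hA]
  by_cases hB : B = 0
  · simp [hB]
  refine P.v.map_add_of_distinct_val ?_
  rw [h.v_aeval_inf hP hA, h.v_mul_y_inf hP hB, Ne, exp_inj]
  omega

/-- polynomials in `x, y` are integral at the finite places -/
theorem IsWFF.v_repr_le_one (h : IsWFF W M x y) {P : Place k M} (hP : ¬ P.IsInf x) (A B : k[X]) :
    P.v (aeval x A + aeval x B * y) ≤ 1 := by
  obtain ⟨hx, hy⟩ := h.le_one_of_not_inf hP
  refine P.v.map_add_le (P.v_aeval_le_one hx A) ?_
  rw [map_mul]
  exact mul_le_one' (P.v_aeval_le_one hx B) hy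

theorem ell2a_le_one_of_sub {P : Place k M} {z : M} {a : k} (hz : P.v (z - algebraMap k M a) < 1) :
    P.v z ≤ 1 := by
  have : z = (z - algebraMap k M a) + algebraMap k M a := by ring
  rw [this]
  exact P.v.map_add_le hz.le (ell2a_v_alg_le P a)

theorem ell2a_eval_sub {P : Place k M} {z : M} {a : k} (hz : P.v (z - algebraMap k M a) < 1)
    (A : k[X]) : P.v (aeval z A - algebraMap k M (A.eval a)) < 1 := by
  obtain ⟨q, hq⟩ : X - C a ∣ A - C (A.eval a) := by
    rw [dvd_iff_isRoot]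
    simp
  have := congrArg (aeval z) hq
  simp only [map_sub, map_mul, aeval_X, aeval_C] at this
  rw [this, map_mul]
  exact mul_lt_one_of_lt_of_le hz (P.v_aeval_le_one (ell2a_le_one_of_sub hz) q)

/-- evaluation of polynomials in `x, y` at an affine point -/
theorem IsWFF.eval_at (h : IsWFF W M x y) {P : Place k M} {a b : k} (hP : P.IsAtXY x y a b)
    (A B : k[X]) :
    P.v (aeval x A + aeval x B * y - algebraMap k M (A.eval a + B.eval a * b)) < 1 := by
  obtain ⟨hx, hy⟩ := hP
  have e : aeval x A + aeval x B * y - algebraMap k M (A.eval a + B.eval a * b)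
      = (aeval x A - algebraMap k M (A.eval a)) + ((aeval x B - algebraMap k M (B.eval a)) * y
        + algebraMap k M (B.eval a) * (y - algebraMap k M b)) := by
    rw [map_add, map_mul]
    ring
  rw [e]
  refine P.v.map_add_lt (ell2a_eval_sub hx A) (P.v.map_add_lt ?_ ?_)
  · rw [map_mul]
    exact mul_lt_one_of_lt_of_le (ell2a_eval_sub hx B) (ell2a_le_one_of_sub hy)
  · rw [map_mul, mul_comm]
    exact mul_lt_one_of_lt_of_le hy (ell2a_v_alg_le P _)

theorem ell2a_alg_eq_zero {P : Place k M} {c : k} (hc : P.v (algebraMap k M c) < 1) : c = 0 := by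
  by_contra h0
  rw [P.triv c h0] at hc
  exact lt_irrefl _ hc

/-- a polynomial in `x, y` vanishes at the place at `(a,b)` iff it vanishes at the point `(a,b)` -/
theorem IsWFF.v_lt_one_iff_eval (h : IsWFF W M x y) {P : Place k M} {a b : k}
    (hP : P.IsAtXY x y a b) (A B : k[X]) :
    P.v (aeval x A + aeval x B * y) < 1 ↔ A.eval a + B.eval a * b = 0 := by
  have key := h.eval_at hP A B
  constructor
  · intro h1
    refine ell2a_alg_eq_zero (P := P) ?_
    have e : algebraMap k M (A.eval a + B.eval a * b) = (aeval x A + aeval x B * y)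
        - (aeval x A + aeval x B * y - algebraMap k M (A.eval a + B.eval a * b)) := by ring
    rw [e]
    exact P.v.map_sub_lt h1 key
  · intro h0
    rw [h0, map_zero, sub_zero] at key
    exact key

/-- the point under a place satisfies the equation -/
theorem IsWFF.equation_of_at (h : IsWFF W M x y) {P : Place k M} {a b : k}
    (hP : P.IsAtXY x y a b) : W.toAffine.Equation a b := by
  obtain ⟨hx, hy⟩ := hP
  have hx1 : x ∈ P.O := (Valuation.mem_valuationSubring_iff _ _).2 (ell2a_le_one_of_sub hx)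
  have hy1 : y ∈ P.O := (Valuation.mem_valuationSubring_iff _ _).2 (ell2a_le_one_of_sub hy)
  rw [Affine.equation_iff']
  refine ell2a_alg_eq_zero (P := P) ?_
  have e := ell2a_eqn h
  have e2 : algebraMap k M (b ^ 2 + W.a₁ * a * b + W.a₃ * b
      - (a ^ 3 + W.a₂ * a ^ 2 + W.a₄ * a + W.a₆))
      = (y - algebraMap k M b) * (-(y + algebraMap k M b + algebraMap k M W.a₁ * x
          + algebraMap k M W.a₃))
        + (x - algebraMap k M a) * ((x ^ 2 + x * algebraMap k M a + algebraMap k M a ^ 2)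
          + algebraMap k M W.a₂ * (x + algebraMap k M a) + algebraMap k M W.a₄
          - algebraMap k M W.a₁ * algebraMap k M b) := by
    simp only [map_sub, map_add, map_mul, map_pow]
    linear_combination e
  rw [e2]
  have hm : ∀ c : k, algebraMap k M c ∈ P.O := P.algebraMap_mem
  refine P.v.map_add_lt ?_ ?_
  · rw [map_mul]
    refine mul_lt_one_of_lt_of_le hy ((Valuation.mem_valuationSubring_iff _ _).1 ?_)
    exact neg_mem (add_mem (add_mem (add_mem hy1 (hm _)) (mul_mem (hm _) hx1)) (hm _))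
  · rw [map_mul]
    refine mul_lt_one_of_lt_of_le hx ((Valuation.mem_valuationSubring_iff _ _).1 ?_)
    exact sub_mem (add_mem (add_mem (add_mem (add_mem (pow_mem hx1 2) (mul_mem hx1 (hm _)))
      (pow_mem (hm _) 2)) (mul_mem (hm _) (add_mem hx1 (hm _)))) (hm _)) (mul_mem (hm _) (hm _))

theorem ell2a_at_unique {P : Place k M} {z : M} {a a' : k} (h1 : P.v (z - algebraMap k M a) < 1)
    (h2 : P.v (z - algebraMap k M a') < 1) : a = a' := by
  have : a - a' = 0 := by
    refine ell2a_alg_eq_zero (P := P) ?_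
    have e : algebraMap k M (a - a') = (z - algebraMap k M a') - (z - algebraMap k M a) := by
      rw [map_sub]; ring
    rw [e]
    exact P.v.map_sub_lt h2 h1
  exact sub_eq_zero.1 this

theorem IsWFF.atPt_inj (h : IsWFF W M x y) {P : Place k M} {Q Q' : W.toAffine.Point}
    (hQ : P.IsAtPt x y Q) (hQ' : P.IsAtPt x y Q') : Q = Q' := by
  cases Q with
  | zero =>
    cases Q' with
    | zero => rfl
    | some a b hab =>
      exact absurd (ell2a_le_one_of_sub hQ'.1) (not_le.2 hQ)
  | some a b hab =>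
    cases Q' with
    | zero => exact absurd (ell2a_le_one_of_sub hQ.1) (not_le.2 hQ')
    | some a' b' hab' =>
      obtain rfl := ell2a_at_unique hQ.1 hQ'.1
      obtain rfl := ell2a_at_unique hQ.2 hQ'.2
      rfl

theorem ell2a_exists_res {P : Place k M} (hdeg : P.deg = 1) {z : M} (hz : P.v z ≤ 1) :
    ∃ a : k, P.v (z - algebraMap k M a) < 1 := by
  have hbot : (⊥ : Subalgebra k P.Res) = ⊤ := Subalgebra.bot_eq_top_of_finrank_eq_one hdeg
  have hzO : z ∈ P.O := (Valuation.mem_valuationSubring_iff _ _).2 hz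
  have hmem : IsLocalRing.residue P.O ⟨z, hzO⟩ ∈ (⊥ : Subalgebra k P.Res) := by
    rw [hbot]; trivial
  obtain ⟨a, ha⟩ := Algebra.mem_bot.1 hmem
  refine ⟨a, ?_⟩
  have e : algebraMap k P.Res a = IsLocalRing.residue P.O (algebraMap k P.O a) := rfl
  rw [e] at ha
  have h0 : IsLocalRing.residue P.O (⟨z, hzO⟩ - algebraMap k P.O a) = 0 := by
    rw [map_sub, ha, sub_self]
  rw [IsLocalRing.residue_eq_zero_iff, ValuationSubring.valuation_lt_one_iff,
    ← (P.v.isEquiv_valuation_valuationSubring).lt_one_iff_lt_one] at h0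
  exact h0

theorem IsWFF.exists_at_of_deg_one (h : IsWFF W M x y) (hΔ : W.Δ ≠ 0) {P : Place k M}
    (hdeg : P.deg = 1) (hP : ¬ P.IsInf x) : ∃ a b, P.IsAtXY x y a b := by
  obtain ⟨hx, hy⟩ := h.le_one_of_not_inf hP
  obtain ⟨a, ha⟩ := ell2a_exists_res hdeg hx
  obtain ⟨b, hb⟩ := ell2a_exists_res hdeg hy
  exact ⟨a, b, ha, hb⟩

end Ell2a

end Claimed.Agent.R280
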