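import Claimed.Agent.R280.Ell.P2a

/-!
# Row 280, package Ell2b: the places at the affine rational points

PROVED (helper268): no sorry of its own.

`W/k` Weierstrass curve, `Δ ≠ 0` where stated.  Uses the STATEMENTS of Ell1, Ell2a, FF1, FF2.  Start every proof with `haveI := h.isFF`.

PLAN (~800 lines)
* `exists_place_of_ideal` (general): `R' := ι.range`, `𝔪 ⊇ I` maximal; `LocalSubring.ofPrime` (localisation inside `M`), `LocalSubring.exists_le_valuationSubring`
  (Mathlib.RingTheory.Valuation.LocalSubring) gives a valuation subring `B` dominating it; `B ≠ ⊤` since `ι c` (`c ∈ I`, `ι c ≠ 0`) is a nonunit of `B`;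
  `exists_place_of_valuationSubring`.  `P.v z ≤ 1 ↔ z ∈ B`, `P.v z < 1 ↔ z ∈ 𝔪_B` (`z = 0` or `z⁻¹ ∉ B`).
* `IsWFF.exists_at`: `ι` from `exists_coordHom`, `I := XYIdeal W a (C b)`, `I ≠ ⊤` because of `CoordinateRing.quotientXYIdealEquiv` (quotient `≃ k` is nontrivial),
  `XClass W a ∈ I` has image `x - a ≠ 0`.
* `IsWFF.at_or_at_neg`: `(y - b)(y - b') = (x - a) * (polynomial in x, y)` where `b' = negY a b = -b - a₁a - a₃`:
  `y² + a₁xy + a₃y - (b² + a₁ab + a₃b) = (y-b)(y-b') + a₁ (x-a) y`, and `x³+… - (a³+…) = (x-a)(…)`; `linear_combination` of `h.equation` and `hab`.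
  A product of valuation `< 1` with both factors `≤ 1` has a factor `< 1`.
* `sum_zeros_x_sub`: `sum_zeros` + `finrank_x_sub`.
* CASE `b ≠ b'` (`2b + a₁a + a₃ ≠ 0`): places `P` at `(a,b)`, `P'` at `(a,b')` exist and are different (`v (b - b') < 1` is impossible).  Each contributes `ord (x-a) * deg ≥ 1`;
  the sum is `2`: so these are the only zeros of `x - a`, `ord = 1`, `deg = 1`.  A second place at `(a,b)` would give `≥ 3`.
* CASE `b = b'`: `Δ ≠ 0` ⟹ `(a,b)` nonsingular (`Affine.equation_iff_nonsingular_of_Δ_ne_zero`/`(W.toAffine.equation_iff_nonsingular).mp` with `IsElliptic`, or `nonsingular_of_Δ_ne_zero`) ⟹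
  `c₁ := 3a² + 2a₂a + a₄ - a₁b ≠ 0`.   With `X = x - a`, `Y = y - b`:  `Y² + a₁XY = X³ + c₂X² + c₁X`.   `v(RHS) = v X`, `v(a₁XY) < v X`, hence `v Y ^ 2 = v X`.
  So `ord (x-a) = 2 ord (y-b) ≥ 2`; the sum is `2`: unique place, `ord (x - a) = 2`, `ord (y-b) = 1`, `deg = 1`.
* `existsUnique_atPt`: cases `Q = 0` (`existsUnique_inf`), `Q = some a b _` (`existsUnique_at`, `Nonsingular.left`).
-/

set_option autoImplicit false

namespace Claimed.Agent.R280

open WithZero WeierstrassCurve Polynomial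
open scoped Classical

theorem Place.ell2b_lt_one_of_nonunits {k M : Type*} [Field k] [Field M] [Algebra k M] (P : Place k M)
    {z : M} (hz : z ∈ P.O.nonunits) : P.v z < 1 := by
  rcases (ValuationSubring.mem_nonunits_iff_or _).1 hz with h | h
  · rw [h, map_zero]
    exact zero_lt_one
  · rw [Valuation.mem_valuationSubring_iff, not_le, map_inv₀] at h
    have h0 : P.v z ≠ 0 := by
      intro h0
      rw [h0, inv_zero] at h
      exact absurd h (by simp)
    exact (one_lt_inv₀ (zero_lt_iff.2 h0)).1 h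

/-- centre of a place: a proper nonzero ideal of a subring of `M` containing `k` is contained in the maximal ideal of a place -/
theorem exists_place_of_ideal {k M R : Type*} [Field k] [Field M] [Algebra k M] [IsFF k M]
    [CommRing R] [Algebra k R] (ι : R →ₐ[k] M) (hι : Function.Injective ι) (I : Ideal R)
    (hI : I ≠ ⊤) (hI0 : I ≠ ⊥) :
    ∃ P : Place k M, (∀ c, P.v (ι c) ≤ 1) ∧ ∀ c ∈ I, P.v (ι c) < 1 := by
  set f : R →+* M := ι.toRingHom with hf
  have hbij : Function.Bijective f.rangeRestrict :=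
    ⟨fun a b hab => hι (congrArg Subtype.val hab), f.rangeRestrict_surjective⟩
  set e : R ≃+* f.range := RingEquiv.ofBijective f.rangeRestrict hbij with he
  obtain ⟨B, hAB, hIB⟩ := Ideal.image_subset_nonunits_valuationSubring
    (Ideal.comap (e.symm : f.range →+* R) I) (Ideal.comap_ne_top _ hI)
  have hmem : ∀ c, ι c ∈ B := fun c => hAB ⟨c, rfl⟩
  have hnon : ∀ c ∈ I, ι c ∈ B.nonunits := by
    intro c hc
    apply hIB
    refine ⟨e c, ?_, rfl⟩
    show e.symm (e c) ∈ I
    rwa [RingEquiv.symm_apply_apply]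
  have hk : ∀ a : k, algebraMap k M a ∈ B := fun a => by
    rw [← ι.commutes a]
    exact hmem _
  have hB : B ≠ ⊤ := by
    rintro rfl
    obtain ⟨c, hc, hc0⟩ := Submodule.exists_mem_ne_zero_of_ne_bot hI0
    rcases (ValuationSubring.mem_nonunits_iff_or _).1 (hnon c hc) with h | h
    · exact hc0 (hι (by rw [h, map_zero]))
    · exact h trivial
  obtain ⟨P, hP⟩ := exists_place_of_valuationSubring (k := k) B hk hB
  refine ⟨P, fun c => ?_, fun c hc => ?_⟩
  · have : ι c ∈ P.O := hP ▸ hmem c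
    exact this
  · exact P.ell2b_lt_one_of_nonunits (hP ▸ hnon c hc)

section Ell2b

variable {k M : Type} [Field k] [Field M] [Algebra k M] {W : WeierstrassCurve k} {x y : M}

theorem IsWFF.ell2b_eq (h : IsWFF W M x y) :
    y ^ 2 + algebraMap k M W.a₁ * x * y + algebraMap k M W.a₃ * y
      = x ^ 3 + algebraMap k M W.a₂ * x ^ 2 + algebraMap k M W.a₄ * x + algebraMap k M W.a₆ := by
  have := (Affine.equation_iff _ _).1 h.equation
  simpa using this

theorem IsWFF.ell2b_x_sub_transc (h : IsWFF W M x y) (a : k) :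
    Transcendental k (x - algebraMap k M a) := by
  intro halg
  apply h.transc
  have := halg.add (isAlgebraic_algebraMap (A := M) a)
  simpa using this

theorem IsWFF.ell2b_x_sub_ne (h : IsWFF W M x y) (a : k) : x - algebraMap k M a ≠ 0 := by
  intro h0
  apply h.ell2b_x_sub_transc a
  rw [h0]
  exact isAlgebraic_zero

theorem IsWFF.exists_at (h : IsWFF W M x y) {a b : k} (hab : W.toAffine.Equation a b) :
    ∃ P : Place k M, P.IsAtXY x y a b := by
  have := h.isFF
  obtain ⟨ι, hι, hX, hY⟩ := h.exists_coordHom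
  have hXc : ι (Affine.CoordinateRing.XClass W.toAffine a) = x - algebraMap k M a := by
    rw [Affine.CoordinateRing.XClass, hX]
    simp
  have hYc : ι (Affine.CoordinateRing.YClass W.toAffine (C b)) = y - algebraMap k M b := by
    rw [Affine.CoordinateRing.YClass, map_sub, map_sub, hY, hX]
    simp
  have hI : Affine.CoordinateRing.XYIdeal W.toAffine a (C b) ≠ ⊤ := by
    intro htop
    have hev : (W.toAffine.polynomial.eval (C b)).eval a = 0 := by
      have := hab
      rwa [Affine.Equation, Polynomial.evalEval] at this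
    have e := Affine.CoordinateRing.quotientXYIdealEquiv (W' := W.toAffine) hev
    have : Subsingleton (W.toAffine.CoordinateRing ⧸ Affine.CoordinateRing.XYIdeal W.toAffine a (C b)) :=
      Ideal.Quotient.subsingleton_iff.2 htop
    have : Subsingleton k := e.symm.injective.subsingleton
    exact one_ne_zero (Subsingleton.elim (1 : k) 0)
  have hXmem : Affine.CoordinateRing.XClass W.toAffine a
      ∈ Affine.CoordinateRing.XYIdeal W.toAffine a (C b) :=
    Ideal.subset_span (by simp)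
  have hYmem : Affine.CoordinateRing.YClass W.toAffine (C b)
      ∈ Affine.CoordinateRing.XYIdeal W.toAffine a (C b) :=
    Ideal.subset_span (by simp)
  have hI0 : Affine.CoordinateRing.XYIdeal W.toAffine a (C b) ≠ ⊥ := by
    intro hbot
    rw [hbot, Ideal.mem_bot] at hXmem
    exact Affine.CoordinateRing.XClass_ne_zero a hXmem
  obtain ⟨P, -, hP⟩ := exists_place_of_ideal ι hι _ hI hI0
  refine ⟨P, ?_, ?_⟩
  · rw [← hXc]
    exact hP _ hXmem
  · rw [← hYc]
    exact hP _ hYmem

theorem Place.ell2b_v_algebraMap_le (P : Place k M) (c : k) : P.v (algebraMap k M c) ≤ 1 :=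
  P.algebraMap_mem c

theorem Place.ell2b_le_one_of_sub (P : Place k M) {z : M} {c : k}
    (hz : P.v (z - algebraMap k M c) < 1) : P.v z ≤ 1 := by
  have : z = (z - algebraMap k M c) + algebraMap k M c := by ring
  rw [this]
  exact (P.v.map_add _ _).trans (max_le hz.le (P.ell2b_v_algebraMap_le c))

theorem IsWFF.ell2b_not_inf (h : IsWFF W M x y) {P : Place k M} {a : k}
    (hP : P.v (x - algebraMap k M a) < 1) : ¬ P.IsInf x :=
  not_lt.2 (P.ell2b_le_one_of_sub hP)

theorem IsWFF.at_or_at_neg (h : IsWFF W M x y) {a b : k} (hab : W.toAffine.Equation a b)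
    {P : Place k M} (hP : P.v (x - algebraMap k M a) < 1) :
    P.IsAtXY x y a b ∨ P.IsAtXY x y a (W.toAffine.negY a b) := by
  have := h.isFF
  obtain ⟨hx1, hy1⟩ := h.le_one_of_not_inf (h.ell2b_not_inf hP)
  have hab' := congrArg (algebraMap k M) ((Affine.equation_iff _ _).1 hab)
  simp only [map_add, map_mul, map_pow] at hab'
  have heq := h.ell2b_eq
  have key : (y - algebraMap k M b) * (y - algebraMap k M (W.toAffine.negY a b))
      = (x - algebraMap k M a) * (x ^ 2 + x * algebraMap k M a + algebraMap k M a ^ 2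
          + algebraMap k M W.a₂ * (x + algebraMap k M a) + algebraMap k M W.a₄
          - algebraMap k M W.a₁ * y) := by
    simp only [Affine.negY, map_sub, map_neg, map_mul]
    linear_combination heq - hab'
  have hle : P.v (x ^ 2 + x * algebraMap k M a + algebraMap k M a ^ 2
          + algebraMap k M W.a₂ * (x + algebraMap k M a) + algebraMap k M W.a₄
          - algebraMap k M W.a₁ * y) ≤ 1 := by
    have hO : ∀ c : k, algebraMap k M c ∈ P.O := P.algebraMap_mem
    have hxO : x ∈ P.O := hx1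
    have hyO : y ∈ P.O := hy1
    have : x ^ 2 + x * algebraMap k M a + algebraMap k M a ^ 2
          + algebraMap k M W.a₂ * (x + algebraMap k M a) + algebraMap k M W.a₄
          - algebraMap k M W.a₁ * y ∈ P.O :=
      sub_mem (add_mem (add_mem (add_mem (add_mem (pow_mem hxO 2) (mul_mem hxO (hO a)))
        (pow_mem (hO a) 2)) (mul_mem (hO _) (add_mem hxO (hO a)))) (hO _)) (mul_mem (hO _) hyO)
    exact this
  have hlt : P.v ((y - algebraMap k M b) * (y - algebraMap k M (W.toAffine.negY a b))) < 1 := by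
    rw [key, map_mul]
    exact mul_lt_one_of_lt_of_le hP hle
  rw [map_mul] at hlt
  by_contra hcon
  rw [not_or] at hcon
  have h1 : 1 ≤ P.v (y - algebraMap k M b) := not_lt.1 fun hh => hcon.1 ⟨hP, hh⟩
  have h2 : 1 ≤ P.v (y - algebraMap k M (W.toAffine.negY a b)) := not_lt.1 fun hh => hcon.2 ⟨hP, hh⟩
  exact absurd hlt (not_lt.2 (one_le_mul_of_one_le_of_one_le h1 h2))

theorem IsWFF.sum_zeros_x_sub (h : IsWFF W M x y) (a : k) :
    ∑ᶠ P : Place k M, max (P.ord (x - algebraMap k M a)) 0 * (P.deg : ℤ) = 2 := by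
  have := h.isFF
  rw [sum_zeros (h.ell2b_x_sub_transc a), h.finrank_x_sub a]
  rfl

/-! ### counting zeros of `x - a` -/

theorem IsWFF.ell2b_sum_le (h : IsWFF W M x y) (a : k) (S : Finset (Place k M))
    (hS : ∀ P ∈ S, P.v (x - algebraMap k M a) < 1) :
    ∑ P ∈ S, P.ord (x - algebraMap k M a) * (P.deg : ℤ) ≤ 2 := by
  have := h.isFF
  have h1 := sum_ord_mul_deg_le S (h.ell2b_x_sub_ne a) hS
  rw [h.finrank_x_sub a] at h1
  exact_mod_cast h1

theorem IsWFF.ell2b_deg_pos (h : IsWFF W M x y) (P : Place k M) : (1 : ℤ) ≤ (P.deg : ℤ) := by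
  have := h.isFF
  exact_mod_cast P.deg_pos

theorem IsWFF.ell2b_ord_pos (h : IsWFF W M x y) {a : k} {P : Place k M}
    (hP : P.v (x - algebraMap k M a) < 1) : 1 ≤ P.ord (x - algebraMap k M a) :=
  (P.v_lt_one_iff (h.ell2b_x_sub_ne a)).1 hP

theorem ell2b_int_aux {u d : ℤ} (hu : 1 ≤ u) (hd : 1 ≤ d) (h : u * d ≤ 1) : u = 1 ∧ d = 1 := by
  constructor <;> nlinarith

theorem Place.ell2b_eq_of_sub_lt (P : Place k M) {z : M} {b b' : k}
    (h1 : P.v (z - algebraMap k M b) < 1) (h2 : P.v (z - algebraMap k M b') < 1) : b = b' := by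
  by_contra hne
  have h3 : P.v (algebraMap k M (b - b')) = 1 := P.triv _ (sub_ne_zero.2 hne)
  have h4 : algebraMap k M (b - b') = (z - algebraMap k M b') - (z - algebraMap k M b) := by
    rw [map_sub]
    ring
  rw [h4] at h3
  have h5 := (P.v.map_sub _ _).trans_lt (max_lt h2 h1)
  rw [h3] at h5
  exact lt_irrefl _ h5

/-- the case of two different points above `a` -/
theorem IsWFF.ell2b_caseA (h : IsWFF W M x y) {P : Place k M} {a b : k}
    (hP : P.IsAtXY x y a b) (hb : 2 * b + W.a₁ * a + W.a₃ ≠ 0) :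
    P.ord (x - algebraMap k M a) = 1 ∧ P.deg = 1 ∧ ∀ P₂ : Place k M, P₂.IsAtXY x y a b → P₂ = P := by
  have hab := h.equation_of_at hP
  obtain ⟨P', hP'⟩ := h.exists_at ((Affine.equation_neg a b).2 hab)
  have hne : ∀ Q : Place k M, Q.IsAtXY x y a b → Q ≠ P' := by
    rintro Q hQ rfl
    have := Q.ell2b_eq_of_sub_lt hQ.2 hP'.2
    apply hb
    rw [Affine.negY] at this
    linear_combination this
  have hterm : ∀ Q : Place k M, Q.v (x - algebraMap k M a) < 1 →
      1 ≤ Q.ord (x - algebraMap k M a) * (Q.deg : ℤ) := fun Q hQ =>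
    one_le_mul_of_one_le_of_one_le (h.ell2b_ord_pos hQ) (h.ell2b_deg_pos Q)
  have h2 := h.ell2b_sum_le a {P, P'} (by
    intro Q hQ
    rcases Finset.mem_insert.1 hQ with rfl | hQ
    · exact hP.1
    · rw [Finset.mem_singleton.1 hQ]
      exact hP'.1)
  rw [Finset.sum_pair (hne P hP)] at h2
  have h3 := hterm P' hP'.1
  obtain ⟨h4, h5⟩ := ell2b_int_aux (h.ell2b_ord_pos hP.1) (h.ell2b_deg_pos P) (by linarith)
  refine ⟨h4, by exact_mod_cast h5, fun P₂ hP₂ => ?_⟩
  by_contra hne2
  have h6 := h.ell2b_sum_le a {P₂, P, P'} (by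
    intro Q hQ
    rcases Finset.mem_insert.1 hQ with rfl | hQ
    · exact hP₂.1
    rcases Finset.mem_insert.1 hQ with rfl | hQ
    · exact hP.1
    · rw [Finset.mem_singleton.1 hQ]
      exact hP'.1)
  rw [Finset.sum_insert (by
    rw [Finset.mem_insert, Finset.mem_singleton, not_or]
    exact ⟨hne2, hne P₂ hP₂⟩), Finset.sum_pair (hne P hP)] at h6
  have h7 := hterm P₂ hP₂.1
  have h8 := hterm P hP.1
  linarith

/-- the ramified case: `v (y - b) ^ 2 = v (x - a)` -/
theorem IsWFF.ell2b_rel (h : IsWFF W M x y) (hΔ : W.Δ ≠ 0) {P : Place k M} {a b : k}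
    (hP : P.IsAtXY x y a b) (hb : 2 * b + W.a₁ * a + W.a₃ = 0) :
    P.v (y - algebraMap k M b) ^ 2 = P.v (x - algebraMap k M a) := by
  have hab := h.equation_of_at hP
  have hns := (Affine.equation_iff_nonsingular_of_Δ_ne_zero hΔ).1 hab
  have hc1 : 3 * a ^ 2 + 2 * W.a₂ * a + W.a₄ - W.a₁ * b ≠ 0 := by
    rcases ((Affine.nonsingular_iff' _ _).1 hns).2 with h1 | h1
    · intro h2
      apply h1
      linear_combination -h2
    · exact absurd hb h1
  have hab' := congrArg (algebraMap k M) ((Affine.equation_iff _ _).1 hab)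
  simp only [map_add, map_mul, map_pow] at hab'
  have hb' := congrArg (algebraMap k M) hb
  simp only [map_add, map_mul, map_zero, map_ofNat] at hb'
  have heq := h.ell2b_eq
  have key : (y - algebraMap k M b) ^ 2 = (x - algebraMap k M a)
      * (algebraMap k M (3 * a ^ 2 + 2 * W.a₂ * a + W.a₄ - W.a₁ * b)
        + ((x - algebraMap k M a) * ((x - algebraMap k M a) + algebraMap k M (3 * a + W.a₂))
          - algebraMap k M W.a₁ * (y - algebraMap k M b))) := by
    simp only [map_add, map_sub, map_mul, map_pow, map_ofNat]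
    linear_combination heq - hab' - (y - algebraMap k M b) * hb'
  have hsmall : P.v ((x - algebraMap k M a) * ((x - algebraMap k M a) + algebraMap k M (3 * a + W.a₂))
          - algebraMap k M W.a₁ * (y - algebraMap k M b)) < 1 := by
    refine (P.v.map_sub _ _).trans_lt (max_lt ?_ ?_)
    · rw [map_mul]
      exact mul_lt_one_of_lt_of_le hP.1
        ((P.v.map_add _ _).trans (max_le hP.1.le (P.ell2b_v_algebraMap_le _)))
    · rw [map_mul, mul_comm]
      exact mul_lt_one_of_lt_of_le hP.2 (P.ell2b_v_algebraMap_le _)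
  have hunit : P.v (algebraMap k M (3 * a ^ 2 + 2 * W.a₂ * a + W.a₄ - W.a₁ * b)
        + ((x - algebraMap k M a) * ((x - algebraMap k M a) + algebraMap k M (3 * a + W.a₂))
          - algebraMap k M W.a₁ * (y - algebraMap k M b))) = 1 := by
    rw [Valuation.map_add_eq_of_lt_left _ (by rw [P.triv _ hc1]; exact hsmall), P.triv _ hc1]
  rw [← map_pow, key, map_mul, hunit, mul_one]

/-- the ramified case -/
theorem IsWFF.ell2b_caseB (h : IsWFF W M x y) (hΔ : W.Δ ≠ 0) {P : Place k M} {a b : k}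
    (hP : P.IsAtXY x y a b) (hb : 2 * b + W.a₁ * a + W.a₃ = 0) :
    P.ord (x - algebraMap k M a) = 2 ∧ P.ord (y - algebraMap k M b) = 1 ∧ P.deg = 1 ∧
      ∀ P₂ : Place k M, P₂.IsAtXY x y a b → P₂ = P := by
  have hord : ∀ Q : Place k M, Q.IsAtXY x y a b →
      Q.ord (x - algebraMap k M a) = 2 * Q.ord (y - algebraMap k M b) ∧
        1 ≤ Q.ord (y - algebraMap k M b) := by
    intro Q hQ
    have hrel := h.ell2b_rel hΔ hQ hb
    have hy0 : y - algebraMap k M b ≠ 0 := by
      intro h0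
      rw [h0, map_zero, zero_pow two_ne_zero] at hrel
      exact Q.v_ne_zero (h.ell2b_x_sub_ne a) hrel.symm
    refine ⟨?_, (Q.v_lt_one_iff hy0).1 hQ.2⟩
    have := Q.ord_pow (y - algebraMap k M b) 2
    rw [Place.ord, map_pow, hrel] at this
    exact_mod_cast this
  obtain ⟨h1, h2⟩ := hord P hP
  have h3 := h.ell2b_sum_le a {P} (by
    intro Q hQ
    rw [Finset.mem_singleton.1 hQ]
    exact hP.1)
  rw [Finset.sum_singleton, h1] at h3
  obtain ⟨h4, h5⟩ := ell2b_int_aux h2 (h.ell2b_deg_pos P) (by linarith)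
  refine ⟨by rw [h1, h4]; rfl, h4, by exact_mod_cast h5, fun P₂ hP₂ => ?_⟩
  by_contra hne2
  have h6 := h.ell2b_sum_le a {P₂, P} (by
    intro Q hQ
    rcases Finset.mem_insert.1 hQ with rfl | hQ
    · exact hP₂.1
    · rw [Finset.mem_singleton.1 hQ]
      exact hP.1)
  rw [Finset.sum_pair hne2, h1, (hord P₂ hP₂).1] at h6
  have h7 := one_le_mul_of_one_le_of_one_le (hord P₂ hP₂).2 (h.ell2b_deg_pos P₂)
  have h8 := one_le_mul_of_one_le_of_one_le h2 (h.ell2b_deg_pos P)
  linarith

theorem IsWFF.existsUnique_at (h : IsWFF W M x y) (hΔ : W.Δ ≠ 0) {a b : k}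
    (hab : W.toAffine.Equation a b) : ∃! P : Place k M, P.IsAtXY x y a b := by
  obtain ⟨P, hP⟩ := h.exists_at hab
  refine ⟨P, hP, fun P₂ hP₂ => ?_⟩
  by_cases hb : 2 * b + W.a₁ * a + W.a₃ = 0
  · exact (h.ell2b_caseB hΔ hP hb).2.2.2 P₂ hP₂
  · exact (h.ell2b_caseA hP hb).2.2 P₂ hP₂

theorem IsWFF.at_spec (h : IsWFF W M x y) (hΔ : W.Δ ≠ 0) {P : Place k M} {a b : k}
    (hP : P.IsAtXY x y a b) : W.toAffine.Equation a b ∧ P.deg = 1 := by
  refine ⟨h.equation_of_at hP, ?_⟩
  by_cases hb : 2 * b + W.a₁ * a + W.a₃ = 0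
  · exact (h.ell2b_caseB hΔ hP hb).2.2.1
  · exact (h.ell2b_caseA hP hb).2.1

theorem IsWFF.unif_x (h : IsWFF W M x y) (hΔ : W.Δ ≠ 0) {P : Place k M} {a b : k}
    (hP : P.IsAtXY x y a b) (hb : 2 * b + W.a₁ * a + W.a₃ ≠ 0) :
    P.v (x - algebraMap k M a) = exp (-1) :=
  (P.ord_eq_iff (h.ell2b_x_sub_ne a) 1).1 (h.ell2b_caseA hP hb).1

theorem IsWFF.unif_y (h : IsWFF W M x y) (hΔ : W.Δ ≠ 0) {P : Place k M} {a b : k}
    (hP : P.IsAtXY x y a b) (hb : 2 * b + W.a₁ * a + W.a₃ = 0) :
    P.v (y - algebraMap k M b) = exp (-1) ∧ P.v (x - algebraMap k M a) = exp (-2) := by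
  obtain ⟨h1, h2, -, -⟩ := h.ell2b_caseB hΔ hP hb
  have hy0 : y - algebraMap k M b ≠ 0 := by
    intro h0
    rw [h0, Place.ord_zero] at h2
    exact zero_ne_one h2
  exact ⟨(P.ord_eq_iff hy0 1).1 h2, (P.ord_eq_iff (h.ell2b_x_sub_ne a) 2).1 h1⟩

theorem Place.ell2b_le_exp_neg_one (P : Place k M) {z : M} (hz : P.v z < 1) : P.v z ≤ exp (-1) := by
  by_cases h0 : z = 0
  · rw [h0, map_zero]
    exact zero_le'
  · rw [P.v_le_exp_iff h0]
    have := (P.v_lt_one_iff h0).1 hz
    omega

/-- the maximal ideal of the place at `(a,b)` is generated by `x - a, y - b` -/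
theorem IsWFF.max_at (h : IsWFF W M x y) (hΔ : W.Δ ≠ 0) {P : Place k M} {a b : k}
    (hP : P.IsAtXY x y a b) :
    max (P.v (x - algebraMap k M a)) (P.v (y - algebraMap k M b)) = exp (-1) := by
  by_cases hb : 2 * b + W.a₁ * a + W.a₃ = 0
  · obtain ⟨h1, h2⟩ := h.unif_y hΔ hP hb
    rw [h1, h2]
    exact max_eq_right (exp_le_exp.2 (by norm_num))
  · rw [h.unif_x hΔ hP hb]
    exact max_eq_left (P.ell2b_le_exp_neg_one hP.2)

theorem IsWFF.existsUnique_atPt (h : IsWFF W M x y) (hΔ : W.Δ ≠ 0) (Q : W.toAffine.Point) :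
    ∃! P : Place k M, P.IsAtPt x y Q := by
  cases Q with
  | zero => exact h.existsUnique_inf
  | some a b hns => exact h.existsUnique_at hΔ hns.left

/-- every place of degree one is the place at a rational point -/
theorem IsWFF.exists_atPt_of_deg_one (h : IsWFF W M x y) (hΔ : W.Δ ≠ 0) {P : Place k M}
    (hdeg : P.deg = 1) : ∃ Q : W.toAffine.Point, P.IsAtPt x y Q := by
  by_cases hinf : P.IsInf x
  · exact ⟨.zero, hinf⟩
  · obtain ⟨a, b, hab⟩ := h.exists_at_of_deg_one hΔ hdeg hinf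
    exact ⟨.some a b ((Affine.equation_iff_nonsingular_of_Δ_ne_zero hΔ).1 (h.equation_of_at hab)), hab⟩

theorem IsWFF.deg_of_atPt (h : IsWFF W M x y) (hΔ : W.Δ ≠ 0) {P : Place k M}
    {Q : W.toAffine.Point} (hP : P.IsAtPt x y Q) : P.deg = 1 := by
  cases Q with
  | zero => exact (h.inf_spec hP).2.2
  | some a b hns => exact (h.at_spec hΔ hP).2

end Ell2b

end Claimed.Agent.R280
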