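import Claimed.Agent.R280.Ell.P2b

/-!
# Row 280, package Ell3a: `k[x,y]` is the ring of functions without finite poles (`Δ ≠ 0`)

This is the only place where normality of the affine curve is proved.  NO Dedekind domains, NO Jacobian criterion over imperfect fields:
we pass to the algebraic closure, where every finite place is a rational point with the explicit uniformisers of Ell2b.
Uses the STATEMENTS of Ell1, Ell2, FF1.  Start every proof with `haveI := h.isFF`.

PLAN (~700 lines)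
* `IsWFF.eval_eq_zero_of_le` (KEY):  `g = A(x) + B(x) y`, `v_P g ≤ v_P (x - a)` at all zeros `P` of `x - a`; `b' := negY a b`.
  - `b ≠ b'`: places `P` at `(a,b)`, `P'` at `(a,b')` (`exists_at`; `equation_neg`): `v g < 1` at both, so (`v_lt_one_iff_eval`) `A(a) + B(a) b = 0 = A(a) + B(a) b'`, so `B(a) = 0 = A(a)`.
  - `b = b'`: `P` at `(a,b)`, `v (x-a) = exp (-2)`, `v (y-b) = exp (-1)` (`unif_y`).  `v g < 1` ⟹ `A₂(a) = 0`, `A₂ := A + C b * B`; so `(X - C a) ∣ A₂`, `v (A₂(x)) ≤ exp (-2)`;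
    `g = A₂(x) + B(x)(y - b)` ⟹ `v (B(x)) * exp (-1) ≤ exp (-2)` ⟹ `v (B(x)) < 1` ⟹ `B(a) = 0` (`v_lt_one_iff_eval` with `(B, 0)`) ⟹ `A(a) = 0`.
* `exists_y_of_isAlgClosed`: the quadratic `Y² + (a₁a + a₃) Y - (a³ + …)` has a root (`IsAlgClosed.exists_root`), `Affine.equation_iff`.
* `mem_coord_of_isAlgClosed`: `repr`: `f * C(x) = A(x) + B(x) y`; induction on `C.natDegree` (statement for all `f, A, B`).  `natDegree C = 0`: divide by the constant.
  Else `C = (X - C a) * C₁` (`IsAlgClosed.exists_root`, `dvd_iff_isRoot`).  `g := f * C₁(x)` has no finite poles (`v_aeval_le_one`), `g * (x - a) = A(x) + B(x) y`; KEY gives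
  `A = (X - C a) A₁`, `B = (X - C a) B₁`; cancel `x - a ≠ 0`: `f * C₁(x) = A₁(x) + B₁(x) y`.
* `no_pole_of_embed`: `P'` place of `M'/k'`, `¬ P'.IsInf x'`.  `B := P'.O.comap φ` (`ValuationSubring.comap`) contains `k`.  If `B = ⊤` done.  Else `B = P.O` (`exists_place_of_valuationSubring`);
  `x ∈ B` so `¬ P.IsInf x`; `hf P` gives `f ∈ B`.
* `descend_coord`: `repr`: `f * C(x) = A(x) + B(x) y` over `k`; apply `φ` and compare with `φ f = A'(x') + B'(x') y'` by `repr_unique` over `k'`:
  `A.map = C.map * A'`, `B.map = C.map * B'`; so `C.map ∣ A.map`, hence `C ∣ A` (normalise `C` monic; `Polynomial.map_dvd_map`), same for `B`; cancel `C(x) ≠ 0`.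
* `mem_coord` is PROVED below from these.
-/

set_option autoImplicit false

namespace Claimed.Agent.R280

open WithZero WeierstrassCurve Polynomial
open scoped Classical

section Ell3a

variable {k M : Type} [Field k] [Field M] [Algebra k M] {W : WeierstrassCurve k} {x y : M}

theorem Place.v_le_one_of_sub_lt (P : Place k M) {z : M} {a : k}
    (hz : P.v (z - algebraMap k M a) < 1) : P.v z ≤ 1 := by
  have e : z = (z - algebraMap k M a) + algebraMap k M a := by ring
  rw [e]
  exact (P.v.map_add _ _).trans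
    (max_le hz.le ((Valuation.mem_valuationSubring_iff _ _).1 (P.algebraMap_mem a)))

/-- KEY: divisibility by `x - a` in `k[x,y]` is detected by the places over `x = a` (both points over `a` rational) -/
theorem IsWFF.eval_eq_zero_of_le (h : IsWFF W M x y) (hΔ : W.Δ ≠ 0) {a b : k}
    (hab : W.toAffine.Equation a b) (A B : k[X])
    (hv : ∀ P : Place k M, P.v (x - algebraMap k M a) < 1 →
      P.v (aeval x A + aeval x B * y) ≤ P.v (x - algebraMap k M a)) :
    A.eval a = 0 ∧ B.eval a = 0 := by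
  obtain ⟨P, hP⟩ := h.exists_at hab
  have h1 : P.v (aeval x A + aeval x B * y) < 1 := (hv P hP.1).trans_lt hP.1
  have e1 : A.eval a + B.eval a * b = 0 := (h.v_lt_one_iff_eval hP A B).1 h1
  by_cases hb : 2 * b + W.a₁ * a + W.a₃ = 0
  · obtain ⟨u1, u2⟩ := h.unif_y hΔ hP hb
    obtain ⟨A₂, hA₂⟩ : ∃ A₂ : k[X], A₂ = A + C b * B := ⟨_, rfl⟩
    have hroot : A₂.IsRoot a := by
      rw [IsRoot.def, hA₂, eval_add, eval_mul, eval_C]
      linear_combination e1
    obtain ⟨Q, hQ⟩ := dvd_iff_isRoot.2 hroot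
    have hx1 : P.v x ≤ 1 := P.v_le_one_of_sub_lt hP.1
    have hA2v : P.v (aeval x A₂) ≤ exp (-2) := by
      rw [hQ, map_mul, map_mul, map_sub, aeval_X, aeval_C, u2]
      exact mul_le_of_le_one_right' (P.v_aeval_le_one hx1 Q)
    have hg : aeval x B * (y - algebraMap k M b) = (aeval x A + aeval x B * y) - aeval x A₂ := by
      rw [hA₂, map_add, map_mul, aeval_C]
      ring
    have hBv : P.v (aeval x B) * exp (-1) ≤ exp (-2) := by
      rw [← u1, ← map_mul, hg]
      exact (P.v.map_sub _ _).trans (max_le (u2 ▸ hv P hP.1) hA2v)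
    have hB1 : P.v (aeval x B) < 1 := by
      by_contra hc
      rw [not_lt] at hc
      have h3 : (exp (-1) : ℤᵐ⁰) ≤ exp (-2) := (le_mul_of_one_le_left' hc).trans hBv
      rw [exp_le_exp] at h3
      omega
    have e2 : B.eval a = 0 := by
      have := (h.v_lt_one_iff_eval hP B 0).1 (by simpa using hB1)
      simpa using this
    exact ⟨by rw [e2] at e1; simpa using e1, e2⟩
  · have hab' : W.toAffine.Equation a (W.toAffine.negY a b) := (Affine.equation_neg a b).2 hab
    obtain ⟨P', hP'⟩ := h.exists_at hab'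
    have h2 := (hv P' hP'.1).trans_lt hP'.1
    have e2 := (h.v_lt_one_iff_eval hP' A B).1 h2
    have h3 : B.eval a * (2 * b + W.a₁ * a + W.a₃) = 0 := by
      simp only [Affine.negY] at e2
      linear_combination e1 - e2
    rcases mul_eq_zero.1 h3 with h0 | h0
    · exact ⟨by rw [h0] at e1; simpa using e1, h0⟩
    · exact absurd h0 hb

theorem exists_y_of_isAlgClosed [IsAlgClosed k] (W : WeierstrassCurve k) (a : k) :
    ∃ b, W.toAffine.Equation a b := by
  have hdeg : (C (1 : k) * X ^ 2 + C (W.a₁ * a + W.a₃) * X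
      + C (-(a ^ 3 + W.a₂ * a ^ 2 + W.a₄ * a + W.a₆))).degree ≠ 0 := by
    rw [degree_quadratic one_ne_zero]
    decide
  obtain ⟨b, hb⟩ := IsAlgClosed.exists_root _ hdeg
  refine ⟨b, ?_⟩
  rw [IsRoot.def] at hb
  simp only [eval_add, eval_mul, eval_C, eval_pow, eval_X] at hb
  rw [Affine.equation_iff]
  linear_combination hb

theorem IsWFF.aeval_ne_zero (h : IsWFF W M x y) {p : k[X]} (hp : p ≠ 0) : aeval x p ≠ 0 :=
  fun h0 => hp (transcendental_iff.1 h.transc p h0)

theorem IsWFF.mem_coord_aux [IsAlgClosed k] (h : IsWFF W M x y) (hΔ : W.Δ ≠ 0) (n : ℕ) :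
    ∀ (D : k[X]), D ≠ 0 → D.natDegree = n → ∀ (f : M) (A B : k[X]),
      (∀ P : Place k M, ¬ P.IsInf x → P.v f ≤ 1) → f * aeval x D = aeval x A + aeval x B * y →
      ∃ A' B' : k[X], f = aeval x A' + aeval x B' * y := by
  induction n with
  | zero =>
    intro D hD hn f A B _ he
    obtain ⟨c, rfl⟩ := natDegree_eq_zero.1 hn
    have hc : c ≠ 0 := fun h0 => hD (by rw [h0, map_zero])
    have hc' : algebraMap k M c ≠ 0 := (_root_.map_ne_zero _).2 hc
    refine ⟨C c⁻¹ * A, C c⁻¹ * B, ?_⟩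
    rw [aeval_C] at he
    rw [map_mul, map_mul, aeval_C, map_inv₀]
    field_simp
    linear_combination he
  | succ n ih =>
    intro D hD hn f A B hf he
    have hdeg : D.degree ≠ 0 := by
      rw [degree_eq_natDegree hD, hn]
      exact_mod_cast Nat.succ_ne_zero n
    obtain ⟨a, ha⟩ := IsAlgClosed.exists_root D hdeg
    obtain ⟨D₁, hD₁⟩ := dvd_iff_isRoot.2 ha
    have hD₁0 : D₁ ≠ 0 := by
      rintro rfl
      exact hD (by rw [hD₁, mul_zero])
    have hn₁ : D₁.natDegree = n := by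
      have := congrArg natDegree hD₁
      rw [natDegree_mul (X_sub_C_ne_zero a) hD₁0, natDegree_X_sub_C, hn] at this
      omega
    obtain ⟨b, hab⟩ := exists_y_of_isAlgClosed W a
    have hxa : x - algebraMap k M a ≠ 0 := by
      have := h.aeval_ne_zero (X_sub_C_ne_zero a)
      rwa [map_sub, aeval_X, aeval_C] at this
    have he' : (f * aeval x D₁) * (x - algebraMap k M a) = aeval x A + aeval x B * y := by
      rw [← he, hD₁, map_mul, map_sub, aeval_X, aeval_C]
      ring
    obtain ⟨hA, hB⟩ := h.eval_eq_zero_of_le hΔ hab A B (by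
      intro P hP
      have hx1 : P.v x ≤ 1 := P.v_le_one_of_sub_lt hP
      rw [← he', map_mul, map_mul]
      exact mul_le_of_le_one_left' (mul_le_one' (hf P (not_lt.2 hx1)) (P.v_aeval_le_one hx1 D₁)))
    obtain ⟨A₁, hA₁⟩ := dvd_iff_isRoot.2 hA
    obtain ⟨B₁, hB₁⟩ := dvd_iff_isRoot.2 hB
    refine ih D₁ hD₁0 hn₁ f A₁ B₁ hf ?_
    apply mul_right_cancel₀ hxa
    rw [he', hA₁, hB₁, map_mul, map_mul, map_sub, aeval_X, aeval_C]
    ring

theorem IsWFF.mem_coord_of_isAlgClosed [IsAlgClosed k] (h : IsWFF W M x y) (hΔ : W.Δ ≠ 0) (f : M)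
    (hf : ∀ P : Place k M, ¬ P.IsInf x → P.v f ≤ 1) :
    ∃ A B : k[X], f = aeval x A + aeval x B * y := by
  obtain ⟨A, B, D, hD, he⟩ := h.repr f
  exact h.mem_coord_aux hΔ _ D hD rfl f A B hf he

theorem IsWFF.no_pole_of_embed (h : IsWFF W M x y) {k' M' : Type} [Field k'] [Algebra k k']
    [Field M'] [Algebra k' M'] {x' : M'} (φ : M →+* M') (hx : φ x = x')
    (hc : ∀ c : k, φ (algebraMap k M c) = algebraMap k' M' (algebraMap k k' c)) (f : M)
    (hf : ∀ P : Place k M, ¬ P.IsInf x → P.v f ≤ 1) (P' : Place k' M') (hP' : ¬ P'.IsInf x') :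
    P'.v (φ f) ≤ 1 := by
  haveI := h.isFF
  have hk : ∀ a : k, algebraMap k M a ∈ P'.O.comap φ := by
    intro a
    rw [ValuationSubring.mem_comap, hc]
    exact P'.algebraMap_mem _
  suffices hmem : f ∈ P'.O.comap φ by
    rw [ValuationSubring.mem_comap] at hmem
    exact (Valuation.mem_valuationSubring_iff _ _).1 hmem
  by_cases hT : P'.O.comap φ = ⊤
  · rw [hT]; trivial
  · obtain ⟨P, hP⟩ := exists_place_of_valuationSubring _ hk hT
    have hxm : x ∈ P.O := by
      rw [hP, ValuationSubring.mem_comap, hx]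
      exact (Valuation.mem_valuationSubring_iff _ _).2 (not_lt.1 hP')
    have hx1 : P.v x ≤ 1 := (Valuation.mem_valuationSubring_iff _ _).1 hxm
    rw [← hP]
    exact (Valuation.mem_valuationSubring_iff _ _).2 (hf P (not_lt.2 hx1))

theorem map_aeval_of_embed {k' M' : Type} [Field k'] [Algebra k k'] [Field M'] [Algebra k' M']
    (φ : M →+* M')
    (hc : ∀ c : k, φ (algebraMap k M c) = algebraMap k' M' (algebraMap k k' c)) (z : M) (p : k[X]) :
    φ (aeval z p) = aeval (φ z) (p.map (algebraMap k k')) := by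
  rw [aeval_def, hom_eval₂, aeval_def, eval₂_map]
  congr 1
  exact RingHom.ext hc

theorem IsWFF.descend_coord (h : IsWFF W M x y) {k' M' : Type} [Field k'] [Algebra k k']
    [Field M'] [Algebra k' M'] {x' y' : M'} (h' : IsWFF (W.baseChange k') M' x' y') (φ : M →+* M')
    (hx : φ x = x') (hy : φ y = y')
    (hc : ∀ c : k, φ (algebraMap k M c) = algebraMap k' M' (algebraMap k k' c)) (f : M)
    (A' B' : k'[X]) (hf : φ f = aeval x' A' + aeval x' B' * y') :
    ∃ A B : k[X], f = aeval x A + aeval x B * y := by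
  obtain ⟨A, B, D, hD, he⟩ := h.repr f
  have he' := congrArg φ he
  rw [map_mul, map_add, map_mul, map_aeval_of_embed φ hc, map_aeval_of_embed φ hc,
    map_aeval_of_embed φ hc, hx, hy, hf] at he'
  have h0 : aeval x' (A' * D.map (algebraMap k k') - A.map (algebraMap k k'))
      + aeval x' (B' * D.map (algebraMap k k') - B.map (algebraMap k k')) * y' = 0 := by
    rw [map_sub, map_sub, map_mul, map_mul]
    linear_combination he'
  obtain ⟨hA, hB⟩ := h'.repr_unique h0
  have dA : D ∣ A := (map_dvd_map' (algebraMap k k')).1 ⟨A', by rw [← sub_eq_zero.1 hA, mul_comm]⟩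
  have dB : D ∣ B := (map_dvd_map' (algebraMap k k')).1 ⟨B', by rw [← sub_eq_zero.1 hB, mul_comm]⟩
  obtain ⟨A₁, rfl⟩ := dA
  obtain ⟨B₁, rfl⟩ := dB
  refine ⟨A₁, B₁, ?_⟩
  apply mul_right_cancel₀ (h.aeval_ne_zero hD)
  rw [he, map_mul, map_mul]
  ring

/-- **normality**: a function without poles at the finite places is a polynomial in `x, y` -/
theorem IsWFF.mem_coord (h : IsWFF W M x y) (hΔ : W.Δ ≠ 0) (f : M)
    (hf : ∀ P : Place k M, ¬ P.IsInf x → P.v f ≤ 1) :
    ∃ A B : k[X], f = aeval x A + aeval x B * y := by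
  obtain ⟨M', _, _, x', y', φ, h', hx, hy, hc⟩ := h.exists_embed (AlgebraicClosure k)
  have hΔ' : (W.baseChange (AlgebraicClosure k)).Δ ≠ 0 := by
    rw [WeierstrassCurve.baseChange, WeierstrassCurve.map_Δ]
    exact (_root_.map_ne_zero _).mpr hΔ
  obtain ⟨A', B', hAB⟩ := h'.mem_coord_of_isAlgClosed hΔ' (φ f)
    (fun P' hP' => h.no_pole_of_embed φ hx hc f hf P' hP')
  exact h.descend_coord h' φ hx hy hc f A' B' hAB

end Ell3a

end Claimed.Agent.R280
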