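import Claimed.Agent.R280.Ell.P3a

/-!
# Row 280, package Ell3b: `L(j ∞)`, `ℓ(j ∞) = j`, `χ = 0`

Uses the STATEMENTS of Ell1, Ell2a, Ell3a (`mem_coord`), FF3 (`hasChi_chi`).  Start every proof with `haveI := h.isFF`.

PLAN (~600 lines)
* `mem_LSp_inf_iff`.  `mem_LSp`; `(Finsupp.single P j) P' = if P = P' then j else 0`; a place `P' ≠ P` is not at infinity (`existsUnique_inf`).
  (⇒) `mem_coord` gives `A, B`; at `P`: `v_repr_inf`, `v_aeval_inf`, `v_mul_y_inf`, `exp_le_exp`.   (⇐) `v_repr_le_one` at `P' ≠ P`; the same three lemmas at `P`.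
* `ell_inf` (`j ≥ 1`): the `k`-linear map `Φ : degreeLT k (j/2 + 1) × degreeLT k ((j-1)/2) → M`, `(A,B) ↦ A(x) + B(x) y` is injective (`repr_unique`) with range `LSp (single P j)`
  (`mem_LSp_inf_iff`; `2 natDegree A ≤ j ↔ A ∈ degreeLT (j/2+1)`; `B = 0 ∨ 2 natDegree B + 3 ≤ j ↔ B ∈ degreeLT ((j-1)/2)`; `Polynomial.mem_degreeLT`, `natDegree_lt_iff_degree_lt`);
  `finrank (degreeLT k n) = n` (`Polynomial.degreeLTEquiv`, `LinearEquiv.finrank_eq`, `Module.finrank_fin_fun`); `j/2 + 1 + (j-1)/2 = j` (`omega`).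
  `LinearEquiv.ofInjective` + `LinearEquiv.finrank_eq`.
* `chi_eq_zero`: `hasChi_chi` gives `c`; take `j := max c 1` (as a natural number); `(single P j).deg = j` (`Finsupp.sum_single_index`, `deg P = 1`); `ell = j`.
-/

set_option autoImplicit false

namespace Claimed.Agent.R280

open WithZero WeierstrassCurve Polynomial
open scoped Classical

section Ell3

variable {k M : Type} [Field k] [Field M] [Algebra k M] {W : WeierstrassCurve k} {x y : M}

theorem IsWFF.mem_LSp_inf_iff (h : IsWFF W M x y) (hΔ : W.Δ ≠ 0) {P : Place k M} (hP : P.IsInf x)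
    (j : ℕ) (f : M) : f ∈ LSp (Finsupp.single P (j : ℤ)) ↔
      ∃ A B : k[X], f = aeval x A + aeval x B * y ∧ 2 * A.natDegree ≤ j ∧
        (B = 0 ∨ 2 * B.natDegree + 3 ≤ j) := by
  have := h.isFF
  rw [mem_LSp]
  constructor
  · intro hf
    have hfin : ∀ P' : Place k M, ¬ P'.IsInf x → P'.v f ≤ 1 := by
      intro P' hP'
      have hne : P ≠ P' := fun e => hP' (e ▸ hP)
      have h1 := hf P'
      rwa [Finsupp.single_apply, if_neg hne, exp_zero] at h1
    obtain ⟨A, B, rfl⟩ := h.mem_coord hΔ f hfin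
    have h1 := hf P
    rw [Finsupp.single_eq_same, h.v_repr_inf hP, max_le_iff] at h1
    refine ⟨A, B, rfl, ?_, ?_⟩
    · by_cases hA : A = 0
      · simp [hA]
      · have h2 := h1.1
        rw [h.v_aeval_inf hP hA, exp_le_exp] at h2
        exact_mod_cast h2
    · by_cases hB : B = 0
      · exact Or.inl hB
      · right
        have h2 := h1.2
        rw [h.v_mul_y_inf hP hB, exp_le_exp] at h2
        exact_mod_cast h2
  · rintro ⟨A, B, rfl, hA, hB⟩ P'
    by_cases hP' : P'.IsInf x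
    · obtain rfl := h.existsUnique_inf.unique hP' hP
      rw [Finsupp.single_eq_same, h.v_repr_inf hP, max_le_iff]
      constructor
      · by_cases hA0 : A = 0
        · simp [hA0]
        · rw [h.v_aeval_inf hP hA0, exp_le_exp]
          exact_mod_cast hA
      · by_cases hB0 : B = 0
        · simp [hB0]
        · rw [h.v_mul_y_inf hP hB0, exp_le_exp]
          rcases hB with hB | hB
          · exact absurd hB hB0
          · exact_mod_cast hB
    · have hne : P ≠ P' := fun e => hP' (e ▸ hP)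
      rw [Finsupp.single_apply, if_neg hne, exp_zero]
      exact h.v_repr_le_one hP' A B

theorem IsWFF.ell_inf (h : IsWFF W M x y) (hΔ : W.Δ ≠ 0) {P : Place k M} (hP : P.IsInf x)
    {j : ℕ} (hj : 1 ≤ j) : ell (Finsupp.single P (j : ℤ)) = j := by
  have hfr : ∀ n : ℕ, Module.finrank k (degreeLT k n) = n := fun n => by
    rw [(degreeLTEquiv k n).finrank_eq, Module.finrank_fin_fun]
  have hfin : ∀ n : ℕ, Module.Finite k (degreeLT k n) := fun n =>
    Module.Finite.equiv (degreeLTEquiv k n).symm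
  obtain ⟨Φ, hΦ⟩ : ∃ Φ : (degreeLT k (j / 2 + 1) × degreeLT k ((j - 1) / 2)) →ₗ[k] M,
      ∀ p, Φ p = aeval x (p.1 : k[X]) + aeval x (p.2 : k[X]) * y :=
    ⟨((aeval x).toLinearMap ∘ₗ (degreeLT k (j / 2 + 1)).subtype).coprod
      ((LinearMap.mulRight k y) ∘ₗ (aeval x).toLinearMap ∘ₗ (degreeLT k ((j - 1) / 2)).subtype),
      fun p => by simp⟩
  have hinj : Function.Injective Φ := by
    rw [← LinearMap.ker_eq_bot, LinearMap.ker_eq_bot']
    rintro ⟨A, B⟩ h0
    rw [hΦ] at h0
    obtain ⟨hA, hB⟩ := h.repr_unique h0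
    ext1
    · exact Subtype.ext hA
    · exact Subtype.ext hB
  have hrange : LinearMap.range Φ = LSp (Finsupp.single P (j : ℤ)) := by
    ext f
    rw [h.mem_LSp_inf_iff hΔ hP, LinearMap.mem_range]
    constructor
    · rintro ⟨⟨⟨A, hA⟩, ⟨B, hB⟩⟩, rfl⟩
      refine ⟨A, B, hΦ _, ?_, ?_⟩
      · by_cases hA0 : A = 0
        · simp [hA0]
        · rw [mem_degreeLT, ← natDegree_lt_iff_degree_lt hA0] at hA
          omega
      · by_cases hB0 : B = 0
        · exact Or.inl hB0
        · right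
          rw [mem_degreeLT, ← natDegree_lt_iff_degree_lt hB0] at hB
          omega
    · rintro ⟨A, B, rfl, hA, hB⟩
      have hA' : A ∈ degreeLT k (j / 2 + 1) := by
        by_cases hA0 : A = 0
        · rw [hA0]; exact Submodule.zero_mem _
        · rw [mem_degreeLT, ← natDegree_lt_iff_degree_lt hA0]
          omega
      have hB' : B ∈ degreeLT k ((j - 1) / 2) := by
        by_cases hB0 : B = 0
        · rw [hB0]; exact Submodule.zero_mem _
        · rw [mem_degreeLT, ← natDegree_lt_iff_degree_lt hB0]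
          rcases hB with hB | hB
          · exact absurd hB hB0
          · omega
      exact ⟨(⟨A, hA'⟩, ⟨B, hB'⟩), hΦ _⟩
  unfold ell
  rw [← hrange, LinearMap.finrank_range_of_inj hinj, Module.finrank_prod, hfr, hfr]
  omega

theorem IsWFF.chi_eq_zero (h : IsWFF W M x y) (hΔ : W.Δ ≠ 0) : chi k M = 0 := by
  have := h.isFF
  obtain ⟨c, hc⟩ := hasChi_chi (k := k) (M := M)
  obtain ⟨P, hP, -⟩ := h.existsUnique_inf
  have hdeg := (h.inf_spec hP).2.2
  have hj : 1 ≤ max c.toNat 1 := le_max_right _ _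
  have h1 := hc (Finsupp.single P ((max c.toNat 1 : ℕ) : ℤ))
  rw [Dvsr.deg_single, hdeg, h.ell_inf hΔ hP hj] at h1
  have h2 : c ≤ ((max c.toNat 1 : ℕ) : ℤ) * ((1 : ℕ) : ℤ) := by
    have h3 : c.toNat ≤ max c.toNat 1 := le_max_left _ _
    have h4 := Int.self_le_toNat c
    push_cast
    omega
  have h5 := h1 h2
  simp only [Nat.cast_one, mul_one] at h5
  linarith

end Ell3

end Claimed.Agent.R280
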