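import Claimed.Agent.R280.Ell.P3b

/-!
# Row 280, package Ell4a: divisors of `x - a` and of lines, through Mathlib's ideal identities

IDEA.  Mathlib proves the group law with the identities of ideals of `k[W]`
  `XYIdeal_neg_mul     : XYIdeal W a (C (negY a b)) * XYIdeal W a (C b) = XIdeal W a`
  `XYIdeal_mul_XYIdeal : XIdeal W x₃ * (XYIdeal W x₁ (C y₁) * XYIdeal W x₂ (C y₂)) = YIdeal W (line) * XYIdeal W x₃ (C y₃)`
which hold in ALL degenerate cases (tangents, flexes).  For a finite place `P` the "valuation of an ideal" `max_{c ∈ I} v_P (ι c)` is multiplicative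
(`IsIdealVal.mul`), equals `v_P (ι c)` for `I = (c)`, and for `I = XYIdeal W a (C b) = (x - a, y - b)` it is `exp (-1)` if `P` is the place at `(a,b)` (`max_at`) and `1` otherwise.
So no multiplicity is ever computed by hand.

Uses the STATEMENTS of Ell1a (`exists_coordHom`), Ell2.  Start every proof with `haveI := h.isFF`.

PLAN (~600 lines)
* `idealVal_XY`: `XYIdeal = span {XClass a, YClass (C b)}`, `ι (XClass a) = x - a`, `ι (YClass (C b)) = y - b` (unfold `XClass`, `YClass`, `map_sub`, `hX`, `hY`, `aeval_C`…), `IsIdealVal.span_pair`;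
  `v (ι c) ≤ 1` for all `c` by `CoordinateRing.exists_smul_basis_eq` + `v_repr_le_one`.  If `P` is at `(a,b)`: `max_at`.  Else both are `≤ 1` and one is `= 1`.
* `v_x_sub_fin`: `XYIdeal_neg_mul` (nonsingular from `Δ ≠ 0`), `IsIdealVal.mul`, `IsIdealVal.span_singleton`, `IsIdealVal.unique`.
* `v_line_fin`: the same with `XYIdeal_mul_XYIdeal`; `(x₃, y₃)` is on the curve: `Affine.equation_add`/`nonsingular_add`.
* `divf_x_sub`, `abel_add_some`: `Finsupp.ext`, `divf_apply`; at `P₀`: `inf_spec`, `v_repr_inf` (`v (x - a) = exp 2`, `v (y - line(x)) = exp 3`); at a finite place `P`: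
  `P.IsAtXY x y a b ↔ P = P₁` (`existsUnique_at`), then `Place.ord`, `log_mul`, `log_exp`, `Finsupp.single_apply`.   `f := (y - line(x)) / (x - x₃)`.
* `abel_add`: cases on `Q₁`, `Q₂`.  `Q₁ = 0`: `P₁ = P₀`, `P₃ = P₂` (uniqueness), `f = 1`.  `Q₂ = 0` symmetric.  Both affine: if `x₁ = x₂ ∧ y₁ = negY x₂ y₂` then `Q₁ + Q₂ = 0` (`Point.add_of_Y_eq`), `P₃ = P₀`,
  `f = x - x₂` (`divf_x_sub`); else `Point.add_some` and `abel_add_some`.
-/

set_option autoImplicit false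

namespace Claimed.Agent.R280

open WithZero WeierstrassCurve Polynomial
open scoped Classical Polynomial.Bivariate

section IdealVal

variable {k M R : Type*} [Field k] [Field M] [Algebra k M] [CommRing R]

/-- `γ` is the maximum of `v_P ∘ ι` on the ideal `I` -/
def IsIdealVal (P : Place k M) (ι : R →+* M) (I : Ideal R) (γ : ℤᵐ⁰) : Prop :=
  (∀ c ∈ I, P.v (ι c) ≤ γ) ∧ ∃ c ∈ I, P.v (ι c) = γ

theorem IsIdealVal.unique {P : Place k M} {ι : R →+* M} {I : Ideal R} {γ γ' : ℤᵐ⁰}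
    (h : IsIdealVal P ι I γ) (h' : IsIdealVal P ι I γ') : γ = γ' := by
  obtain ⟨c, hc, rfl⟩ := h.2
  obtain ⟨c', hc', rfl⟩ := h'.2
  exact le_antisymm (h'.1 c hc) (h.1 c' hc')

theorem IsIdealVal.mul {P : Place k M} {ι : R →+* M} {I J : Ideal R} {γ γ' : ℤᵐ⁰}
    (h : IsIdealVal P ι I γ) (h' : IsIdealVal P ι J γ') : IsIdealVal P ι (I * J) (γ * γ') := by
  refine ⟨fun c hc => ?_, ?_⟩
  · induction hc using Submodule.mul_induction_on' with
    | mem_mul_mem a ha b hb =>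
      rw [map_mul, map_mul]
      exact mul_le_mul' (h.1 a ha) (h'.1 b hb)
    | add a _ b _ iha ihb =>
      rw [map_add]
      exact (P.v.map_add _ _).trans (max_le iha ihb)
  · obtain ⟨c, hc, rfl⟩ := h.2
    obtain ⟨c', hc', rfl⟩ := h'.2
    exact ⟨c * c', Ideal.mul_mem_mul hc hc', by rw [map_mul, map_mul]⟩

theorem IsIdealVal.span_singleton {P : Place k M} {ι : R →+* M} (hR : ∀ c, P.v (ι c) ≤ 1) (c : R) :
    IsIdealVal P ι (Ideal.span {c}) (P.v (ι c)) := by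
  refine ⟨fun d hd => ?_, c, Ideal.mem_span_singleton_self c, rfl⟩
  obtain ⟨a, rfl⟩ := Ideal.mem_span_singleton'.mp hd
  rw [map_mul, map_mul]
  exact mul_le_of_le_one_left' (hR a)

theorem IsIdealVal.span_pair {P : Place k M} {ι : R →+* M} (hR : ∀ c, P.v (ι c) ≤ 1) (c d : R) :
    IsIdealVal P ι (Ideal.span {c, d}) (max (P.v (ι c)) (P.v (ι d))) := by
  refine ⟨fun e he => ?_, ?_⟩
  · obtain ⟨a, b, rfl⟩ := Ideal.mem_span_pair.mp he
    rw [map_add, map_mul, map_mul]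
    refine (P.v.map_add _ _).trans (max_le_max ?_ ?_)
    · rw [map_mul]; exact mul_le_of_le_one_left' (hR a)
    · rw [map_mul]; exact mul_le_of_le_one_left' (hR b)
  · rcases le_total (P.v (ι c)) (P.v (ι d)) with hcd | hcd
    · exact ⟨d, Ideal.subset_span (by simp), (max_eq_right hcd).symm⟩
    · exact ⟨c, Ideal.subset_span (by simp), (max_eq_left hcd).symm⟩

end IdealVal

section Ell4a

variable {k M : Type} [Field k] [Field M] [Algebra k M] {W : WeierstrassCurve k} {x y : M}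

/-- the local factor of the point `(a,b)` at the place `P` -/
noncomputable def atVal (P : Place k M) (x y : M) (a b : k) : ℤᵐ⁰ :=
  if P.IsAtXY x y a b then exp (-1) else 1

/-- `ι` of an element of the coordinate ring in the basis `1, Y` -/
theorem ell4a_iota_basis (ι : W.toAffine.CoordinateRing →ₐ[k] M)
    (hX : ∀ p : k[X], ι (Affine.CoordinateRing.mk W.toAffine (C p)) = aeval x p)
    (hY : ι (Affine.CoordinateRing.mk W.toAffine Y) = y) (p q : k[X]) :
    ι (p • (1 : W.toAffine.CoordinateRing) + q • Affine.CoordinateRing.mk W.toAffine Y) =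
      aeval x p + aeval x q * y := by
  rw [Affine.CoordinateRing.smul, Affine.CoordinateRing.smul, map_add, map_mul, map_mul, hX, hX,
    hY, map_one, mul_one]

theorem ell4a_iota_XClass (ι : W.toAffine.CoordinateRing →ₐ[k] M)
    (hX : ∀ p : k[X], ι (Affine.CoordinateRing.mk W.toAffine (C p)) = aeval x p) (a : k) :
    ι (Affine.CoordinateRing.XClass W.toAffine a) = x - algebraMap k M a := by
  rw [Affine.CoordinateRing.XClass, hX]
  simp

theorem ell4a_iota_YClass (ι : W.toAffine.CoordinateRing →ₐ[k] M)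
    (hX : ∀ p : k[X], ι (Affine.CoordinateRing.mk W.toAffine (C p)) = aeval x p)
    (hY : ι (Affine.CoordinateRing.mk W.toAffine Y) = y) (p : k[X]) :
    ι (Affine.CoordinateRing.YClass W.toAffine p) = y - aeval x p := by
  rw [Affine.CoordinateRing.YClass, map_sub, map_sub, hX, hY]

theorem IsWFF.ell4a_le_one (h : IsWFF W M x y) (ι : W.toAffine.CoordinateRing →ₐ[k] M)
    (hX : ∀ p : k[X], ι (Affine.CoordinateRing.mk W.toAffine (C p)) = aeval x p)
    (hY : ι (Affine.CoordinateRing.mk W.toAffine Y) = y) {P : Place k M} (hP : ¬ P.IsInf x)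
    (c : W.toAffine.CoordinateRing) : P.v ((ι : W.toAffine.CoordinateRing →+* M) c) ≤ 1 := by
  obtain ⟨p, q, rfl⟩ := Affine.CoordinateRing.exists_smul_basis_eq c
  rw [RingHom.coe_coe, ell4a_iota_basis ι hX hY]
  exact h.v_repr_le_one hP p q

theorem Place.ell4a_v_algebraMap_le (P : Place k M) (a : k) : P.v (algebraMap k M a) ≤ 1 := by
  by_cases ha : a = 0
  · simp [ha]
  · exact (P.triv a ha).le

theorem IsWFF.idealVal_XY (h : IsWFF W M x y) (hΔ : W.Δ ≠ 0)
    (ι : W.toAffine.CoordinateRing →ₐ[k] M)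
    (hX : ∀ p : k[X], ι (Affine.CoordinateRing.mk W.toAffine (C p)) = aeval x p)
    (hY : ι (Affine.CoordinateRing.mk W.toAffine Y) = y) {P : Place k M} (hP : ¬ P.IsInf x)
    {a b : k} (hab : W.toAffine.Equation a b) :
    IsIdealVal P (ι : W.toAffine.CoordinateRing →+* M)
      (Affine.CoordinateRing.XYIdeal W.toAffine a (C b)) (atVal P x y a b) := by
  have hR := h.ell4a_le_one ι hX hY hP
  have h1 := IsIdealVal.span_pair hR (Affine.CoordinateRing.XClass W.toAffine a)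
    (Affine.CoordinateRing.YClass W.toAffine (C b))
  rw [RingHom.coe_coe, ell4a_iota_XClass ι hX, ell4a_iota_YClass ι hX hY, aeval_C] at h1
  have h2 : max (P.v (x - algebraMap k M a)) (P.v (y - algebraMap k M b)) = atVal P x y a b := by
    unfold atVal
    split_ifs with hat
    · exact h.max_at hΔ hat
    · obtain ⟨hx1, hy1⟩ := h.le_one_of_not_inf hP
      have hxa : P.v (x - algebraMap k M a) ≤ 1 :=
        (P.v.map_sub _ _).trans (max_le hx1 (P.ell4a_v_algebraMap_le a))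
      have hyb : P.v (y - algebraMap k M b) ≤ 1 :=
        (P.v.map_sub _ _).trans (max_le hy1 (P.ell4a_v_algebraMap_le b))
      apply le_antisymm (max_le hxa hyb)
      by_contra hcon
      rw [not_le, max_lt_iff] at hcon
      exact hat hcon
  rw [h2] at h1
  exact h1

theorem IsWFF.v_x_sub_fin (h : IsWFF W M x y) (hΔ : W.Δ ≠ 0) {P : Place k M} (hP : ¬ P.IsInf x)
    {a b : k} (hab : W.toAffine.Equation a b) :
    P.v (x - algebraMap k M a) = atVal P x y a (W.toAffine.negY a b) * atVal P x y a b := by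
  obtain ⟨ι, -, hX, hY⟩ := h.exists_coordHom
  have hR := h.ell4a_le_one ι hX hY hP
  have hns : W.toAffine.Nonsingular a b :=
    (Affine.equation_iff_nonsingular_of_Δ_ne_zero hΔ).1 hab
  have h1 := (h.idealVal_XY hΔ ι hX hY hP ((Affine.equation_neg a b).2 hab)).mul
    (h.idealVal_XY hΔ ι hX hY hP hab)
  rw [Affine.CoordinateRing.XYIdeal_neg_mul hns] at h1
  have h2 := IsIdealVal.span_singleton hR (Affine.CoordinateRing.XClass W.toAffine a)
  rw [RingHom.coe_coe, ell4a_iota_XClass ι hX] at h2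
  exact h2.unique h1

theorem IsWFF.v_line_fin (h : IsWFF W M x y) (hΔ : W.Δ ≠ 0) {P : Place k M} (hP : ¬ P.IsInf x)
    {x₁ y₁ x₂ y₂ : k} (h₁ : W.toAffine.Equation x₁ y₁) (h₂ : W.toAffine.Equation x₂ y₂)
    (hxy : ¬ (x₁ = x₂ ∧ y₁ = W.toAffine.negY x₂ y₂)) :
    P.v (x - algebraMap k M (W.toAffine.addX x₁ x₂ (W.toAffine.slope x₁ x₂ y₁ y₂))) *
        (atVal P x y x₁ y₁ * atVal P x y x₂ y₂) =
      P.v (y - aeval x (Affine.linePolynomial x₁ y₁ (W.toAffine.slope x₁ x₂ y₁ y₂))) *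
        atVal P x y (W.toAffine.addX x₁ x₂ (W.toAffine.slope x₁ x₂ y₁ y₂))
          (W.toAffine.addY x₁ x₂ y₁ (W.toAffine.slope x₁ x₂ y₁ y₂)) := by
  obtain ⟨ι, -, hX, hY⟩ := h.exists_coordHom
  have hR := h.ell4a_le_one ι hX hY hP
  have h₃ : W.toAffine.Equation (W.toAffine.addX x₁ x₂ (W.toAffine.slope x₁ x₂ y₁ y₂))
      (W.toAffine.addY x₁ x₂ y₁ (W.toAffine.slope x₁ x₂ y₁ y₂)) :=
    Affine.equation_add h₁ h₂ hxy
  have hl := (IsIdealVal.span_singleton hR (Affine.CoordinateRing.XClass W.toAffine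
    (W.toAffine.addX x₁ x₂ (W.toAffine.slope x₁ x₂ y₁ y₂)))).mul
      ((h.idealVal_XY hΔ ι hX hY hP h₁).mul (h.idealVal_XY hΔ ι hX hY hP h₂))
  have hr := (IsIdealVal.span_singleton hR (Affine.CoordinateRing.YClass W.toAffine
    (Affine.linePolynomial x₁ y₁ (W.toAffine.slope x₁ x₂ y₁ y₂)))).mul
      (h.idealVal_XY hΔ ι hX hY hP h₃)
  have hid := Affine.CoordinateRing.XYIdeal_mul_XYIdeal h₁ h₂ hxy
  rw [Affine.CoordinateRing.XIdeal, Affine.CoordinateRing.YIdeal] at hid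
  rw [hid, RingHom.coe_coe, ell4a_iota_XClass ι hX] at hl
  rw [RingHom.coe_coe, ell4a_iota_YClass ι hX hY] at hr
  exact hl.unique hr

theorem IsWFF.ell4a_atVal (h : IsWFF W M x y) (hΔ : W.Δ ≠ 0) {a b : k} {P : Place k M}
    (hP : P.IsAtXY x y a b) (Q : Place k M) :
    atVal Q x y a b = exp (-(Finsupp.single P (1 : ℤ) Q)) := by
  unfold atVal
  split_ifs with hQ
  · obtain rfl := (h.existsUnique_at hΔ (h.equation_of_at hP)).unique hQ hP
    simp
  · have hne : P ≠ Q := fun e => hQ (e ▸ hP)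
    simp [hne]

theorem Place.ell4a_not_inf {P : Place k M} {a b : k} (hP : P.IsAtXY x y a b) : ¬ P.IsInf x := by
  unfold Place.IsInf
  rw [not_lt]
  have h1 : x = (x - algebraMap k M a) + algebraMap k M a := by ring
  rw [h1]
  exact (P.v.map_add _ _).trans (max_le hP.1.le (P.ell4a_v_algebraMap_le a))

theorem IsWFF.ell4a_v_x_sub_inf (h : IsWFF W M x y) {P : Place k M} (hP : P.IsInf x) (a : k) :
    P.v (x - algebraMap k M a) = exp 2 := by
  have h1 := h.v_aeval_inf hP (X_sub_C_ne_zero a)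
  rw [natDegree_X_sub_C] at h1
  simpa using h1

theorem IsWFF.ell4a_v_line_inf (h : IsWFF W M x y) {P : Place k M} (hP : P.IsInf x) {L : k[X]}
    (hL : L.natDegree ≤ 1) : P.v (y - aeval x L) = exp 3 := by
  have h1 := h.v_repr_inf hP (-L) 1
  have h2 := h.v_mul_y_inf hP (one_ne_zero (α := k[X]))
  have h3 : P.v (aeval x (-L)) ≤ exp 2 := by
    by_cases hL0 : L = 0
    · simp [hL0]
    · rw [h.v_aeval_inf hP (neg_ne_zero.2 hL0), exp_le_exp, natDegree_neg]
      have : (L.natDegree : ℤ) ≤ 1 := by exact_mod_cast hL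
      omega
  rw [h2, natDegree_one] at h1
  have h4 : y - aeval x L = aeval x (-L) + aeval x (1 : k[X]) * y := by
    simp only [map_neg, map_one, one_mul]
    ring
  rw [h4, h1]
  refine (max_eq_right (h3.trans ?_)).trans (by norm_num)
  rw [exp_le_exp]
  norm_num

/-- `div (x - a) = [(a,b)] + [-(a,b)] - 2 [O]` -/
theorem IsWFF.divf_x_sub (h : IsWFF W M x y) (hΔ : W.Δ ≠ 0) {a b : k} {P P' P₀ : Place k M}
    (hP : P.IsAtXY x y a b) (hP' : P'.IsAtXY x y a (W.toAffine.negY a b)) (h₀ : P₀.IsInf x) :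
    divf (k := k) (x - algebraMap k M a) =
      Finsupp.single P 1 + Finsupp.single P' 1 - Finsupp.single P₀ 1 - Finsupp.single P₀ 1 := by
  have := h.isFF
  have hab := h.equation_of_at hP
  have hne : x - algebraMap k M a ≠ 0 := by
    intro h0
    have h1 := h.ell4a_v_x_sub_inf h₀ a
    rw [h0, map_zero] at h1
    exact exp_ne_zero h1.symm
  ext Q
  rw [divf_apply hne]
  simp only [Finsupp.coe_sub, Finsupp.coe_add, Pi.sub_apply, Pi.add_apply]
  by_cases hQ : Q.IsInf x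
  · obtain rfl := h.existsUnique_inf.unique hQ h₀
    have h1 : P ≠ Q := fun e => Place.ell4a_not_inf hP (e ▸ hQ)
    have h2 : P' ≠ Q := fun e => Place.ell4a_not_inf hP' (e ▸ hQ)
    rw [(Q.ord_eq_iff hne (-2)).2 (by simpa using h.ell4a_v_x_sub_inf hQ a)]
    simp [h1, h2]
  · have h0 : P₀ ≠ Q := fun e => hQ (e ▸ h₀)
    rw [Q.ord_eq_iff hne, h.v_x_sub_fin hΔ hQ hab, h.ell4a_atVal hΔ hP, h.ell4a_atVal hΔ hP',
      ← exp_add]
    congr 1
    simp only [Finsupp.single_apply, h0, if_false]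
    ring

theorem IsWFF.abel_add_some (h : IsWFF W M x y) (hΔ : W.Δ ≠ 0) {x₁ y₁ x₂ y₂ : k}
    (hxy : ¬ (x₁ = x₂ ∧ y₁ = W.toAffine.negY x₂ y₂)) {P₁ P₂ P₃ P₀ : Place k M}
    (h₁ : P₁.IsAtXY x y x₁ y₁) (h₂ : P₂.IsAtXY x y x₂ y₂)
    (h₃ : P₃.IsAtXY x y (W.toAffine.addX x₁ x₂ (W.toAffine.slope x₁ x₂ y₁ y₂))
      (W.toAffine.addY x₁ x₂ y₁ (W.toAffine.slope x₁ x₂ y₁ y₂))) (h₀ : P₀.IsInf x) :
    ∃ f : M, f ≠ 0 ∧ divf (k := k) f =
      Finsupp.single P₁ 1 + Finsupp.single P₂ 1 - Finsupp.single P₃ 1 - Finsupp.single P₀ 1 := by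
  have := h.isFF
  have e₁ := h.equation_of_at h₁
  have e₂ := h.equation_of_at h₂
  have hLdeg : (Affine.linePolynomial x₁ y₁ (W.toAffine.slope x₁ x₂ y₁ y₂)).natDegree ≤ 1 := by
    unfold Affine.linePolynomial
    compute_degree
  have hn : y - aeval x (Affine.linePolynomial x₁ y₁ (W.toAffine.slope x₁ x₂ y₁ y₂)) ≠ 0 := by
    intro h0
    have h1 := h.ell4a_v_line_inf h₀ hLdeg
    rw [h0, map_zero] at h1
    exact exp_ne_zero h1.symm
  have hd : x - algebraMap k M (W.toAffine.addX x₁ x₂ (W.toAffine.slope x₁ x₂ y₁ y₂)) ≠ 0 := by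
    intro h0
    have h1 := h.ell4a_v_x_sub_inf h₀ (W.toAffine.addX x₁ x₂ (W.toAffine.slope x₁ x₂ y₁ y₂))
    rw [h0, map_zero] at h1
    exact exp_ne_zero h1.symm
  refine ⟨_, div_ne_zero hn hd, ?_⟩
  ext Q
  rw [divf_apply (div_ne_zero hn hd), div_eq_mul_inv, Q.ord_mul hn (inv_ne_zero hd), Q.ord_inv]
  simp only [Finsupp.coe_sub, Finsupp.coe_add, Pi.sub_apply, Pi.add_apply]
  by_cases hQ : Q.IsInf x
  · obtain rfl := h.existsUnique_inf.unique hQ h₀
    have n1 : P₁ ≠ Q := fun e => Place.ell4a_not_inf h₁ (e ▸ hQ)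
    have n2 : P₂ ≠ Q := fun e => Place.ell4a_not_inf h₂ (e ▸ hQ)
    have n3 : P₃ ≠ Q := fun e => Place.ell4a_not_inf h₃ (e ▸ hQ)
    rw [(Q.ord_eq_iff hd (-2)).2 (by rw [neg_neg]; exact h.ell4a_v_x_sub_inf hQ _),
      (Q.ord_eq_iff hn (-3)).2 (by rw [neg_neg]; exact h.ell4a_v_line_inf hQ hLdeg)]
    simp [n1, n2, n3]
  · have n0 : P₀ ≠ Q := fun e => hQ (e ▸ h₀)
    have key := h.v_line_fin hΔ hQ e₁ e₂ hxy
    rw [h.ell4a_atVal hΔ h₁, h.ell4a_atVal hΔ h₂, h.ell4a_atVal hΔ h₃, Q.v_eq_exp_neg_ord hn,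
      Q.v_eq_exp_neg_ord hd, ← exp_add, ← exp_add, ← exp_add, exp_inj] at key
    have z0 : (Finsupp.single P₀ (1 : ℤ)) Q = 0 := by simp [n0]
    rw [z0]
    linarith

/-- `[Q₁] + [Q₂] ∼ [Q₁ + Q₂] + [O]` -/
theorem IsWFF.abel_add (h : IsWFF W M x y) (hΔ : W.Δ ≠ 0) {Q₁ Q₂ : W.toAffine.Point}
    {P₁ P₂ P₃ P₀ : Place k M} (h₁ : P₁.IsAtPt x y Q₁) (h₂ : P₂.IsAtPt x y Q₂)
    (h₃ : P₃.IsAtPt x y (Q₁ + Q₂)) (h₀ : P₀.IsInf x) :
    ∃ f : M, f ≠ 0 ∧ divf (k := k) f =
      Finsupp.single P₁ 1 + Finsupp.single P₂ 1 - Finsupp.single P₃ 1 - Finsupp.single P₀ 1 := by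
  have := h.isFF
  have hone : divf (k := k) (1 : M) = 0 := by
    ext Q
    rw [divf_apply one_ne_zero]
    simp
  rcases Q₁ with _ | ⟨x₁, y₁, n₁⟩
  · -- `Q₁ = 0`
    obtain rfl : P₁ = P₀ := h.existsUnique_inf.unique h₁ h₀
    have h₃' : P₃.IsAtPt x y Q₂ := by
      have e : (Affine.Point.zero : W.toAffine.Point) + Q₂ = Q₂ := zero_add Q₂
      rwa [e] at h₃
    obtain rfl : P₃ = P₂ := (h.existsUnique_atPt hΔ Q₂).unique h₃' h₂
    exact ⟨1, one_ne_zero, by rw [hone]; abel⟩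
  rcases Q₂ with _ | ⟨x₂, y₂, n₂⟩
  · -- `Q₂ = 0`
    obtain rfl : P₂ = P₀ := h.existsUnique_inf.unique h₂ h₀
    have h₃' : P₃.IsAtPt x y (Affine.Point.some x₁ y₁ n₁ : W.toAffine.Point) := by
      have e : (Affine.Point.some x₁ y₁ n₁ : W.toAffine.Point) + Affine.Point.zero =
        Affine.Point.some x₁ y₁ n₁ := add_zero _
      rwa [e] at h₃
    obtain rfl : P₃ = P₁ := (h.existsUnique_atPt hΔ _).unique h₃' h₁
    exact ⟨1, one_ne_zero, by rw [hone]; abel⟩
  by_cases hxy : x₁ = x₂ ∧ y₁ = W.toAffine.negY x₂ y₂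
  · obtain ⟨rfl, rfl⟩ := hxy
    rw [Affine.Point.add_of_Y_eq rfl rfl] at h₃
    obtain rfl : P₃ = P₀ := h.existsUnique_inf.unique h₃ h₀
    have hne : x - algebraMap k M x₁ ≠ 0 := by
      intro h0
      have h1 := h.ell4a_v_x_sub_inf h₀ x₁
      rw [h0, map_zero] at h1
      exact exp_ne_zero h1.symm
    refine ⟨x - algebraMap k M x₁, hne, ?_⟩
    rw [h.divf_x_sub hΔ (P := P₂) (P' := P₁) h₂ h₁ h₀]
    abel
  · rw [Affine.Point.add_some hxy] at h₃
    exact h.abel_add_some hΔ hxy h₁ h₂ h₃ h₀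

end Ell4a

end Claimed.Agent.R280
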