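import Claimed.Agent.R280.Ell.P4a

/-!
# Row 280, package Ell4b: the Abel sum map `Div(M) → W(k)`

Uses the STATEMENTS of Ell2, Ell3b (`mem_LSp_inf_iff`, `chi_eq_zero`), Ell4a (`abel_add`, `divf_x_sub`), FF2 (`divf_apply`, `deg_divf`), FF3 (`riemann_ineq`).
Start every proof with `haveI := h.isFF`.

PLAN (~900 lines)
* API already PROVED in FF: `FF/Ord.lean` (`Place.ord_mul`, `ord_inv`, `v_le_exp_iff`, `v_lt_one_iff`, `Dvsr.deg_add`, `deg_sub`, `deg_neg`, `deg_smul`, `deg_single`, `deg_eq_sum`), `FF/ZeroBound.lean` (`divf_mul`, `divf_inv`),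
  `FF/LSpace.lean` (`mem_LSp_iff_divf`).
* `eq_single_of_deg_one`: `D ≥ 0`, `∑ D P * deg P = 1`, all terms `≥ 0`, `deg P ≥ 1` (`Place.deg_pos`): exactly one `P` in the support, `D P = 1 = deg P`.
* `exists_mem_LSp_of_deg_one`: `riemann_ineq` + `chi_eq_zero`: `1 ≤ ell D`, so `LSp D ≠ ⊥` (`Module.finrank_pos_iff`/`Submodule.finrank_eq_zero`, `finite_LSp`).
* `exists_isSum`: `D' := D - (deg D - 1) • [P₀]` has degree `1` (`deg P₀ = 1`).  `f ∈ LSp D'`, `f ≠ 0`: `E := divf f + D' ≥ 0` (`mem_LSp_iff_divf`), `deg E = 1` (`deg_divf`).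
  `E = [P]`, `deg P = 1`, `P` at `Q` (`exists_atPt_of_deg_one`).  Then `divf f⁻¹ = D - [P] - (deg D - 1) • [P₀]`.
* `eq_of_single_sub_single`: `divf f = [P] - [P']`, `P` at `Q`, `P'` at `Q'`.  If `P = P'` use `atPt_inj`.  Assume `P ≠ P'`.
  - `Q' = 0`: `f ∈ LSp [P']`, `mem_LSp_inf_iff` with `j = 1`: `f = A(x)`, `natDegree A = 0`: `f` constant, `divf f = 0`, so `[P] = [P']`: contradiction.
  - `Q' = (a,b)`: `g := f * (x - a)`, `divf g = [P] + [P''] - 2[P₀]`, `P''` at `(a, negY a b)` (`divf_x_sub`, `divf_mul`); `g ∈ LSp (2 [P₀])`; `mem_LSp_inf_iff` with `j = 2`: `g = c₀ + c₁ x`;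
    `v_{P''} g < 1` ⟹ `c₀ + c₁ a = 0` (`v_lt_one_iff_eval`) ⟹ `g = c₁ (x - a)` ⟹ `f = c₁` constant: contradiction as before.
* `existsUnique_isSum`: existence above; uniqueness: two representations give `divf (f'/f) = [P] - [P']` (same `P₀` by `existsUnique_inf`).
* `IsSum.add`: multiply the two functions and the function of `abel_add`.   `IsSum.single`: `f = 1`, `deg [P] = 1`.   `IsSum.of_divf`: `D = divf g`, `deg = 0`, `Q = 0`, `P = P₀`, `f = g`.
* `IsSum.neg`, `IsSum.zsmul`: formal from `existsUnique_isSum`, `IsSum.add`, `IsSum.of_divf` (`D + (-D) = 0 = divf 1`); `zsmul` by `Int.induction_on`.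
-/

set_option autoImplicit false

namespace Claimed.Agent.R280

open WithZero WeierstrassCurve Polynomial
open scoped Classical

section DivHelpers

variable {k M : Type*} [Field k] [Field M] [Algebra k M] [IsFF k M]

theorem divf_one_ell : divf (k := k) (1 : M) = 0 := by
  ext P
  rw [divf_apply one_ne_zero, P.ord_one, Finsupp.zero_apply]

theorem divf_algebraMap_ell {c : k} (hc : c ≠ 0) : divf (k := k) (algebraMap k M c) = 0 := by
  ext P
  rw [divf_apply ((_root_.map_ne_zero _).mpr hc), P.ord_algebraMap, Finsupp.zero_apply]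

/-- an effective divisor of degree one is a place of degree one -/
theorem eq_single_of_deg_one (D : Dvsr k M) (hD : ∀ P, 0 ≤ D P) (hdeg : D.deg = 1) :
    ∃ P : Place k M, P.deg = 1 ∧ D = Finsupp.single P 1 := by
  have hterm : ∀ P ∈ D.support, 1 ≤ D P * (P.deg : ℤ) := by
    intro P hP
    have h1 : 1 ≤ D P := by
      have h3 := Finsupp.mem_support_iff.1 hP
      have h4 := hD P
      omega
    have h2 : (1 : ℤ) ≤ P.deg := by exact_mod_cast P.deg_pos
    nlinarith
  have hsum : ∑ P ∈ D.support, D P * (P.deg : ℤ) = 1 := hdeg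
  have hcard : (D.support.card : ℤ) ≤ 1 := by
    calc (D.support.card : ℤ) = ∑ P ∈ D.support, (1 : ℤ) := by simp
      _ ≤ ∑ P ∈ D.support, D P * (P.deg : ℤ) := Finset.sum_le_sum hterm
      _ = 1 := hsum
  have hne : D.support.Nonempty := by
    by_contra hcon
    rw [Finset.not_nonempty_iff_eq_empty] at hcon
    rw [hcon] at hsum
    simp at hsum
  obtain ⟨P, hP⟩ := hne
  have hsupp : D.support = {P} :=
    Finset.eq_singleton_iff_unique_mem.2 ⟨hP, fun Q hQ =>
      Finset.card_le_one.1 (by exact_mod_cast hcard) Q hQ P hP⟩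
  rw [hsupp, Finset.sum_singleton] at hsum
  have h1 : 0 ≤ D P := hD P
  have h2 : D P = 1 ∧ (P.deg : ℤ) = 1 := by
    rcases Int.mul_eq_one_iff_eq_one_or_neg_one.1 hsum with h3 | h3
    · exact h3
    · omega
  refine ⟨P, by exact_mod_cast h2.2, ?_⟩
  ext Q
  by_cases hQ : Q = P
  · subst hQ
    rw [Finsupp.single_eq_same, h2.1]
  · rw [Finsupp.single_eq_of_ne (by simpa using hQ)]
    by_contra hcon
    have : Q ∈ D.support := Finsupp.mem_support_iff.2 hcon
    rw [hsupp] at this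
    exact hQ (Finset.mem_singleton.1 this)

theorem single_inj_ell {P P' : Place k M}
    (h : (Finsupp.single P 1 : Dvsr k M) = Finsupp.single P' 1) : P = P' := by
  by_contra hne
  have h1 := DFunLike.congr_fun h P
  rw [Finsupp.single_eq_same, Finsupp.single_eq_of_ne (by simpa using hne)] at h1
  exact one_ne_zero h1

end DivHelpers

section Ell4

variable {k M : Type} [Field k] [Field M] [Algebra k M] {W : WeierstrassCurve k} {x y : M}

/-- `D ∼ [Q] + (deg D - 1) [O]` -/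
def IsSum (x y : M) (D : Dvsr k M) (Q : W.toAffine.Point) : Prop :=
  ∃ P P₀ : Place k M, P.IsAtPt x y Q ∧ P₀.IsInf x ∧ ∃ f : M, f ≠ 0 ∧
    divf (k := k) f = D - Finsupp.single P 1 - (D.deg - 1) • Finsupp.single P₀ 1

theorem IsWFF.exists_mem_LSp_of_deg_one (h : IsWFF W M x y) (hΔ : W.Δ ≠ 0) (D : Dvsr k M)
    (hdeg : D.deg = 1) : ∃ f : M, f ≠ 0 ∧ f ∈ LSp D := by
  haveI := h.isFF
  have h1 := riemann_ineq D
  rw [hdeg, h.chi_eq_zero hΔ, add_zero] at h1
  by_contra hcon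
  push_neg at hcon
  have h2 : LSp D = ⊥ := by
    rw [eq_bot_iff]
    intro f hf
    by_contra hf0
    exact hcon f hf0 hf
  have h3 : ell D = 0 := by
    unfold ell
    rw [h2]
    exact finrank_bot k M
  rw [h3] at h1
  norm_num at h1

theorem IsWFF.exists_isSum (h : IsWFF W M x y) (hΔ : W.Δ ≠ 0) (D : Dvsr k M) :
    ∃ Q : W.toAffine.Point, IsSum x y D Q := by
  haveI := h.isFF
  obtain ⟨P₀, hP₀, -⟩ := h.existsUnique_inf
  have hd0 : P₀.deg = 1 := (h.inf_spec hP₀).2.2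
  have hdeg' : (D - (D.deg - 1) • Finsupp.single P₀ 1).deg = 1 := by
    rw [Dvsr.deg_sub, Dvsr.deg_smul, Dvsr.deg_single, hd0]
    push_cast
    ring
  obtain ⟨f, hf, hfL⟩ := h.exists_mem_LSp_of_deg_one hΔ _ hdeg'
  have hE := (mem_LSp_iff_divf hf).1 hfL
  have hEdeg : (divf (k := k) f + (D - (D.deg - 1) • Finsupp.single P₀ 1)).deg = 1 := by
    rw [Dvsr.deg_add, deg_divf, hdeg', zero_add]
  obtain ⟨P, hPdeg, hP⟩ := eq_single_of_deg_one _ (fun P => hE P) hEdeg
  obtain ⟨Q, hQ⟩ := h.exists_atPt_of_deg_one hΔ hPdeg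
  refine ⟨Q, P, P₀, hQ, hP₀, f⁻¹, inv_ne_zero hf, ?_⟩
  rw [divf_inv, ← hP]
  abel

/-- `[Q] ∼ [Q']` implies `Q = Q'` -/
theorem IsWFF.eq_of_single_sub_single (h : IsWFF W M x y) (hΔ : W.Δ ≠ 0) {Q Q' : W.toAffine.Point}
    {P P' : Place k M} (hP : P.IsAtPt x y Q) (hP' : P'.IsAtPt x y Q') {f : M} (hf : f ≠ 0)
    (hdiv : divf (k := k) f = Finsupp.single P 1 - Finsupp.single P' 1) : Q = Q' := by
  haveI := h.isFF
  by_cases hPP : P = P'
  · subst hPP
    exact h.atPt_inj hP hP'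
  exfalso
  -- a constant has divisor zero
  have hconst : ∀ c : k, f ≠ algebraMap k M c := by
    intro c hc
    have hc0 : c ≠ 0 := by
      rintro rfl
      exact hf (by rw [hc, map_zero])
    rw [hc, divf_algebraMap_ell hc0] at hdiv
    exact hPP (single_inj_ell (sub_eq_zero.1 hdiv.symm))
  rcases Q' with _ | ⟨a, b, hab⟩
  · -- `Q' = 0`
    have hP'inf : P'.IsInf x := hP'
    have hfL : f ∈ LSp (Finsupp.single P' ((1 : ℕ) : ℤ)) := by
      rw [mem_LSp_iff_divf hf, hdiv, Nat.cast_one, sub_add_cancel]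
      intro R
      rw [Finsupp.zero_apply, Finsupp.single_apply]
      split_ifs <;> norm_num
    obtain ⟨A, B, hfAB, hA, hB⟩ := (h.mem_LSp_inf_iff hΔ hP'inf 1 f).1 hfL
    have hB0 : B = 0 := by
      rcases hB with hB | hB
      · exact hB
      · omega
    have hA0 : A.natDegree = 0 := by omega
    rw [hB0, map_zero, zero_mul, add_zero, Polynomial.eq_C_of_natDegree_eq_zero hA0, aeval_C] at hfAB
    exact hconst _ hfAB
  · -- `Q' = (a, b)`
    have hP'at : P'.IsAtXY x y a b := hP'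
    have heq : W.toAffine.Equation a b := hab.1
    obtain ⟨P'', hP''⟩ := h.exists_at ((W.toAffine.equation_neg a b).2 heq)
    obtain ⟨P₀, hP₀, -⟩ := h.existsUnique_inf
    have hxa : x - algebraMap k M a ≠ 0 := by
      intro h0
      have h1 : x = algebraMap k M a := sub_eq_zero.1 h0
      exact h.transc (h1 ▸ isAlgebraic_algebraMap a)
    have hg0 : f * (x - algebraMap k M a) ≠ 0 := mul_ne_zero hf hxa
    have hdivg : divf (k := k) (f * (x - algebraMap k M a)) =
        Finsupp.single P 1 + Finsupp.single P'' 1 - Finsupp.single P₀ 1 - Finsupp.single P₀ 1 := by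
      rw [divf_mul hf hxa, hdiv, h.divf_x_sub hΔ hP'at hP'' hP₀]
      abel
    have hgL : f * (x - algebraMap k M a) ∈ LSp (Finsupp.single P₀ ((2 : ℕ) : ℤ)) := by
      rw [mem_LSp_iff_divf hg0, hdivg]
      have e : (Finsupp.single P₀ ((2 : ℕ) : ℤ) : Dvsr k M) = Finsupp.single P₀ 1 + Finsupp.single P₀ 1 := by
        rw [← Finsupp.single_add]
        norm_num
      rw [e]
      have e2 : (Finsupp.single P 1 + Finsupp.single P'' 1 - Finsupp.single P₀ 1 - Finsupp.single P₀ 1 +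
          (Finsupp.single P₀ 1 + Finsupp.single P₀ 1) : Dvsr k M) = Finsupp.single P 1 + Finsupp.single P'' 1 := by
        abel
      rw [e2]
      intro R
      rw [Finsupp.zero_apply, Finsupp.add_apply, Finsupp.single_apply, Finsupp.single_apply]
      split_ifs <;> norm_num
    obtain ⟨A, B, hgAB, hA, hB⟩ := (h.mem_LSp_inf_iff hΔ hP₀ 2 _).1 hgL
    have hB0 : B = 0 := by
      rcases hB with hB | hB
      · exact hB
      · omega
    have hA1 : A.natDegree ≤ 1 := by omega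
    -- `g` vanishes at `P''`
    have hP''fin : P'' ≠ P₀ := by
      rintro rfl
      have h1 : P''.v x ≤ 1 := by
        have h2 : x = (x - algebraMap k M a) + algebraMap k M a := by ring
        rw [h2]
        refine (P''.v.map_add _ _).trans (max_le hP''.1.le ?_)
        exact (Valuation.mem_valuationSubring_iff _ _).1 (P''.algebraMap_mem a)
      exact absurd hP₀ (not_lt.2 h1)
    have hord : 0 < P''.ord (f * (x - algebraMap k M a)) := by
      rw [← divf_apply hg0, hdivg]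
      simp only [Finsupp.sub_apply, Finsupp.add_apply, Finsupp.single_eq_same]
      rw [Finsupp.single_eq_of_ne (a := P₀) (a' := P'') (by simpa using hP''fin)]
      rw [Finsupp.single_apply]
      split_ifs <;> norm_num
    have hv : P''.v (aeval x A + aeval x (0 : k[X]) * y) < 1 := by
      rw [← hB0, ← hgAB]
      exact (P''.v_lt_one_iff hg0).2 hord
    have hev := (h.v_lt_one_iff_eval hP'' A 0).1 hv
    rw [Polynomial.eval_zero, zero_mul, add_zero] at hev
    have hAform := Polynomial.eq_X_add_C_of_natDegree_le_one hA1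
    rw [hAform, Polynomial.eval_add, Polynomial.eval_mul, Polynomial.eval_C, Polynomial.eval_X,
      Polynomial.eval_C] at hev
    have hc0 : A.coeff 0 = -(A.coeff 1 * a) := by linear_combination hev
    have hg : f * (x - algebraMap k M a) = algebraMap k M (A.coeff 1) * (x - algebraMap k M a) := by
      rw [hgAB, hB0, map_zero, zero_mul, add_zero, hAform, map_add, map_mul, aeval_C, aeval_X, aeval_C, hc0,
        map_neg, map_mul]
      simp only [Polynomial.coeff_add, Polynomial.coeff_C_mul, Polynomial.coeff_X_one, Polynomial.coeff_C_succ,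
        mul_one, add_zero]
      ring
    exact hconst _ (mul_right_cancel₀ hxa hg)

theorem IsWFF.existsUnique_isSum (h : IsWFF W M x y) (hΔ : W.Δ ≠ 0) (D : Dvsr k M) :
    ∃! Q : W.toAffine.Point, IsSum x y D Q := by
  haveI := h.isFF
  obtain ⟨Q, hQ⟩ := h.exists_isSum hΔ D
  refine ⟨Q, hQ, fun Q' hQ' => ?_⟩
  obtain ⟨P, P₀, hP, hP₀, f, hf, hdiv⟩ := hQ
  obtain ⟨P', P₀', hP', hP₀', f', hf', hdiv'⟩ := hQ'
  have h00 : P₀' = P₀ := h.existsUnique_inf.unique hP₀' hP₀
  subst h00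
  refine h.eq_of_single_sub_single hΔ hP' hP (f := f * f'⁻¹) (mul_ne_zero hf (inv_ne_zero hf')) ?_
  rw [divf_mul hf (inv_ne_zero hf'), divf_inv, hdiv, hdiv']
  abel

theorem IsSum.add (h : IsWFF W M x y) (hΔ : W.Δ ≠ 0) {D D' : Dvsr k M} {Q Q' : W.toAffine.Point}
    (hQ : IsSum x y D Q) (hQ' : IsSum x y D' Q') : IsSum x y (D + D') (Q + Q') := by
  haveI := h.isFF
  obtain ⟨P, P₀, hP, hP₀, f, hf, hdiv⟩ := hQ
  obtain ⟨P', P₀', hP', hP₀', f', hf', hdiv'⟩ := hQ'
  have h00 : P₀' = P₀ := h.existsUnique_inf.unique hP₀' hP₀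
  subst h00
  obtain ⟨P₃, hP₃, -⟩ := h.existsUnique_atPt hΔ (Q + Q')
  obtain ⟨g, hg, hdivg⟩ := h.abel_add hΔ hP hP' hP₃ hP₀'
  refine ⟨P₃, P₀', hP₃, hP₀', f * f' * g, mul_ne_zero (mul_ne_zero hf hf') hg, ?_⟩
  rw [divf_mul (mul_ne_zero hf hf') hg, divf_mul hf hf', hdiv, hdiv', hdivg, Dvsr.deg_add]
  module

theorem IsSum.single (h : IsWFF W M x y) (hΔ : W.Δ ≠ 0) {P : Place k M} {Q : W.toAffine.Point}
    (hP : P.IsAtPt x y Q) : IsSum x y (Finsupp.single P 1) Q := by
  haveI := h.isFF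
  obtain ⟨P₀, hP₀, -⟩ := h.existsUnique_inf
  refine ⟨P, P₀, hP, hP₀, 1, one_ne_zero, ?_⟩
  rw [divf_one_ell, Dvsr.deg_single, h.deg_of_atPt hΔ hP]
  simp

theorem IsSum.of_divf (h : IsWFF W M x y) (hΔ : W.Δ ≠ 0) {g : M} (hg : g ≠ 0) :
    IsSum x y (divf (k := k) g) (0 : W.toAffine.Point) := by
  haveI := h.isFF
  obtain ⟨P₀, hP₀, -⟩ := h.existsUnique_inf
  refine ⟨P₀, P₀, hP₀, hP₀, g, hg, ?_⟩
  rw [deg_divf]
  module

theorem IsSum.zero_ell (h : IsWFF W M x y) (hΔ : W.Δ ≠ 0) :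
    IsSum x y (0 : Dvsr k M) (0 : W.toAffine.Point) := by
  haveI := h.isFF
  have := IsSum.of_divf h hΔ (one_ne_zero (α := M))
  rwa [divf_one_ell] at this

theorem IsSum.neg (h : IsWFF W M x y) (hΔ : W.Δ ≠ 0) {D : Dvsr k M} {Q : W.toAffine.Point}
    (hQ : IsSum x y D Q) : IsSum x y (-D) (-Q) := by
  obtain ⟨Q', hQ'⟩ := h.exists_isSum hΔ (-D)
  have h1 := IsSum.add h hΔ hQ hQ'
  rw [add_neg_cancel] at h1
  have h2 : Q + Q' = 0 := (h.existsUnique_isSum hΔ 0).unique h1 (IsSum.zero_ell h hΔ)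
  have h3 : Q' = -Q := (neg_eq_of_add_eq_zero_right h2).symm
  rwa [h3] at hQ'

theorem IsSum.zsmul (h : IsWFF W M x y) (hΔ : W.Δ ≠ 0) {D : Dvsr k M} {Q : W.toAffine.Point}
    (hQ : IsSum x y D Q) (n : ℤ) : IsSum x y (n • D) (n • Q) := by
  induction n using Int.induction_on with
  | zero =>
    rw [zero_smul, zero_smul]
    exact IsSum.zero_ell h hΔ
  | succ n ih =>
    rw [add_smul, add_smul, one_smul, one_smul]
    exact IsSum.add h hΔ ih hQ
  | pred n ih =>
    rw [sub_smul, sub_smul, one_smul, one_smul, sub_eq_add_neg, sub_eq_add_neg]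
    exact IsSum.add h hΔ ih (IsSum.neg h hΔ hQ)

end Ell4

end Claimed.Agent.R280
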