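import Claimed.Agent.R280.Ell.P2b

/-!
# Row 280, package Ell5a: the generic point; `IsTransBy` and the group law of `W₀(M)`; translated generators

`k₀ ⊆ k`, `W₀/k₀`, `W := W₀.baseChange k`, `M = k(x,y)`.  The group `W₀(M) := (W₀.baseChange M).toAffine.Point`, the generic point `g = (x,y)`, the constants
`ι := Affine.Point.map (W' := W₀.toAffine) (IsScalarTower.toAlgHom k₀ k M) : W₀(k) →+ W₀(M)`.
In the first section `[Algebra k₀ M] [IsScalarTower k₀ k M]` are instance arguments; the statements of the second section do not mention them: start their proofs with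
`letI : Algebra k₀ M := ((algebraMap k M).comp (algebraMap k₀ k)).toAlgebra; haveI : IsScalarTower k₀ k M := IsScalarTower.of_algebraMap_eq fun _ => rfl`.
CURVES: `(W₀.baseChange k).baseChange M = W₀.baseChange M` (`WeierstrassCurve.baseChange`, `WeierstrassCurve.map_map`, `IsScalarTower.algebraMap_eq`); `rw` with it inside `transX`, `transY`, `IsWFF.equation`
(no dependent types occur there).
Uses the STATEMENTS of Ell1.

PLAN (~650 lines)
* `nonsingular_gen`: `h.equation` + `Δ ≠ 0` over `M` (`WeierstrassCurve.map_Δ`), `Affine.nonsingular_of_Δ_ne_zero`-type lemma.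
* `isTransBy_iff`: `Q = 0`: `map_zero`, `add_zero`, `Point.some.injEq`.  `Q = (a,b)`: `x ≠ algebraMap a` (transcendence), `Point.map_some`, `Point.add_of_X_ne`/`add_some`, `Affine.slope_of_X_ne`; unfold `transX`, `transY`.
* `gen_ne_const`: `g = ι S` is impossible (`S = 0`: `some ≠ 0`; `S = (a,b)`: `x = algebraMap a` is algebraic).
* `trans_transcendental`: if `x'` is algebraic over `k`, then `x' = algebraMap c` (`algClosed`); `y'` is a root of a monic quadratic over `k` (equation), algebraic, `y' = algebraMap d`; `(c,d)` nonsingular over `k`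
  (`Affine.baseChange_nonsingular`); `(x',y') = ι R`; `g = ι R - ι Q = ι (R - Q)`: contradiction with `gen_ne_const`.
* `IsTransBy.symm_ell`: `g' = g + ι Q` ⟹ `g = g' + ι (-Q)`; then the computation of `isTransBy_iff` with `(x',y')` in place of `(x,y)` (it only uses that `x'` is transcendental: state and prove the computation for
  an arbitrary nonsingular point `(u,w)` of `W₀(M)` with `u` transcendental over `k`: `isTransBy_iff_aux`).
* `IsWFF.trans`: equation from `hns.left`; transcendence above; generation: by `symm_ell`, `x = transX W x' y' a' b'`, `y = transY …` are rational expressions in `x', y'` and constants, so `x, y ∈ k(x',y')`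
  (`IntermediateField` is closed under `+ * / algebraMap`; unfold `Affine.addX`, `addY`, `negAddY`, `negY`), hence `⊤ = k(x,y) ≤ k(x',y')`.
-/

set_option autoImplicit false

namespace Claimed.Agent.R280

open WithZero WeierstrassCurve Polynomial
open scoped Classical

section Ell5aTower

variable {k₀ k M : Type} [Field k₀] [Field k] [Field M] [Algebra k₀ k] [Algebra k M]
  [Algebra k₀ M] [IsScalarTower k₀ k M] {W₀ : WeierstrassCurve k₀} {x y : M}

theorem baseChange_baseChange_ell (W₀ : WeierstrassCurve k₀) :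
    (W₀.baseChange k).baseChange M = W₀.baseChange M := by
  rw [WeierstrassCurve.baseChange, WeierstrassCurve.baseChange, WeierstrassCurve.map_map,
    ← IsScalarTower.algebraMap_eq]
  rfl

theorem ell5a_Δ_ne_zero {K : Type} [Field K] [Algebra k₀ K] (hΔ : W₀.Δ ≠ 0) :
    (W₀.baseChange K).Δ ≠ 0 := by
  rw [WeierstrassCurve.baseChange, WeierstrassCurve.map_Δ]
  exact (_root_.map_ne_zero _).mpr hΔ

theorem IsWFF.nonsingular_gen (h : IsWFF (W₀.baseChange k) M x y) (hΔ : W₀.Δ ≠ 0) :
    (W₀.baseChange M).toAffine.Nonsingular x y := by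
  have h1 := h.equation
  rw [baseChange_baseChange_ell] at h1
  exact (Affine.equation_iff_nonsingular_of_Δ_ne_zero (ell5a_Δ_ne_zero hΔ)).mp h1

/-- the computation behind `isTransBy_iff`, for any point `(u,w)` with `u` transcendental -/
theorem isTransBy_iff_aux {u w : M} (hu : Transcendental k u)
    (hg : (W₀.baseChange M).toAffine.Nonsingular u w) (x' y' : M)
    (Q : (W₀.baseChange k).toAffine.Point) :
    IsTransBy (W₀.baseChange k) u w x' y' Q ↔
      ∃ hns : (W₀.baseChange M).toAffine.Nonsingular x' y',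
        Affine.Point.some x' y' hns = Affine.Point.some u w hg +
          Affine.Point.map (W' := W₀.toAffine) (IsScalarTower.toAlgHom k₀ k M) Q := by
  rcases Q with _ | ⟨a, b, hQ⟩
  · show (x' = u ∧ y' = w) ↔ _
    have e : Affine.Point.map (W' := W₀.toAffine) (IsScalarTower.toAlgHom k₀ k M)
      (Affine.Point.zero : (W₀.baseChange k).toAffine.Point) = 0 := rfl
    rw [e]
    simp only [add_zero, Affine.Point.some.injEq]
    constructor
    · rintro ⟨rfl, rfl⟩
      exact ⟨hg, rfl, rfl⟩
    · rintro ⟨-, h1, h2⟩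
      exact ⟨h1, h2⟩
  · show (x' = transX (W₀.baseChange k) u w a b ∧ y' = transY (W₀.baseChange k) u w a b) ↔ _
    have hne : u ≠ algebraMap k M a := by
      rintro rfl
      exact hu (isAlgebraic_algebraMap a)
    rw [Affine.Point.map_some]
    have hne' : u ≠ (IsScalarTower.toAlgHom k₀ k M) a := hne
    rw [Affine.Point.add_of_X_ne hne']
    simp only [Affine.Point.some.injEq]
    rw [Affine.slope_of_X_ne hne']
    simp only [transX, transY, baseChange_baseChange_ell]
    constructor
    · rintro ⟨rfl, rfl⟩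
      refine ⟨?_, rfl, rfl⟩
      have := Affine.nonsingular_add hg
        ((W₀.toAffine.baseChange_nonsingular (IsScalarTower.toAlgHom k₀ k M).injective a b).mpr hQ)
        (fun hxy => hne' hxy.left)
      rw [Affine.slope_of_X_ne hne'] at this
      exact this
    · rintro ⟨-, h1, h2⟩
      exact ⟨h1, h2⟩

/-- `IsTransBy` is addition of a constant point to the generic point in the group `W₀(M)` -/
theorem IsWFF.isTransBy_iff (h : IsWFF (W₀.baseChange k) M x y)
    (hg : (W₀.baseChange M).toAffine.Nonsingular x y) (x' y' : M)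
    (Q : (W₀.baseChange k).toAffine.Point) :
    IsTransBy (W₀.baseChange k) x y x' y' Q ↔
      ∃ hns : (W₀.baseChange M).toAffine.Nonsingular x' y',
        Affine.Point.some x' y' hns = Affine.Point.some x y hg +
          Affine.Point.map (W' := W₀.toAffine) (IsScalarTower.toAlgHom k₀ k M) Q :=
  isTransBy_iff_aux h.transc hg x' y' Q

theorem IsWFF.gen_ne_const (h : IsWFF (W₀.baseChange k) M x y)
    (hg : (W₀.baseChange M).toAffine.Nonsingular x y) (S : (W₀.baseChange k).toAffine.Point) :
    Affine.Point.some x y hg ≠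
      Affine.Point.map (W' := W₀.toAffine) (IsScalarTower.toAlgHom k₀ k M) S := by
  rcases S with _ | ⟨a, b, hS⟩
  · intro h0
    have e : Affine.Point.map (W' := W₀.toAffine) (IsScalarTower.toAlgHom k₀ k M)
      (Affine.Point.zero : (W₀.baseChange k).toAffine.Point) = Affine.Point.zero := rfl
    rw [e] at h0
    cases h0
  · rw [Affine.Point.map_some]
    intro h0
    have h1 : x = algebraMap k M a := (Affine.Point.some.inj h0).1
    exact h.transc (h1 ▸ isAlgebraic_algebraMap a)

end Ell5aTower

section Ell5a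

variable {k₀ k M : Type} [Field k₀] [Field k] [Field M] [Algebra k₀ k] [Algebra k M]
  {W₀ : WeierstrassCurve k₀} {x y : M}

omit [Field k₀] [Algebra k₀ k] in
theorem IsTransBy.unique_ell {W : WeierstrassCurve k} {x' y' x'' y'' : M} {Q : W.toAffine.Point}
    (h : IsTransBy W x y x' y' Q) (h' : IsTransBy W x y x'' y'' Q) : x' = x'' ∧ y' = y'' := by
  rcases Q with _ | ⟨a, b, hQ⟩
  · exact ⟨h.1.trans h'.1.symm, h.2.trans h'.2.symm⟩
  · exact ⟨h.1.trans h'.1.symm, h.2.trans h'.2.symm⟩

omit [Field k₀] [Algebra k₀ k] in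
theorem exists_isTransBy_ell (W : WeierstrassCurve k) (x y : M) (Q : W.toAffine.Point) :
    ∃ x' y' : M, IsTransBy W x y x' y' Q := by
  rcases Q with _ | ⟨a, b, hQ⟩
  · exact ⟨x, y, rfl, rfl⟩
  · exact ⟨_, _, rfl, rfl⟩

omit [Field k₀] [Algebra k₀ k] in
/-- the second coordinate of a point with algebraic first coordinate is algebraic -/
theorem ell5a_isAlgebraic_y {W : WeierstrassCurve k} {c : k} {w : M}
    (hw : (W.baseChange M).toAffine.Equation (algebraMap k M c) w) : IsAlgebraic k w := by
  rw [Affine.equation_iff] at hw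
  simp only [WeierstrassCurve.baseChange, WeierstrassCurve.map_a₁, WeierstrassCurve.map_a₂,
    WeierstrassCurve.map_a₃, WeierstrassCurve.map_a₄, WeierstrassCurve.map_a₆] at hw
  refine ⟨X ^ 2 + C (W.a₁ * c + W.a₃) * X - C (c ^ 3 + W.a₂ * c ^ 2 + W.a₄ * c + W.a₆), ?_, ?_⟩
  · intro h0
    have := congrArg (fun p : k[X] => p.coeff 2) h0
    simp only [coeff_sub, coeff_add, coeff_X_pow, coeff_C_mul, coeff_X, coeff_C, coeff_zero] at this
    norm_num at this
  · simp only [map_add, map_sub, map_mul, map_pow, aeval_X, aeval_C]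
    linear_combination hw

theorem IsWFF.trans_transcendental (h : IsWFF (W₀.baseChange k) M x y) (hΔ : W₀.Δ ≠ 0) {x' y' : M}
    {Q : (W₀.baseChange k).toAffine.Point} (ht : IsTransBy (W₀.baseChange k) x y x' y' Q) :
    Transcendental k x' := by
  let _ : Algebra k₀ M := ((algebraMap k M).comp (algebraMap k₀ k)).toAlgebra
  have _ : IsScalarTower k₀ k M := IsScalarTower.of_algebraMap_eq fun _ => rfl
  have hg := h.nonsingular_gen hΔ
  obtain ⟨hns, hsum⟩ := (h.isTransBy_iff hg x' y' Q).mp ht
  intro halg
  obtain ⟨c, rfl⟩ := h.algClosed x' halg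
  have heq : ((W₀.baseChange k).baseChange M).toAffine.Equation (algebraMap k M c) y' := by
    rw [baseChange_baseChange_ell]; exact hns.left
  obtain ⟨d, rfl⟩ := h.algClosed y' (ell5a_isAlgebraic_y heq)
  have hR : (W₀.baseChange k).toAffine.Nonsingular c d :=
    (W₀.toAffine.baseChange_nonsingular (IsScalarTower.toAlgHom k₀ k M).injective c d).mp hns
  have e : Affine.Point.some _ _ hns = Affine.Point.map (W' := W₀.toAffine)
      (IsScalarTower.toAlgHom k₀ k M) (Affine.Point.some c d hR) := rfl
  rw [e] at hsum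
  apply h.gen_ne_const hg (Affine.Point.some c d hR - Q)
  rw [map_sub, hsum, add_sub_cancel_right]

theorem IsTransBy.symm_ell (h : IsWFF (W₀.baseChange k) M x y) (hΔ : W₀.Δ ≠ 0) {x' y' : M}
    {Q : (W₀.baseChange k).toAffine.Point} (ht : IsTransBy (W₀.baseChange k) x y x' y' Q) :
    IsTransBy (W₀.baseChange k) x' y' x y (-Q) := by
  have htr := h.trans_transcendental hΔ ht
  let _ : Algebra k₀ M := ((algebraMap k M).comp (algebraMap k₀ k)).toAlgebra
  have _ : IsScalarTower k₀ k M := IsScalarTower.of_algebraMap_eq fun _ => rfl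
  have hg := h.nonsingular_gen hΔ
  obtain ⟨hns, hsum⟩ := (h.isTransBy_iff hg x' y' Q).mp ht
  rw [isTransBy_iff_aux htr hns x y (-Q)]
  refine ⟨hg, ?_⟩
  rw [hsum, map_neg, add_neg_cancel_right]

omit [Field k₀] [Algebra k₀ k] in
theorem ell5a_trans_mem (W : WeierstrassCurve k) (K : IntermediateField k M) {u w : M}
    (hu : u ∈ K) (hw : w ∈ K) (a b : k) : transX W u w a b ∈ K ∧ transY W u w a b ∈ K := by
  have hc : ∀ c : k, algebraMap k M c ∈ K := K.algebraMap_mem
  have hl : (w - algebraMap k M b) / (u - algebraMap k M a) ∈ K :=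
    K.div_mem (K.sub_mem hw (hc b)) (K.sub_mem hu (hc a))
  have hX : transX W u w a b ∈ K := by
    simp only [transX, Affine.addX, WeierstrassCurve.baseChange, WeierstrassCurve.map_a₁,
      WeierstrassCurve.map_a₂]
    exact K.sub_mem (K.sub_mem (K.sub_mem (K.add_mem (pow_mem hl 2) (K.mul_mem (hc _) hl)) (hc _))
      hu) (hc _)
  refine ⟨hX, ?_⟩
  simp only [transX] at hX
  simp only [transY, Affine.addY, Affine.negAddY, Affine.negY]
  simp only [WeierstrassCurve.baseChange, WeierstrassCurve.map_a₁,
      WeierstrassCurve.map_a₃] at hX ⊢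
  exact K.sub_mem (K.sub_mem (K.neg_mem (K.add_mem (K.mul_mem hl (K.sub_mem hX hu)) hw))
    (K.mul_mem (hc _) hX)) (hc _)

/-- the translated generic point is again a pair of Weierstrass generators -/
theorem IsWFF.trans (h : IsWFF (W₀.baseChange k) M x y) (hΔ : W₀.Δ ≠ 0) {x' y' : M}
    {Q : (W₀.baseChange k).toAffine.Point} (ht : IsTransBy (W₀.baseChange k) x y x' y' Q) :
    IsWFF (W₀.baseChange k) M x' y' := by
  have htr := h.trans_transcendental hΔ ht
  have hsym := IsTransBy.symm_ell h hΔ ht
  refine ⟨?_, htr, ?_⟩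
  · let _ : Algebra k₀ M := ((algebraMap k M).comp (algebraMap k₀ k)).toAlgebra
    have _ : IsScalarTower k₀ k M := IsScalarTower.of_algebraMap_eq fun _ => rfl
    have hg := h.nonsingular_gen hΔ
    obtain ⟨hns, -⟩ := (h.isTransBy_iff hg x' y' Q).mp ht
    rw [baseChange_baseChange_ell]; exact hns.left
  · rw [eq_top_iff, ← h.gen, IntermediateField.adjoin_le_iff]
    have hx' : x' ∈ IntermediateField.adjoin k {x', y'} :=
      IntermediateField.subset_adjoin k _ (by simp)
    have hy' : y' ∈ IntermediateField.adjoin k {x', y'} :=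
      IntermediateField.subset_adjoin k _ (by simp)
    have key : x ∈ IntermediateField.adjoin k {x', y'} ∧ y ∈ IntermediateField.adjoin k {x', y'} := by
      generalize -Q = Q' at hsym
      rcases Q' with _ | ⟨a, b, hQ⟩
      · obtain ⟨rfl, rfl⟩ := hsym
        exact ⟨hx', hy'⟩
      · obtain ⟨e1, e2⟩ := hsym
        rw [e1, e2]
        exact ell5a_trans_mem _ _ hx' hy' a b
    rintro z (rfl | rfl)
    · exact key.1
    · exact key.2

end Ell5a

end Claimed.Agent.R280
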