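import Claimed.Agent.R280.Ell.P5a

/-!
# Row 280, package Ell5b: the semilinear automorphisms `δ = (σ on coefficients) ∘ (translation by Q)`

Uses the STATEMENTS of Ell1a (`IsWFF.lift`), Ell5a.
For statements without `[Algebra k₀ M]` start with
`letI : Algebra k₀ M := ((algebraMap k M).comp (algebraMap k₀ k)).toAlgebra; haveI : IsScalarTower k₀ k M := IsScalarTower.of_algebraMap_eq fun _ => rfl`.

PLAN (~600 lines)
* `map_semilinear_ell`: `(W₀.baseChange k).map ((algebraMap k M).comp σ) = (W₀.baseChange k).baseChange M` (`WeierstrassCurve.map_map`, `WeierstrassCurve.map_baseChange` for `σ : k →ₐ[k₀] k`; or `ext` on the five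
  coefficients, `σ.commutes`).
* `IsWFF.exists_semilinear` (general): `h : IsWFF W M x y`, `h' : IsWFF W M x' y'` (`W = W₀.baseChange k`): there is a ring automorphism `δ` of `M` with `δ|k = σ`, `δ x = x'`, `δ y = y'`:
  `φ := h.lift ((algebraMap k M).comp σ) x' y'`, `ψ := h'.lift ((algebraMap k M).comp σ.symm) x y`; (`htr`: `(q.map f).eval x' = aeval x' (q.map σ)`, `q.map σ ≠ 0`, transcendence);
  `ψ ∘ φ` and `id` both satisfy the conditions of `h.lift (algebraMap k M) x y`: equal by uniqueness; the same for `φ ∘ ψ` with `h'`.   `RingEquiv.ofRingHom`.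
* `exists_delta`: `exists_isTransBy_ell`, `IsWFF.trans`, `exists_semilinear`; uniqueness: `IsTransBy.unique_ell` + uniqueness in `h.lift` (compare `δ.toRingHom`), `RingEquiv.ext`.
* `map_const_ell`: `Affine.Point.map_map` + `AlgHom.ext`.
* `delta_comp`: make `δ'` a `k₀`-algebra hom `d' : M →ₐ[k₀] M`.   `isTransBy_iff` for `δ`: `(δx,δy) = g + ι Q`.  Apply `Affine.Point.map d'` (additive, `map_some`): `(δ'δx, δ'δy) = (δ'x,δ'y) + ι (σ' Q) = g + ι Q' + ι (σ' Q)`;
  `map_add`, `add_assoc`; `isTransBy_iff` backwards.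
-/

set_option autoImplicit false

namespace Claimed.Agent.R280

open WithZero WeierstrassCurve Polynomial
open scoped Classical

section Ell5b

variable {k₀ k M : Type} [Field k₀] [Field k] [Field M] [Algebra k₀ k] [Algebra k M]
  {W₀ : WeierstrassCurve k₀} {x y : M}

theorem map_semilinear_ell (W₀ : WeierstrassCurve k₀) (σ : k ≃ₐ[k₀] k) :
    (W₀.baseChange k).map ((algebraMap k M).comp (σ : k →+* k)) =
      (W₀.baseChange k).baseChange M := by
  ext <;> simp [WeierstrassCurve.baseChange]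

theorem ell5b_htr {x' : M} (hx' : Transcendental k x') (σ : k ≃ₐ[k₀] k) :
    ∀ q : k[X], q ≠ 0 → (q.map ((algebraMap k M).comp (σ : k →+* k))).eval x' ≠ 0 := by
  intro q hq h0
  apply hx'
  refine ⟨q.map (σ : k →+* k), ?_, ?_⟩
  · rwa [Ne, Polynomial.map_eq_zero_iff (σ : k →+* k).injective]
  · rw [aeval_def, eval₂_eq_eval_map, Polynomial.map_map]
    exact h0

/-- two pairs of Weierstrass generators are related by a unique `σ`-semilinear automorphism -/
theorem IsWFF.exists_semilinear (h : IsWFF (W₀.baseChange k) M x y) {x' y' : M}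
    (h' : IsWFF (W₀.baseChange k) M x' y') (σ : k ≃ₐ[k₀] k) :
    ∃ δ : M ≃+* M, (∀ c, δ (algebraMap k M c) = algebraMap k M (σ c)) ∧ δ x = x' ∧ δ y = y' := by
  obtain ⟨φ, ⟨hφk, hφx, hφy⟩, -⟩ := h.lift ((algebraMap k M).comp (σ : k →+* k)) x' y'
    (by rw [map_semilinear_ell]; exact h'.equation) (ell5b_htr h'.transc σ)
  obtain ⟨ψ, ⟨hψk, hψx, hψy⟩, -⟩ := h'.lift ((algebraMap k M).comp (σ.symm : k →+* k)) x y
    (by rw [map_semilinear_ell]; exact h.equation) (ell5b_htr h.transc σ.symm)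
  have e1 : ψ.comp φ = RingHom.id M := by
    apply h.ell1a_hom_ext
    · intro c
      show ψ (φ (algebraMap k M c)) = algebraMap k M c
      rw [hφk]
      show ψ (algebraMap k M (σ c)) = _
      rw [hψk]
      show algebraMap k M (σ.symm (σ c)) = _
      rw [AlgEquiv.symm_apply_apply]
    · show ψ (φ x) = x
      rw [hφx, hψx]
    · show ψ (φ y) = y
      rw [hφy, hψy]
  have e2 : φ.comp ψ = RingHom.id M := by
    apply h'.ell1a_hom_ext
    · intro c
      show φ (ψ (algebraMap k M c)) = algebraMap k M c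
      rw [hψk]
      show φ (algebraMap k M (σ.symm c)) = _
      rw [hφk]
      show algebraMap k M (σ (σ.symm c)) = _
      rw [AlgEquiv.apply_symm_apply]
    · show φ (ψ x') = x'
      rw [hψx, hφx]
    · show φ (ψ y') = y'
      rw [hψy, hφy]
  exact ⟨RingEquiv.ofRingHom φ ψ e2 e1, hφk, hφx, hφy⟩

theorem IsWFF.semilinear_ext (h : IsWFF (W₀.baseChange k) M x y) {δ δ' : M ≃+* M}
    (hk : ∀ c, δ (algebraMap k M c) = δ' (algebraMap k M c)) (hx : δ x = δ' x) (hy : δ y = δ' y) :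
    δ = δ' := by
  have := h.ell1a_hom_ext (δ : M →+* M) (δ' : M →+* M) hk hx hy
  exact RingEquiv.ext fun z => RingHom.congr_fun this z

theorem map_const_ell [Algebra k₀ M] [IsScalarTower k₀ k M] (d : M →ₐ[k₀] M) (σ : k →ₐ[k₀] k)
    (h1 : ∀ c, d (algebraMap k M c) = algebraMap k M (σ c)) (Q : (W₀.baseChange k).toAffine.Point) :
    Affine.Point.map (W' := W₀.toAffine) d
        (Affine.Point.map (W' := W₀.toAffine) (IsScalarTower.toAlgHom k₀ k M) Q) =
      Affine.Point.map (W' := W₀.toAffine) (IsScalarTower.toAlgHom k₀ k M)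
        (Affine.Point.map (W' := W₀.toAffine) σ Q) := by
  rw [Affine.Point.map_map, Affine.Point.map_map]
  congr 1
  exact congrArg _ (AlgHom.ext fun c => h1 c)

/-- `δ = (σ on coefficients) ∘ (translation by Q)` -/
theorem IsWFF.exists_delta (h : IsWFF (W₀.baseChange k) M x y) (hΔ : W₀.Δ ≠ 0) (σ : k ≃ₐ[k₀] k)
    (Q : (W₀.baseChange k).toAffine.Point) :
    ∃! δ : M ≃+* M, (∀ c, δ (algebraMap k M c) = algebraMap k M (σ c)) ∧
      IsTransBy (W₀.baseChange k) x y (δ x) (δ y) Q := by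
  obtain ⟨x', y', ht⟩ := exists_isTransBy_ell (W₀.baseChange k) x y Q
  obtain ⟨δ, h1, hx, hy⟩ := h.exists_semilinear (h.trans hΔ ht) σ
  refine ⟨δ, ⟨h1, by rw [hx, hy]; exact ht⟩, ?_⟩
  rintro δ' ⟨h1', ht'⟩
  obtain ⟨ex, ey⟩ := ht'.unique_ell ht
  exact h.semilinear_ext (fun c => by rw [h1', h1]) (by rw [ex, hx]) (by rw [ey, hy])

/-- composition law -/
theorem IsWFF.delta_comp (h : IsWFF (W₀.baseChange k) M x y) (hΔ : W₀.Δ ≠ 0) {σ σ' : k ≃ₐ[k₀] k}
    {Q Q' : (W₀.baseChange k).toAffine.Point} {δ δ' : M ≃+* M}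
    (h1 : ∀ c, δ (algebraMap k M c) = algebraMap k M (σ c))
    (h2 : IsTransBy (W₀.baseChange k) x y (δ x) (δ y) Q)
    (h1' : ∀ c, δ' (algebraMap k M c) = algebraMap k M (σ' c))
    (h2' : IsTransBy (W₀.baseChange k) x y (δ' x) (δ' y) Q') :
    IsTransBy (W₀.baseChange k) x y (δ' (δ x)) (δ' (δ y))
      (Q' + Affine.Point.map (W' := W₀.toAffine) σ'.toAlgHom Q) := by
  let _ : Algebra k₀ M := ((algebraMap k M).comp (algebraMap k₀ k)).toAlgebra
  have _ : IsScalarTower k₀ k M := IsScalarTower.of_algebraMap_eq fun _ => rfl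
  have hg := h.nonsingular_gen hΔ
  obtain ⟨hns, hsum⟩ := (h.isTransBy_iff hg _ _ Q).mp h2
  obtain ⟨hns', hsum'⟩ := (h.isTransBy_iff hg _ _ Q').mp h2'
  let d' : M →ₐ[k₀] M := { (δ' : M →+* M) with
    commutes' := fun c => by
      show δ' (algebraMap k M (algebraMap k₀ k c)) = algebraMap k M (algebraMap k₀ k c)
      rw [h1', AlgEquiv.commutes] }
  have hd : ∀ z, d' z = δ' z := fun _ => rfl
  have h3 := congrArg (Affine.Point.map (W' := W₀.toAffine) d') hsum
  rw [map_add, map_const_ell d' σ'.toAlgHom h1' Q, Affine.Point.map_some,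
    Affine.Point.map_some] at h3
  rw [h.isTransBy_iff hg]
  refine ⟨(W₀.toAffine.baseChange_nonsingular d'.injective _ _).mpr hns, ?_⟩
  rw [map_add, ← add_assoc, ← hsum']
  exact h3

end Ell5b

end Claimed.Agent.R280
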