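import Claimed.Agent.R280.Ell.P8a

/-!
# Row 280, package Ell8d: the kernel of reduction is closed under addition (case D)

NO formal groups, NO change of chart.   Uses the STATEMENTS of Ell8a.   `v := A.valuation`.

PLAN (~350 lines).  `Q = (x₁,y₁)`, `Q' = (x₂,y₂)`, `x₁, x₂ ∉ A` (the cases `Q = 0` or `Q' = 0` are trivial: `zero_add`, `add_zero`).  If `Q + Q' = 0` done.  Else `Q + Q' = (x₃, y₃)` with `λ = slope`,
`x₃ = addX x₁ x₂ λ`; suppose `x₃ ∈ A`.   `y₃' := negAddY x₁ x₂ y₁ λ = λ (x₃ - x₁) + y₁`; `(x₃, y₃')` is on the curve (`Affine.equation_negAdd`/`nonsingular_negAdd`), so `y₃' ∈ A` (`mem_of_equation`).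
* `vieta` (from `Affine.addPolynomial_slope : addPolynomial x₁ y₁ λ = -((X - C x₁) * (X - C x₂) * (X - C x₃))`, compare the coefficients of `X²` and `X`; or directly by `linear_combination`/`field_simp` in the
  two cases of the slope):
     `x₁ + x₂ = λ² + a₁λ - a₂ - x₃`,
     `x₁ x₂ = a₄ + λ² x₃ - 2 λ y₃' - a₁ y₃' - a₃ λ + a₂ x₃ + x₃²`.
* If `v λ ≤ 1`: `x₁ x₂ ∈ A`, but `v x₁ * v x₂ > 1`.
* If `v λ > 1`: `v (x₁ x₂) ≤ v λ ^ 2` (every term), `v (x₁ + x₂) = v λ ^ 2` (dominant term), so `max (v x₁) (v x₂) ≥ v λ ^ 2`, the other factor is `> 1`: `v (x₁ x₂) > v λ ^ 2`.  Contradiction.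
-/

set_option autoImplicit false

namespace Claimed.Agent.R280

open WithZero WeierstrassCurve Polynomial
open scoped Classical

section Ell8d

variable {K F : Type} [Field K] [Field F] {A : ValuationSubring K} {r : A →+* F}
  {Wt : WeierstrassCurve K} {W0 : WeierstrassCurve F}

/-- Vieta for the intersection of the curve with the line through two points -/
theorem vieta_line (W : WeierstrassCurve K) {x₁ y₁ x₂ y₂ : K} (h₁ : W.toAffine.Equation x₁ y₁)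
    (h₂ : W.toAffine.Equation x₂ y₂) (hxy : ¬ (x₁ = x₂ ∧ y₁ = W.toAffine.negY x₂ y₂)) (l x₃ y₃ : K)
    (hl : l = W.toAffine.slope x₁ x₂ y₁ y₂) (hx₃ : x₃ = W.toAffine.addX x₁ x₂ l)
    (hy₃ : y₃ = W.toAffine.negAddY x₁ x₂ y₁ l) :
    x₁ + x₂ = l ^ 2 + W.a₁ * l - W.a₂ - x₃ ∧
    x₁ * x₂ = W.a₄ + l ^ 2 * x₃ - 2 * l * y₃ - W.a₁ * y₃ - W.a₃ * l + W.a₂ * x₃ + x₃ ^ 2 := by
  have h := Affine.addPolynomial_slope h₁ h₂ hxy
  rw [← hl, ← hx₃, Affine.addPolynomial_eq, neg_inj, Cubic.prod_X_sub_C_eq,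
    Cubic.toPoly_injective] at h
  have hc := congrArg Cubic.c h
  simp only at hc
  rw [Affine.addX] at hx₃
  rw [Affine.negAddY, Affine.addX, ← hx₃] at hy₃
  constructor
  · rw [hx₃]; ring
  · rw [hy₃]
    linear_combination (-1 : K) * hc - x₃ * hx₃

theorem RedCurveA.addX_not_mem_of_not_mem (hW : RedCurveA A r Wt W0) {x₁ y₁ x₂ y₂ : K}
    (h₁ : Wt.toAffine.Equation x₁ y₁) (h₂ : Wt.toAffine.Equation x₂ y₂)
    (hxy : ¬ (x₁ = x₂ ∧ y₁ = Wt.toAffine.negY x₂ y₂)) (hx₁ : x₁ ∉ A) (hx₂ : x₂ ∉ A) :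
    Wt.toAffine.addX x₁ x₂ (Wt.toAffine.slope x₁ x₂ y₁ y₂) ∉ A := by
  intro hx₃
  have hE := Affine.equation_negAdd h₁ h₂ hxy
  have hy₃ := RedCurveA.mem_of_equation hW hE hx₃
  obtain ⟨e1, e2⟩ := vieta_line Wt h₁ h₂ hxy _ _ _ rfl rfl rfl
  generalize Wt.toAffine.negAddY x₁ x₂ y₁ (Wt.toAffine.slope x₁ x₂ y₁ y₂) = y₃ at hy₃ e2
  generalize Wt.toAffine.addX x₁ x₂ (Wt.toAffine.slope x₁ x₂ y₁ y₂) = x₃ at hx₃ e1 e2
  generalize Wt.toAffine.slope x₁ x₂ y₁ y₂ = l at e1 e2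
  obtain ⟨⟨a1, -⟩, ⟨a2, -⟩, ⟨a3, -⟩, ⟨a4, -⟩, ⟨a6, -⟩⟩ := hW
  have v1 : 1 < A.valuation x₁ := by
    rw [← not_le, A.valuation_le_one_iff]; exact hx₁
  have v2 : 1 < A.valuation x₂ := by
    rw [← not_le, A.valuation_le_one_iff]; exact hx₂
  have two : (2 : K) ∈ A := by exact_mod_cast natCast_mem A 2
  by_cases hlA : l ∈ A
  · have hm : x₁ * x₂ ∈ A := by
      rw [e2]
      exact A.add_mem _ _ (A.add_mem _ _ (A.sub_mem (A.sub_mem (A.sub_mem (A.add_mem _ _ a4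
        (A.mul_mem _ _ (pow_mem hlA 2) hx₃)) (A.mul_mem _ _ (A.mul_mem _ _ two hlA) hy₃))
        (A.mul_mem _ _ a1 hy₃)) (A.mul_mem _ _ a3 hlA)) (A.mul_mem _ _ a2 hx₃)) (pow_mem hx₃ 2)
    rw [← A.valuation_le_one_iff, map_mul] at hm
    exact absurd hm (not_le.mpr (one_lt_mul'' v1 v2))
  · have vl : 1 < A.valuation l := by
      rw [← not_le, A.valuation_le_one_iff]; exact hlA
    have hl0 : l ≠ 0 := by
      rintro rfl
      exact hlA A.zero_mem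
    obtain ⟨m, hm⟩ : ∃ m : K, m = l⁻¹ := ⟨_, rfl⟩
    have hml : m * l = 1 := by rw [hm]; exact inv_mul_cancel₀ hl0
    have vm : A.valuation m < 1 := by
      rw [hm, map_inv₀]; exact inv_lt_one_of_one_lt₀ vl
    have hmA : m ∈ A := (A.valuation_le_one_iff _).1 vm.le
    have p1 : x₁ * x₂ * m ^ 2 ∈ A := by
      have e : x₁ * x₂ * m ^ 2 = Wt.a₄ * m ^ 2 + x₃ - 2 * m * y₃ - Wt.a₁ * y₃ * m ^ 2 - Wt.a₃ * m
          + Wt.a₂ * x₃ * m ^ 2 + x₃ ^ 2 * m ^ 2 := by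
        rw [e2]
        linear_combination (x₃ * (m * l + 1) - 2 * m * y₃ - Wt.a₃ * m) * hml
      rw [e]
      have m2 := pow_mem hmA 2
      exact A.add_mem _ _ (A.add_mem _ _ (A.sub_mem (A.sub_mem (A.sub_mem (A.add_mem _ _
        (A.mul_mem _ _ a4 m2) hx₃) (A.mul_mem _ _ (A.mul_mem _ _ two hmA) hy₃))
        (A.mul_mem _ _ (A.mul_mem _ _ a1 hy₃) m2)) (A.mul_mem _ _ a3 hmA))
        (A.mul_mem _ _ (A.mul_mem _ _ a2 hx₃) m2)) (A.mul_mem _ _ (pow_mem hx₃ 2) m2)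
    have p2 : A.valuation ((x₁ + x₂) * m ^ 2) = 1 := by
      have e : (x₁ + x₂) * m ^ 2 = 1 + m * (Wt.a₁ - Wt.a₂ * m - x₃ * m) := by
        rw [e1]
        linear_combination (m * l + 1 + Wt.a₁ * m) * hml
      have ht : Wt.a₁ - Wt.a₂ * m - x₃ * m ∈ A :=
        A.sub_mem (A.sub_mem a1 (A.mul_mem _ _ a2 hmA)) (A.mul_mem _ _ hx₃ hmA)
      have hlt : A.valuation (m * (Wt.a₁ - Wt.a₂ * m - x₃ * m)) < A.valuation 1 := by
        rw [map_mul, map_one]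
        exact mul_lt_one_of_lt_of_le vm ((A.valuation_le_one_iff _).2 ht)
      rw [e, Valuation.map_add_eq_of_lt_left _ hlt, map_one]
    rw [← A.valuation_le_one_iff] at p1
    have p3 : (1 : A.ValueGroup) ≤ max (A.valuation (x₁ * m ^ 2)) (A.valuation (x₂ * m ^ 2)) := by
      rw [← p2, add_mul]
      exact Valuation.map_add _ _ _
    rcases le_max_iff.1 p3 with h | h
    · have e : x₁ * x₂ * m ^ 2 = (x₁ * m ^ 2) * x₂ := by ring
      rw [e, map_mul] at p1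
      exact absurd p1 (not_le.mpr (lt_of_lt_of_le v2 (le_mul_of_one_le_left' h)))
    · have e : x₁ * x₂ * m ^ 2 = x₁ * (x₂ * m ^ 2) := by ring
      rw [e, map_mul] at p1
      exact absurd p1 (not_le.mpr (lt_of_lt_of_le v1 (le_mul_of_one_le_right' h)))

theorem RedPtA.add_D (hW : RedCurveA A r Wt W0) {Q Q' : Wt.toAffine.Point}
    (h : RedPtA A r Q (0 : W0.toAffine.Point)) (h' : RedPtA A r Q' (0 : W0.toAffine.Point)) :
    RedPtA A r (Q + Q') (0 : W0.toAffine.Point) := by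
  rcases Q with _ | ⟨x₁, y₁, h₁⟩
  · have : (Affine.Point.zero : Wt.toAffine.Point) + Q' = Q' := zero_add Q'
    rw [this]; exact h'
  rcases Q' with _ | ⟨x₂, y₂, h₂⟩
  · have : Affine.Point.some x₁ y₁ h₁ + (Affine.Point.zero : Wt.toAffine.Point)
        = Affine.Point.some x₁ y₁ h₁ := add_zero _
    rw [this]; exact h
  by_cases hxy : x₁ = x₂ ∧ y₁ = Wt.toAffine.negY x₂ y₂
  · rw [Affine.Point.add_of_Y_eq hxy.1 hxy.2]
    trivial
  · rw [Affine.Point.add_some hxy]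
    exact RedCurveA.addX_not_mem_of_not_mem hW h₁.left h₂.left hxy h h'

end Ell8d

end Claimed.Agent.R280
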