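import Claimed.Agent.R280.Ell.P8c
import Claimed.Agent.R280.Ell.P8d

/-!
# Row 280, package Ell8: reduction modulo a valuation ring is a group homomorphism (GLUE, proved)

Cases: A (`RedPtA.add_A`: both reductions affine, sum `≠ 0`), B (`add_B`: both affine, sum `= 0`), D (`add_D`: both `0`) are the leaves Ell8b, c, d.
Case C (exactly one reduction is `0`) follows formally from A, D, `neg`, `existsUnique`, `unique`.
-/

set_option autoImplicit false

namespace Claimed.Agent.R280

open WithZero WeierstrassCurve Polynomial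
open scoped Classical

section Ell8

variable {K F : Type} [Field K] [Field F] (A : ValuationSubring K) (r : A →+* F)
  {Wt : WeierstrassCurve K} {W0 : WeierstrassCurve F}

/-- case C -/
theorem RedPtA.add_C (hr : ∀ a : A, r a = 0 ↔ a ∈ IsLocalRing.maximalIdeal A)
    (hW : RedCurveA A r Wt W0) (hΔ : W0.Δ ≠ 0) {Q Q' : Wt.toAffine.Point}
    {Qb' : W0.toAffine.Point} (h : RedPtA A r Q (0 : W0.toAffine.Point)) (h' : RedPtA A r Q' Qb')
    (hb' : Qb' ≠ 0) : RedPtA A r (Q + Q') Qb' := by
  obtain ⟨Rb, hR, -⟩ := RedPtA.existsUnique A r hr hW hΔ (Q + Q')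
  have hnegQ : RedPtA A r (-Q) (0 : W0.toAffine.Point) := by
    have := RedPtA.neg A r hr hW h
    rwa [neg_zero] at this
  have hRb : Rb ≠ 0 := by
    rintro rfl
    have h1 := RedPtA.add_D hW hR hnegQ
    have e : Q + Q' + -Q = Q' := by abel
    rw [e] at h1
    exact hb' (RedPtA.unique h' h1)
  by_cases hne : Rb = Qb'
  · rwa [hne] at hR
  · exfalso
    have hnegQ' := RedPtA.neg A r hr hW h'
    have h2 := RedPtA.add_A hr hW hR hnegQ' hRb (neg_ne_zero.mpr hb')
      (by rw [← sub_eq_add_neg]; exact sub_ne_zero.mpr hne)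
    have e : Q + Q' + -Q' = Q := by abel
    rw [e] at h2
    have := RedPtA.unique h2 h
    rw [← sub_eq_add_neg] at this
    exact hne (sub_eq_zero.mp this)

/-- **reduction is a group homomorphism** (Silverman VII.2.1, for an arbitrary valuation ring) -/
theorem RedPtA.add (hr : ∀ a : A, r a = 0 ↔ a ∈ IsLocalRing.maximalIdeal A)
    (hW : RedCurveA A r Wt W0) (hΔ : W0.Δ ≠ 0) {Q Q' : Wt.toAffine.Point}
    {Qb Qb' : W0.toAffine.Point} (h : RedPtA A r Q Qb) (h' : RedPtA A r Q' Qb') :
    RedPtA A r (Q + Q') (Qb + Qb') := by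
  by_cases hb : Qb = 0
  · subst hb
    by_cases hb' : Qb' = 0
    · subst hb'
      rw [add_zero]
      exact RedPtA.add_D hW h h'
    · rw [zero_add]
      exact RedPtA.add_C A r hr hW hΔ h h' hb'
  · by_cases hb' : Qb' = 0
    · subst hb'
      rw [add_zero, add_comm]
      exact RedPtA.add_C A r hr hW hΔ h' h hb
    · by_cases he : Qb + Qb' = 0
      · rw [he]
        exact RedPtA.add_B hr hW h h' hb hb' he
      · exact RedPtA.add_A hr hW h h' hb hb' he

end Ell8

end Claimed.Agent.R280
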