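import Claimed.Agent.R280.Ell.P5b
import Claimed.Agent.R280.Ell.P8

/-!
# Row 280, package Ell5c: specialisation at a rational place is a group homomorphism; action of `δ` on the rational places

Uses the STATEMENTS of Ell2, Ell5a, Ell8 (`RedPtA.add` for the valuation ring `P.O` and the CONSTANT curve).
For statements without `[Algebra k₀ M]` start with
`letI : Algebra k₀ M := ((algebraMap k M).comp (algebraMap k₀ k)).toAlgebra; haveI : IsScalarTower k₀ k M := IsScalarTower.of_algebraMap_eq fun _ => rfl`.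

PLAN (~600 lines)
* `Place.exists_resHom`: `finrank k P.Res = 1` ⟹ `algebraMap k P.Res` bijective (injective: field hom; surjective: `finrank_eq_one_iff`-type, e.g. `Module.finrank_eq_one_iff_of_nonzero' 1`); `r := e.symm ∘ IsLocalRing.residue P.O`;
  `IsLocalRing.residue_eq_zero_iff`.
* `resA_eq_iff_ell`: `f - c ∈ 𝔪_P ↔ v (f - c) < 1` (`Valuation.mem_valuationSubring_iff`, `ValuationSubring.valuation_lt_one_iff`/`Valuation.valuationSubring` API: the maximal ideal of `P.v.valuationSubring` is `{v < 1}`: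
  a nonunit `a` of `P.O`: `a = 0` or `a⁻¹ ∉ P.O`).
* `redCurveA_const`: coefficients are `algebraMap k₀ M a = algebraMap k M (algebraMap k₀ k a)` (`WeierstrassCurve.baseChange`, `map_a₁` …), `resA_eq_iff_ell` with `f - c = 0`.
* `redPtA_const`, `redPtA_some_iff`: cases on the point; `resA_eq_iff_ell`.
* `IsWFF.atPt_trans`: `deg P = 1` (`deg_of_atPt`), `r`; `RedPtA g T` (`redPtA_some_iff`), `RedPtA (ι Q) Q`, `RedPtA.add` (`Δ (W₀.baseChange k) ≠ 0`), `isTransBy_iff` identifies `g + ι Q = (x',y')`, `redPtA_some_iff` back.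
* `place_comp_delta`: `P'' := P.compDelta δ σ h1`.  `atPt_trans`: `P.IsAtPt (δ x) (δ y) (σR - Q + Q)`; `sub_add_cancel`.  `R = 0`: `Point.map_zero`, `P''.IsInf x`.  `R = (a,b)`: `Point.map_some`,
  `δ (x - algebraMap a) = δ x - algebraMap (σ a)`.   So `P''.IsAtPt x y R`; `P'' = P'` by `existsUnique_atPt`; `compDelta_v`.
-/

set_option autoImplicit false

namespace Claimed.Agent.R280

open WithZero WeierstrassCurve Polynomial
open scoped Classical

section Res

variable {k M : Type} [Field k] [Field M] [Algebra k M]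

/-- the residue map of a place of degree one -/
theorem Place.exists_resHom (P : Place k M) (hdeg : P.deg = 1) :
    ∃ r : P.O →+* k, (∀ c : k, r ⟨algebraMap k M c, P.algebraMap_mem c⟩ = c) ∧
      ∀ a : P.O, r a = 0 ↔ a ∈ IsLocalRing.maximalIdeal P.O := by
  have hsurj : Function.Surjective (algebraMap k P.Res) := by
    intro w
    obtain ⟨c, hc⟩ := (finrank_eq_one_iff_of_nonzero' (1 : P.Res) one_ne_zero).mp hdeg w
    exact ⟨c, by rw [← hc, Algebra.smul_def, mul_one]⟩
  let e : k ≃+* P.Res := RingEquiv.ofBijective (algebraMap k P.Res)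
    ⟨(algebraMap k P.Res).injective, hsurj⟩
  refine ⟨e.symm.toRingHom.comp (IsLocalRing.residue P.O), fun c => ?_, fun a => ?_⟩
  · show e.symm (IsLocalRing.residue P.O ⟨algebraMap k M c, P.algebraMap_mem c⟩) = c
    rw [RingEquiv.symm_apply_eq]
    rfl
  · show e.symm (IsLocalRing.residue P.O a) = 0 ↔ _
    rw [map_eq_zero_iff e.symm e.symm.injective, IsLocalRing.residue_eq_zero_iff]

theorem ell5c_val_lt_one (P : Place k M) (f : M) : P.O.valuation f < 1 ↔ P.v f < 1 :=
  (Valuation.isEquiv_valuation_valuationSubring P.v).lt_one_iff_lt_one.symm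

theorem resA_eq_iff_ell (P : Place k M) (r : P.O →+* k)
    (hr1 : ∀ c : k, r ⟨algebraMap k M c, P.algebraMap_mem c⟩ = c)
    (hr2 : ∀ a : P.O, r a = 0 ↔ a ∈ IsLocalRing.maximalIdeal P.O) (f : M) (c : k) :
    (f ∈ P.O ∧ resA P.O r f = c) ↔ P.v (f - algebraMap k M c) < 1 := by
  have hc : resA P.O r (algebraMap k M c) = c := by
    rw [resA_of_mem P.O r (P.algebraMap_mem c)]; exact hr1 c
  constructor
  · rintro ⟨hf, hfc⟩
    rw [← ell5c_val_lt_one, ← resA_eq_zero_iff hr2 (P.O.sub_mem hf (P.algebraMap_mem c)),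
      resA_sub P.O r hf (P.algebraMap_mem c), hc, hfc, sub_self]
  · intro h
    have hm : f - algebraMap k M c ∈ P.O := (Valuation.mem_valuationSubring_iff _ _).mpr h.le
    have hf : f ∈ P.O := by
      have := P.O.add_mem _ _ hm (P.algebraMap_mem c)
      rwa [sub_add_cancel] at this
    refine ⟨hf, ?_⟩
    rw [← ell5c_val_lt_one, ← resA_eq_zero_iff hr2 hm, resA_sub P.O r hf (P.algebraMap_mem c), hc,
      sub_eq_zero] at h
    exact h

/-- the place `f ↦ P.v (δ f)` -/
def Place.compDelta (P : Place k M) (δ : M ≃+* M) (σ : k → k)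
    (h1 : ∀ c, δ (algebraMap k M c) = algebraMap k M (σ c)) : Place k M :=
  P.transport δ.symm fun a' => ⟨σ a', h1 a'⟩

theorem Place.compDelta_v (P : Place k M) (δ : M ≃+* M) (σ : k → k)
    (h1 : ∀ c, δ (algebraMap k M c) = algebraMap k M (σ c)) (f : M) :
    (P.compDelta δ σ h1).v f = P.v (δ f) := rfl

end Res

section Ell5cTower

variable {k₀ k M : Type} [Field k₀] [Field k] [Field M] [Algebra k₀ k] [Algebra k M]
  [Algebra k₀ M] [IsScalarTower k₀ k M] {W₀ : WeierstrassCurve k₀}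

theorem redCurveA_const (W₀ : WeierstrassCurve k₀) (P : Place k M) (r : P.O →+* k)
    (hr1 : ∀ c : k, r ⟨algebraMap k M c, P.algebraMap_mem c⟩ = c) :
    RedCurveA P.O r (W₀.baseChange M) (W₀.baseChange k) := by
  have key : ∀ a : k₀, algebraMap k₀ M a ∈ P.O ∧
      resA P.O r (algebraMap k₀ M a) = algebraMap k₀ k a := by
    intro a
    rw [IsScalarTower.algebraMap_apply k₀ k M]
    exact ⟨P.algebraMap_mem _, by rw [resA_of_mem P.O r (P.algebraMap_mem _)]; exact hr1 _⟩
  exact ⟨key _, key _, key _, key _, key _⟩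

theorem redPtA_const (P : Place k M) (r : P.O →+* k)
    (hr1 : ∀ c : k, r ⟨algebraMap k M c, P.algebraMap_mem c⟩ = c)
    (Q : (W₀.baseChange k).toAffine.Point) :
    RedPtA P.O r (Affine.Point.map (W' := W₀.toAffine) (IsScalarTower.toAlgHom k₀ k M) Q) Q := by
  have key : ∀ a : k, algebraMap k M a ∈ P.O ∧ resA P.O r (algebraMap k M a) = a := fun a =>
    ⟨P.algebraMap_mem _, by rw [resA_of_mem P.O r (P.algebraMap_mem _)]; exact hr1 _⟩
  rcases Q with _ | ⟨a, b, hQ⟩
  · trivial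
  · exact ⟨(key a).1, (key b).1, (key a).2, (key b).2⟩

theorem redPtA_some_iff (P : Place k M) (r : P.O →+* k)
    (hr1 : ∀ c : k, r ⟨algebraMap k M c, P.algebraMap_mem c⟩ = c)
    (hr2 : ∀ a : P.O, r a = 0 ↔ a ∈ IsLocalRing.maximalIdeal P.O) {u w : M}
    (hns : (W₀.baseChange M).toAffine.Nonsingular u w) (T : (W₀.baseChange k).toAffine.Point) :
    RedPtA P.O r (Affine.Point.some u w hns) T ↔ P.IsAtPt u w T := by
  rcases T with _ | ⟨a, b, hT⟩
  · show u ∉ P.O ↔ 1 < P.v u
    rw [Valuation.mem_valuationSubring_iff, not_le]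
  · show (u ∈ P.O ∧ w ∈ P.O ∧ resA P.O r u = a ∧ resA P.O r w = b) ↔
      (P.v (u - algebraMap k M a) < 1 ∧ P.v (w - algebraMap k M b) < 1)
    rw [← resA_eq_iff_ell P r hr1 hr2, ← resA_eq_iff_ell P r hr1 hr2]
    tauto

end Ell5cTower

section Ell5c

variable {k₀ k M : Type} [Field k₀] [Field k] [Field M] [Algebra k₀ k] [Algebra k M]
  {W₀ : WeierstrassCurve k₀} {x y : M}

theorem ell5c_Δ_ne_zero (hΔ : W₀.Δ ≠ 0) : (W₀.baseChange k).Δ ≠ 0 := by
  rw [WeierstrassCurve.baseChange, WeierstrassCurve.map_Δ]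
  exact (_root_.map_ne_zero _).mpr hΔ

/-- the translated generic point `g + Q` specialises to `T + Q` at the place at `T` -/
theorem IsWFF.atPt_trans (h : IsWFF (W₀.baseChange k) M x y) (hΔ : W₀.Δ ≠ 0) {x' y' : M}
    {Q : (W₀.baseChange k).toAffine.Point} (ht : IsTransBy (W₀.baseChange k) x y x' y' Q)
    {P : Place k M} {T : (W₀.baseChange k).toAffine.Point} (hP : P.IsAtPt x y T) :
    P.IsAtPt x' y' (T + Q) := by
  let _ : Algebra k₀ M := ((algebraMap k M).comp (algebraMap k₀ k)).toAlgebra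
  have _ : IsScalarTower k₀ k M := IsScalarTower.of_algebraMap_eq fun _ => rfl
  have hΔk : (W₀.baseChange k).Δ ≠ 0 := ell5c_Δ_ne_zero hΔ
  have hdeg : P.deg = 1 := h.deg_of_atPt hΔk hP
  obtain ⟨r, hr1, hr2⟩ := P.exists_resHom hdeg
  have hg := h.nonsingular_gen hΔ
  obtain ⟨hns, hsum⟩ := (h.isTransBy_iff hg x' y' Q).mp ht
  have hW := redCurveA_const W₀ P r hr1
  have h1 : RedPtA P.O r (Affine.Point.some x y hg) T := (redPtA_some_iff P r hr1 hr2 hg T).mpr hP
  have h2 := redPtA_const (W₀ := W₀) P r hr1 Q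
  have h3 := RedPtA.add P.O r hr2 hW hΔk h1 h2
  rw [← hsum] at h3
  exact (redPtA_some_iff P r hr1 hr2 hns (T + Q)).mp h3

/-- the place at `σ R - Q` composed with `δ` is the place at `R` -/
theorem IsWFF.place_comp_delta (h : IsWFF (W₀.baseChange k) M x y) (hΔ : W₀.Δ ≠ 0)
    {σ : k ≃ₐ[k₀] k} {Q : (W₀.baseChange k).toAffine.Point} {δ : M ≃+* M}
    (h1 : ∀ c, δ (algebraMap k M c) = algebraMap k M (σ c))
    (h2 : IsTransBy (W₀.baseChange k) x y (δ x) (δ y) Q)
    {R : (W₀.baseChange k).toAffine.Point} {P P' : Place k M}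
    (hP : P.IsAtPt x y (Affine.Point.map (W' := W₀.toAffine) σ.toAlgHom R - Q))
    (hP' : P'.IsAtPt x y R) (f : M) : P.v (δ f) = P'.v f := by
  have hΔk : (W₀.baseChange k).Δ ≠ 0 := ell5c_Δ_ne_zero hΔ
  have h3 := h.atPt_trans hΔ h2 hP
  rw [sub_add_cancel] at h3
  have h4 : (P.compDelta δ σ h1).IsAtPt x y R := by
    rcases R with _ | ⟨a, b, hR⟩
    · exact h3
    · have h5 : P.v (δ x - algebraMap k M (σ a)) < 1 ∧ P.v (δ y - algebraMap k M (σ b)) < 1 := h3
      show P.v (δ (x - algebraMap k M a)) < 1 ∧ P.v (δ (y - algebraMap k M b)) < 1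
      rw [map_sub δ, map_sub δ, h1, h1]
      exact h5
  have h6 : P.compDelta δ σ h1 = P' := (h.existsUnique_atPt hΔk R).unique h4 hP'
  rw [← h6]
  rfl

end Ell5c

end Claimed.Agent.R280
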