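import Claimed.Agent.R280.Ell.P5c
import Claimed.Agent.R280.Ell.P4b

/-!
# Row 280, package Ell5d: the Abel sum of a `δ`-invariant divisor

Uses the STATEMENTS of Ell2b, Ell4b, Ell5c, FF2 (`divf_apply`).  Start with `haveI := h.isFF`.

PLAN (~400 lines)
* `Place.compDelta_injective`: `P.compDelta δ = P'.compDelta δ` ⟹ `P.v (δ f) = P'.v (δ f)` for all `f`, `δ` surjective, `Place.ext` + `Valuation.ext`.
* `divf_delta`: `divf_apply` twice (`δ f ≠ 0`), `Place.ord`, `compDelta_v`.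
* `of_invariant`: unpack `hR`: `P_R` at `R`, `P₀` at infinity, `f ≠ 0`, `divf f = D - [P_R] - (d - 1) • [P₀]`, `d = deg D`.
  `P₁ :=` place at `σR - Q`, `P₂ :=` place at `σ0 - Q = -Q` (`existsUnique_atPt`, `Δ (W₀.baseChange k) ≠ 0`).   `place_comp_delta`: `P₁.compDelta δ = P_R`, `P₂.compDelta δ = P₀` (`Place.ext`, `Valuation.ext`; `IsAtPt _ _ 0 = IsInf`).
  CLAIM `divf (δ f) = D - [P₁] - (d - 1) • [P₂]`: `Finsupp.ext P`; `divf_delta`; `hD P (P.compDelta δ) (fun f => (compDelta_v ..).symm ▸ rfl)`; `Finsupp.single_apply`, `P_R = P.compDelta δ ↔ P₁ = P` by injectivity.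
  Hence `D = divf (δ f) + [P₁] + (d - 1) • [P₂]`, `IsSum D (0 + (σR - Q) + (d - 1) • (-Q))` (`IsSum.of_divf`, `IsSum.single`, `IsSum.zsmul`, `IsSum.add`); uniqueness (`existsUnique_isSum`) against `hR`;
  `0 + (σR - Q) + (d - 1) • (-Q) = σR - d • Q` (`sub_smul`, `one_smul`, `smul_neg`, `abel`).
-/

set_option autoImplicit false

namespace Claimed.Agent.R280

open WithZero WeierstrassCurve Polynomial
open scoped Classical

section Ell5d

variable {k₀ k M : Type} [Field k₀] [Field k] [Field M] [Algebra k₀ k] [Algebra k M]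
  {W₀ : WeierstrassCurve k₀} {x y : M}

omit [Field k₀] [Algebra k₀ k] in
theorem Place.compDelta_injective (δ : M ≃+* M) (σ : k → k)
    (h1 : ∀ c, δ (algebraMap k M c) = algebraMap k M (σ c)) :
    Function.Injective fun P : Place k M => P.compDelta δ σ h1 := by
  intro P P' hPP
  apply Place.ext
  apply Valuation.ext
  intro f
  have := congrArg (fun R : Place k M => R.v (δ.symm f)) hPP
  simpa [Place.compDelta_v] using this

omit [Field k₀] [Algebra k₀ k] in
theorem divf_delta [IsFF k M] (δ : M ≃+* M) (σ : k → k)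
    (h1 : ∀ c, δ (algebraMap k M c) = algebraMap k M (σ c)) {f : M} (hf : f ≠ 0) (P : Place k M) :
    divf (k := k) (δ f) P = divf (k := k) f (P.compDelta δ σ h1) := by
  rw [divf_apply ((map_ne_zero_iff δ δ.injective).mpr hf), divf_apply hf]
  rfl

/-- the sum of a `δ`-invariant divisor -/
theorem IsSum.of_invariant (h : IsWFF (W₀.baseChange k) M x y) (hΔ : W₀.Δ ≠ 0)
    {σ : k ≃ₐ[k₀] k} {Q : (W₀.baseChange k).toAffine.Point} {δ : M ≃+* M}
    (h1 : ∀ c, δ (algebraMap k M c) = algebraMap k M (σ c))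
    (h2 : IsTransBy (W₀.baseChange k) x y (δ x) (δ y) Q) {D : Dvsr k M}
    (hD : ∀ P P' : Place k M, (∀ f, P.v (δ f) = P'.v f) → D P = D P')
    {R : (W₀.baseChange k).toAffine.Point} (hR : IsSum x y D R) :
    Affine.Point.map (W' := W₀.toAffine) σ.toAlgHom R - D.deg • Q = R := by
  have := h.isFF
  have hΔk : (W₀.baseChange k).Δ ≠ 0 := ell5c_Δ_ne_zero hΔ
  have hR' := hR
  obtain ⟨PR, P₀, hPR, hP₀, f, hf, hdiv⟩ := hR
  obtain ⟨P₁, hP₁, -⟩ := h.existsUnique_atPt hΔk
    (Affine.Point.map (W' := W₀.toAffine) σ.toAlgHom R - Q)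
  obtain ⟨P₂, hP₂, -⟩ := h.existsUnique_atPt hΔk
    (Affine.Point.map (W' := W₀.toAffine) σ.toAlgHom (0 : (W₀.baseChange k).toAffine.Point) - Q)
  have c1 : P₁.compDelta δ σ h1 = PR := by
    apply Place.ext; apply Valuation.ext; intro g
    exact h.place_comp_delta hΔ h1 h2 hP₁ hPR g
  have hP₀' : P₀.IsAtPt x y (0 : (W₀.baseChange k).toAffine.Point) := hP₀
  have c2 : P₂.compDelta δ σ h1 = P₀ := by
    apply Place.ext; apply Valuation.ext; intro g
    exact h.place_comp_delta hΔ h1 h2 hP₂ hP₀' g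
  have hinj := Place.compDelta_injective δ σ h1
  have claim : divf (k := k) (δ f) = D - Finsupp.single P₁ 1 - (D.deg - 1) • Finsupp.single P₂ 1 := by
    ext P
    rw [divf_delta δ σ h1 hf, hdiv]
    simp only [Finsupp.coe_sub, Finsupp.coe_smul, Pi.sub_apply, Pi.smul_apply, smul_eq_mul]
    rw [← hD P (P.compDelta δ σ h1) (fun g => rfl)]
    have e1 : (Finsupp.single PR (1 : ℤ)) (P.compDelta δ σ h1) = (Finsupp.single P₁ (1 : ℤ)) P := by
      rw [← c1, Finsupp.single_apply, Finsupp.single_apply]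
      exact if_congr ⟨fun e => hinj e, fun e => by rw [e]⟩ rfl rfl
    have e2 : (Finsupp.single P₀ (1 : ℤ)) (P.compDelta δ σ h1) = (Finsupp.single P₂ (1 : ℤ)) P := by
      rw [← c2, Finsupp.single_apply, Finsupp.single_apply]
      exact if_congr ⟨fun e => hinj e, fun e => by rw [e]⟩ rfl rfl
    rw [e1, e2]
  have hδf : δ f ≠ 0 := (map_ne_zero_iff δ δ.injective).mpr hf
  have s1 := IsSum.of_divf h hΔk hδf
  have s2 := IsSum.single h hΔk hP₁
  have s3 := IsSum.zsmul h hΔk (IsSum.single h hΔk hP₂) (D.deg - 1)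
  have s4 := IsSum.add h hΔk (IsSum.add h hΔk s1 s2) s3
  have eD : divf (k := k) (δ f) + Finsupp.single P₁ 1 + (D.deg - 1) • Finsupp.single P₂ 1 = D := by
    rw [claim]; abel
  rw [eD] at s4
  have := (h.existsUnique_isSum hΔk D).unique s4 hR'
  refine Eq.trans ?_ this
  rw [map_zero, zero_sub, zero_add, smul_neg, sub_smul, one_smul]
  abel

end Ell5d

end Claimed.Agent.R280
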