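import Claimed.Agent.R280.Ell.P2b

/-!
# Row 280, package Ell6: base change of the ground field (two leaves: Ell6a = `isPushout`, Ell6b = `atPt_over`)

`k'/k` algebraic, `M = k(x,y)`, `M' = k'(x,y)`, `M ⊆ M'`.   Uses the STATEMENTS of Ell1, Ell2, FF1.

PLAN Ell6a (~600 lines)
* `isPushout_of_disjoint` (general fields): `Φ : k' ⊗[k] M → M'`, `c ⊗ f ↦ c • algebraMap f`.  Surjective by `hspan`.  Injective: `b := Module.Basis.ofVectorSpace k k'`; `TensorProduct.equivFinsuppOfBasisLeft b : k' ⊗[k] M ≃ (ι →₀ M)`
  (or `Module.Basis.baseChange`/`Algebra.TensorProduct.basis`): `t = ∑ b i ⊗ f i`, `Φ t = ∑ algebraMap (b i) * algebraMap (f i) = 0` ⟹ all `f i = 0` by `hdis` (restricted to the finite support).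
  `IsBaseChange.of_equiv (LinearEquiv.ofBijective Φ _)`, `Algebra.IsPushout.mk`  (the class is `Algebra.IsPushout R S R' S'` with `out : IsBaseChange S (toAlgHom R R' S').toLinearMap`, here `R S R' S' = k k' M M'`).
* `linearIndependent_baseChange`: `∑ cᵢ fᵢ = 0`; common denominator `C(x)` (`repr` for each `fᵢ`, multiply): `fᵢ C(x) = Aᵢ(x) + Bᵢ(x) y`; in `M'`: `(∑ cᵢ Aᵢ)(x) + (∑ cᵢ Bᵢ)(x) y = 0`; `repr_unique` over `k'` for
  `∑ C cᵢ * Aᵢ.map`, `∑ C cᵢ * Bᵢ.map`; coefficientwise `∑ cᵢ * algebraMap (Aᵢ.coeff j) = 0` ⟹ `Aᵢ.coeff j = 0` (linear independence of `c` over `k`); so `fᵢ C(x) = 0`, `fᵢ = 0`.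
* `span_baseChange`: `S := ` the set of such sums is a subring of `M'` containing `k'` and `M`; it is integral over `M` (generated by the algebraic elements `c ∈ k'`; `Algebra.IsAlgebraic.tower_top`-type / `IsIntegral.add/mul`),
  a domain integral over a field is a field (`isField_of_isIntegral_of_isField'`); or use `IntermediateField.adjoin_algebraic_toSubalgebra` : for algebraic generators `M(k') = M[k']`.  It contains `k', x, y`, so it is `⊤` by `h'.gen`.

PLAN Ell6b (~300 lines)
* `B := P'.O.comap (algebraMap M M')` is a valuation subring of `M` containing `k`, `≠ ⊤` (`(x - a)⁻¹ ∉ B`), so `B = P''.O` (`exists_place_of_valuationSubring`, `haveI := h.isFF`).  `P''` is at `(a,b)`: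
  `P''.v z < 1 ↔ z = 0 ∨ z⁻¹ ∉ B ↔ P'.v (algebraMap z) < 1`.   `P'' = P` (`existsUnique_at`).   So `P.v z ≤ 1 ↔ P'.v z ≤ 1`, and `P.v u = 1 → P'.v u = 1`.
* `t := x - a` or `y - b` according to `2b + a₁a + a₃ ≠ 0` or `= 0`: `P.v t = exp (-1) = P'.v t` (`unif_x`, `unif_y` over `k` and over `k'`; `Δ ≠ 0` over `k'`; `map_a₁` …).
* `f ≠ 0`: `P.v f = exp n`, `u := f * t ^ n` (zpow) is a `P`-unit, so a `P'`-unit: `P'.v f = exp n`.
-/

set_option autoImplicit false

namespace Claimed.Agent.R280

open WithZero WeierstrassCurve Polynomial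
open scoped Classical

/-- criterion for `M' = k' ⊗_k M` -/
theorem isPushout_of_disjoint {k k' M M' : Type*} [Field k] [Field k'] [Field M] [Field M']
    [Algebra k k'] [Algebra k M] [Algebra k' M'] [Algebra M M'] [Algebra k M'] [IsScalarTower k k' M']
    [IsScalarTower k M M']
    (hspan : ∀ z : M', ∃ (n : ℕ) (c : Fin n → k') (f : Fin n → M),
      z = ∑ i, algebraMap k' M' (c i) * algebraMap M M' (f i))
    (hdis : ∀ (n : ℕ) (c : Fin n → k'), LinearIndependent k c →
      LinearIndependent M fun i => algebraMap k' M' (c i)) :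
    Algebra.IsPushout k k' M M' := by
  refine Algebra.IsPushout.symm ⟨?_⟩
  set b := Module.Basis.ofVectorSpace k k' with hb
  have hli : LinearIndependent M fun i => algebraMap k' M' (b i) := by
    rw [linearIndependent_iff_finset_linearIndependent]
    intro s
    have h1 : LinearIndependent k (fun j : Fin s.card => b (s.equivFin.symm j)) :=
      b.linearIndependent.comp (fun j : Fin s.card => ((s.equivFin.symm j : s) : _))
        (Subtype.val_injective.comp s.equivFin.symm.injective)
    have h2 := hdis _ _ h1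
    refine (linearIndependent_equiv s.equivFin.symm).1 ?_
    exact h2
  have hsp : ⊤ ≤ Submodule.span M (Set.range fun i => algebraMap k' M' (b i)) := by
    intro z _
    obtain ⟨n, c, f, rfl⟩ := hspan z
    refine Submodule.sum_mem _ fun i _ => ?_
    rw [mul_comm, ← Algebra.smul_def]
    refine Submodule.smul_mem _ _ ?_
    rw [← b.linearCombination_repr (c i), Finsupp.linearCombination_apply, Finsupp.sum, map_sum]
    refine Submodule.sum_mem _ fun j _ => ?_
    rw [Algebra.smul_def, map_mul, ← IsScalarTower.algebraMap_apply,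
      IsScalarTower.algebraMap_apply k M M', ← Algebra.smul_def]
    exact Submodule.smul_mem _ _ (Submodule.subset_span ⟨j, rfl⟩)
  set B : Module.Basis _ M M' := Module.Basis.mk hli hsp with hB
  have h3 : IsBaseChange M ((Finsupp.linearCombination k B).comp b.repr.toLinearMap) :=
    IsBaseChange.comp_equiv b.repr (Finsupp.linearCombination k B) (IsBaseChange.of_basis k B)
  have h4 : (IsScalarTower.toAlgHom k k' M').toLinearMap
      = (Finsupp.linearCombination k B).comp b.repr.toLinearMap := by
    refine b.ext fun i => ?_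
    simp [hB]
  rw [h4]
  exact h3

section Ell6

variable {k k' M M' : Type} [Field k] [Field k'] [Field M] [Field M'] [Algebra k k'] [Algebra k M]
  [Algebra k' M'] [Algebra M M'] [Algebra k M'] [IsScalarTower k k' M'] [IsScalarTower k M M']
  {W : WeierstrassCurve k} {x y : M}

/-- common denominator for finitely many elements of `M` -/
theorem IsWFF.common_denom (h : IsWFF W M x y) {n : ℕ} (g : Fin n → M) :
    ∃ (C : k[X]) (A B : Fin n → k[X]), C ≠ 0 ∧
      ∀ i, g i * aeval x C = aeval x (A i) + aeval x (B i) * y := by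
  choose A0 B0 C0 hC0 he using fun i => h.repr (g i)
  refine ⟨∏ j, C0 j, fun i => A0 i * ∏ j ∈ Finset.univ.erase i, C0 j,
    fun i => B0 i * ∏ j ∈ Finset.univ.erase i, C0 j, Finset.prod_ne_zero_iff.2 fun j _ => hC0 j,
    fun i => ?_⟩
  rw [← Finset.mul_prod_erase Finset.univ C0 (Finset.mem_univ i), map_mul, map_mul, map_mul,
    ← mul_assoc, he i]
  ring

theorem ell6_aeval_map (x : M) (p : k[X]) :
    aeval (algebraMap M M' x) (p.map (algebraMap k k')) = algebraMap M M' (aeval x p) := by
  rw [aeval_map_algebraMap, aeval_algebraMap_apply]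

theorem ell6_aeval_sum (x : M) {n : ℕ} (c : Fin n → k') (A : Fin n → k[X]) :
    aeval (algebraMap M M' x) (∑ i, Polynomial.C (c i) * (A i).map (algebraMap k k'))
      = ∑ i, algebraMap k' M' (c i) * algebraMap M M' (aeval x (A i)) := by
  rw [map_sum]
  refine Finset.sum_congr rfl fun i _ => ?_
  rw [map_mul, aeval_C, ell6_aeval_map]

theorem ell6_coeff_zero {n : ℕ} {c : Fin n → k'} (hc : LinearIndependent k c) {A : Fin n → k[X]}
    (h0 : ∑ i, Polynomial.C (c i) * (A i).map (algebraMap k k') = 0) (i : Fin n) : A i = 0 := by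
  ext j
  have h1 := congrArg (fun p : k'[X] => p.coeff j) h0
  simp only [finsetSum_coeff, coeff_C_mul, coeff_map, coeff_zero] at h1
  have h2 : ∑ i, (A i).coeff j • c i = 0 := by
    rw [← h1]
    refine Finset.sum_congr rfl fun i _ => ?_
    rw [Algebra.smul_def, mul_comm]
  simpa using Fintype.linearIndependent_iff.1 hc (fun i => (A i).coeff j) h2 i

theorem IsWFF.linearIndependent_baseChange (h : IsWFF W M x y)
    (h' : IsWFF (W.baseChange k') M' (algebraMap M M' x) (algebraMap M M' y)) (n : ℕ)
    (c : Fin n → k') (hc : LinearIndependent k c) :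
    LinearIndependent M fun i => algebraMap k' M' (c i) := by
  rw [Fintype.linearIndependent_iff]
  intro g hg i
  obtain ⟨C, A, B, hC, he⟩ := h.common_denom g
  have key : aeval (algebraMap M M' x) (∑ i, Polynomial.C (c i) * (A i).map (algebraMap k k'))
      + aeval (algebraMap M M' x) (∑ i, Polynomial.C (c i) * (B i).map (algebraMap k k'))
        * algebraMap M M' y = 0 := by
    rw [ell6_aeval_sum, ell6_aeval_sum, Finset.sum_mul, ← Finset.sum_add_distrib]
    have : ∀ i, algebraMap k' M' (c i) * algebraMap M M' (aeval x (A i))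
        + algebraMap k' M' (c i) * algebraMap M M' (aeval x (B i)) * algebraMap M M' y
        = (g i • algebraMap k' M' (c i)) * algebraMap M M' (aeval x C) := by
      intro i
      rw [Algebra.smul_def, mul_assoc, ← mul_add, ← map_mul, ← map_add, ← he i, map_mul]
      ring
    rw [Finset.sum_congr rfl fun i _ => this i, ← Finset.sum_mul, hg, zero_mul]
  obtain ⟨hA, hB⟩ := h'.repr_unique key
  have e := he i
  rw [ell6_coeff_zero hc hA i, ell6_coeff_zero hc hB i] at e
  simp only [map_zero, zero_mul, add_zero] at e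
  have hCx : aeval x C ≠ 0 := fun h0 => hC (transcendental_iff.1 h.transc C h0)
  exact (mul_eq_zero.1 e).resolve_right hCx

/-- the compositum `M k'` inside `M'` is the `M`-span of `k'` when `k'/k` is algebraic -/
theorem ell6_adjoin_eq_span [Algebra.IsAlgebraic k k'] :
    ((IntermediateField.adjoin M (Set.range (algebraMap k' M'))).toSubalgebra : Set M')
      = (Submodule.span M (Set.range (algebraMap k' M')) : Set M') := by
  have halg : ∀ z ∈ Set.range (algebraMap k' M'), IsAlgebraic M z := by
    rintro _ ⟨c, rfl⟩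
    have h1 : IsAlgebraic k c := Algebra.IsAlgebraic.isAlgebraic c
    have h2 : IsAlgebraic k (algebraMap k' M' c) := h1.algebraMap
    exact h2.tower_top M
  rw [IntermediateField.adjoin_toSubalgebra_of_isAlgebraic halg]
  have h3 : (Submonoid.closure (Set.range (algebraMap k' M')) : Set M')
      = Set.range (algebraMap k' M') := by
    have : Set.range (algebraMap k' M')
        = ((MonoidHom.mrange (algebraMap k' M' : k' →* M') : Submonoid M') : Set M') := by
      ext z; simp
    rw [this, Submonoid.closure_eq]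
  have h4 := Algebra.adjoin_eq_span M (Set.range (algebraMap k' M'))
  rw [h3] at h4
  rw [← h4]
  rfl

theorem IsWFF.span_baseChange [Algebra.IsAlgebraic k k'] (h : IsWFF W M x y)
    (h' : IsWFF (W.baseChange k') M' (algebraMap M M' x) (algebraMap M M' y)) (z : M') :
    ∃ (n : ℕ) (c : Fin n → k') (f : Fin n → M),
      z = ∑ i, algebraMap k' M' (c i) * algebraMap M M' (f i) := by
  set L := IntermediateField.adjoin M (Set.range (algebraMap k' M')) with hL
  let L' : IntermediateField k' M' :=
    { L.toSubfield with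
      algebraMap_mem' := fun c => IntermediateField.subset_adjoin M _ ⟨c, rfl⟩ }
  have hle : IntermediateField.adjoin k' {algebraMap M M' x, algebraMap M M' y} ≤ L' := by
    rw [IntermediateField.adjoin_le_iff]
    rintro w hw
    rcases hw with rfl | rfl
    · exact L.algebraMap_mem x
    · exact L.algebraMap_mem y
  have hz : z ∈ L' := by
    apply hle
    rw [h'.gen]
    exact IntermediateField.mem_top
  have hz2 : z ∈ (L.toSubalgebra : Set M') := hz
  rw [hL, ell6_adjoin_eq_span (k := k)] at hz2
  obtain ⟨g, hg⟩ := (Finsupp.mem_span_range_iff_exists_finsupp).1 hz2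
  refine ⟨g.support.card, fun j => ((g.support.equivFin.symm j : g.support) : k'),
    fun j => g ((g.support.equivFin.symm j : g.support) : k'), ?_⟩
  rw [← hg, Finsupp.sum, ← Finset.sum_coe_sort g.support,
    ← Equiv.sum_comp g.support.equivFin.symm]
  refine Finset.sum_congr rfl fun j _ => ?_
  rw [Algebra.smul_def, mul_comm]

/-- `k'(x,y) = k(x,y) ⊗_k k'` for algebraic `k'/k` -/
theorem IsWFF.isPushout [Algebra.IsAlgebraic k k'] (h : IsWFF W M x y)
    (h' : IsWFF (W.baseChange k') M' (algebraMap M M' x) (algebraMap M M' y)) :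
    Algebra.IsPushout k k' M M' :=
  isPushout_of_disjoint (h.span_baseChange h') (h.linearIndependent_baseChange h')

theorem ell6_map_sub (z : M) (a : k) :
    algebraMap M M' (z - algebraMap k M a)
      = algebraMap M M' z - algebraMap k' M' (algebraMap k k' a) := by
  rw [map_sub, ← IsScalarTower.algebraMap_apply k M M', ← IsScalarTower.algebraMap_apply k k' M']

/-- the place at a `k`-rational point lies under the place at the same point over `k'` -/
theorem IsWFF.atPt_over [Algebra.IsAlgebraic k k'] (h : IsWFF W M x y) (hΔ : W.Δ ≠ 0)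
    (h' : IsWFF (W.baseChange k') M' (algebraMap M M' x) (algebraMap M M' y)) {a b : k}
    {P : Place k M} {P' : Place k' M'} (hP : P.IsAtXY x y a b)
    (hP' : P'.IsAtXY (algebraMap M M' x) (algebraMap M M' y) (algebraMap k k' a) (algebraMap k k' b)) :
    P'.OverE P 1 := by
  have := h.isFF
  have hΔ' : (W.baseChange k').Δ ≠ 0 := by
    rw [WeierstrassCurve.baseChange, WeierstrassCurve.map_Δ]
    simpa using hΔ
  have hk : ∀ c : k, algebraMap k M c ∈ P'.O.comap (algebraMap M M') := by
    intro c
    rw [ValuationSubring.mem_comap, ← IsScalarTower.algebraMap_apply k M M',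
      IsScalarTower.algebraMap_apply k k' M']
    exact P'.algebraMap_mem _
  have hx0 : x - algebraMap k M a ≠ 0 := by
    intro h0
    have hx : x = algebraMap k M a := sub_eq_zero.1 h0
    exact h.transc (hx ▸ isAlgebraic_algebraMap a)
  have hT : P'.O.comap (algebraMap M M') ≠ ⊤ := by
    intro hT
    have hm : (x - algebraMap k M a)⁻¹ ∈ P'.O.comap (algebraMap M M') := by
      rw [hT]; exact ValuationSubring.mem_top _
    rw [ValuationSubring.mem_comap, Valuation.mem_valuationSubring_iff, map_inv₀, map_inv₀,
      ell6_map_sub (k' := k')] at hm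
    have h1 := hP'.1
    have h0 : P'.v (algebraMap M M' x - algebraMap k' M' (algebraMap k k' a)) ≠ 0 := by
      rw [← ell6_map_sub (k' := k'), Valuation.ne_zero_iff]
      exact (map_ne_zero (algebraMap M M')).2 hx0
    have := (one_le_inv₀ (zero_lt_iff.2 h0)).2 h1.le
    have h2 : (P'.v (algebraMap M M' x - algebraMap k' M' (algebraMap k k' a)))⁻¹ = 1 :=
      le_antisymm hm this
    rw [inv_eq_one] at h2
    exact h1.ne h2
  obtain ⟨P'', hP''⟩ := exists_place_of_valuationSubring _ hk hT
  have hov : P'.Over P'' := Place.over_of_comap_eq hP''.symm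
  have hat : P''.IsAtXY x y a b := by
    constructor
    · rw [← hov.v_lt_one_iff, ell6_map_sub (k' := k')]
      exact hP'.1
    · rw [← hov.v_lt_one_iff, ell6_map_sub (k' := k')]
      exact hP'.2
  have hab := (h.at_spec hΔ hP).1
  have hPP : P'' = P := (h.existsUnique_at hΔ hab).unique hat hP
  rw [hPP] at hov
  obtain ⟨e, he, hv⟩ := hov
  have m1 := h.max_at hΔ hP
  have m2 := h'.max_at hΔ' hP'
  rw [← ell6_map_sub (k' := k'), ← ell6_map_sub (k' := k'), hv, hv] at m2
  have m3 : max (P.v (x - algebraMap k M a) ^ e) (P.v (y - algebraMap k M b) ^ e)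
      = (max (P.v (x - algebraMap k M a)) (P.v (y - algebraMap k M b))) ^ e := by
    rcases le_total (P.v (x - algebraMap k M a)) (P.v (y - algebraMap k M b)) with hle | hle
    · rw [max_eq_right hle, max_eq_right (pow_le_pow_left₀ zero_le hle e)]
    · rw [max_eq_left hle, max_eq_left (pow_le_pow_left₀ zero_le hle e)]
  rw [m3, m1, ← exp_nsmul, exp_inj] at m2
  have he1 : e = 1 := by
    simp only [nsmul_eq_mul] at m2
    omega
  subst he1
  exact ⟨he, hv⟩

end Ell6

end Claimed.Agent.R280
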