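import Claimed.Agent.R280.Ell.P3b

/-!
# Row 280, package Ell7c: the local rings `O_P` are localisations of `k[x,y]` (finite `P`) resp. `k[x/y, x³/y²]` (`P = ∞`)

PROVED (helper268): no sorry of its own.

Formulated without localisations: a subring `B ⊆ M` containing the generators and closed under inverses of `P`-units contains `O_P`.
Uses the STATEMENTS of Ell1b, Ell2a, Ell3a (`mem_coord`), FF2 (`finite_setOf_v_ne_one`), FF3 (`hasChi_chi`).  Start with `haveI := h.isFF`.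

PLAN (~650 lines)
* `mem_of_repr`: `B ∋ k, x, y` contains `aeval x A + aeval x B' * y` (`Polynomial.induction_on`, or `aeval_eq_sum_range` + `Subring.sum_mem`).
* `exists_unit_multiplier` (`P` finite, `v_P f ≤ 1`, `f ≠ 0`): `S :=` the finite places `P' ≠ P` with `v_{P'} f > 1` (finite), `E := ∑_{P' ∈ S} single P' (- ord_{P'} f)` (`≥ 0`, `E P = 0`, `E P₀ = 0`), `D_N := single P₀ N - E`.
  `hasChi_chi`: for `N` large `ell D_N = deg D_N + χ` and `ell (D_N - single P 1) = deg D_N - deg P + χ < ell D_N` (`Place.deg_pos`).  `LSp (D_N - single P 1) ≤ LSp D_N`; strict by finrank (`finite_LSp`,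
  `Submodule.finrank_lt_finrank_of_lt`/`Submodule.eq_of_le_of_finrank_eq`): `hh ∈ LSp D_N \ LSp (D_N - single P 1)`.  The two conditions differ only at `P`: `v_P hh ≤ 1`, `¬ v_P hh ≤ exp (-1)`: `v_P hh = 1`
  (`WithZero` : `γ ≤ 1 ∧ ¬ γ ≤ exp (-1) → γ = 1`; `lt_exp_iff`/`exp_lt_exp`, `Int` discreteness via `log`).   `hh` and `f * hh` have no finite poles.
* `le_of_subring_fin`: `f = 0` trivial.  `mem_coord` for `hh` and `f * hh`; `mem_of_repr`; `f = (f * hh) * hh⁻¹`.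
* `le_of_subring_inf`: `t := x / y`, `u := x ^ 3 / y ^ 2`, `x = u / t ^ 2`, `y = u / t ^ 3`, `v t = exp (-1)`, `v u = 1` (`inf_spec`).  `repr`: `f * C(x) = A(x) + B'(x) y`, `m := 2 natDegree C`, `v (C(x)) = exp m`;
  `v (A(x) + B'(x) y) ≤ exp m` ⟹ (`v_repr_inf`, `v_aeval_inf`, `v_mul_y_inf`) `2 natDegree A ≤ m`, `B' = 0 ∨ 2 natDegree B' + 3 ≤ m`.
  `A(x) t^m = ∑ aᵢ uⁱ t^(m-2i) ∈ B`, `B'(x) y t^m = ∑ bᵢ u^(i+1) t^(m-2i-3) ∈ B`, `C(x) t^m ∈ B` has valuation `1`;  `f = (A(x) t^m + B'(x) y t^m) * (C(x) t^m)⁻¹`.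
-/

set_option autoImplicit false

namespace Claimed.Agent.R280

open WithZero WeierstrassCurve Polynomial
open scoped Classical

section Ell7c

variable {k M : Type} [Field k] [Field M] [Algebra k M] {W : WeierstrassCurve k} {x y : M}

theorem ell7c_aeval_mem (B : Subring M) (hk : ∀ c : k, algebraMap k M c ∈ B) {z : M} (hz : z ∈ B)
    (A : k[X]) : aeval z A ∈ B := by
  rw [aeval_eq_sum_range]
  refine Subring.sum_mem _ fun i _ => ?_
  rw [Algebra.smul_def]
  exact mul_mem (hk _) (pow_mem hz i)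

/-- a function with prescribed zeros which is a unit at `P` -/
theorem IsWFF.ell7c_exists_unit (h : IsWFF W M x y) {P : Place k M}
    (hP : ¬ P.IsInf x) {f : M} (hf0 : f ≠ 0) (hf : P.v f ≤ 1) :
    ∃ g : M, P.v g = 1 ∧ (∀ Q : Place k M, ¬ Q.IsInf x → Q.v g ≤ 1) ∧
      ∀ Q : Place k M, ¬ Q.IsInf x → Q.v (f * g) ≤ 1 := by
  have := h.isFF
  obtain ⟨P₀, hP₀, hP₀u⟩ := h.existsUnique_inf
  have hdeg₀ : P₀.deg = 1 := (h.inf_spec hP₀).2.2
  obtain ⟨c, hc⟩ := hasChi_chi (k := k) (M := M)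
  have hPP₀ : P ≠ P₀ := fun e => hP (e ▸ hP₀)
  -- the divisor
  obtain ⟨N, hN⟩ : ∃ N : ℤ, N = c + P.deg + (poleDiv k f).deg := ⟨_, rfl⟩
  obtain ⟨D, hD⟩ : ∃ D : Dvsr k M, D = Finsupp.single P₀ N - poleDiv k f := ⟨_, rfl⟩
  have hDdeg : D.deg = c + P.deg := by
    rw [hD, Dvsr.deg_sub, Dvsr.deg_single, hdeg₀, hN]
    push_cast
    ring
  have hDfin : ∀ Q : Place k M, ¬ Q.IsInf x → D Q = -max (-(Q.ord f)) 0 := by
    intro Q hQ
    have hne : P₀ ≠ Q := fun e => hQ (e ▸ hP₀)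
    rw [hD, Finsupp.sub_apply, Finsupp.single_eq_of_ne' hne, poleDiv_apply, zero_sub]
  have hDP : D P = 0 := by
    rw [hDfin P hP]
    have := (P.v_le_one_iff hf0).1 hf
    rw [max_eq_right (by omega), neg_zero]
  have h1 := hc D (by rw [hDdeg]; have := P.deg_pos; omega)
  have h2 := hc (D - Finsupp.single P 1) (by
    rw [Dvsr.deg_sub, Dvsr.deg_single, hDdeg]
    omega)
  rw [Dvsr.deg_sub, Dvsr.deg_single] at h2
  have hlt : ell (D - Finsupp.single P 1) < ell D := by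
    have := P.deg_pos
    omega
  have hle : D - Finsupp.single P 1 ≤ D := by
    intro Q
    rw [Finsupp.sub_apply]
    have : 0 ≤ (Finsupp.single P (1 : ℤ)) Q := by
      by_cases e : P = Q
      · subst e
        simp
      · rw [Finsupp.single_eq_of_ne' e]
    omega
  obtain ⟨g, hg, hg'⟩ : ∃ g, g ∈ LSp D ∧ g ∉ LSp (D - Finsupp.single P 1) := by
    by_contra hcon
    push Not at hcon
    have e : LSp D = LSp (D - Finsupp.single P 1) := le_antisymm hcon (LSp_mono hle)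
    unfold ell at hlt
    rw [e] at hlt
    exact lt_irrefl _ hlt
  refine ⟨g, ?_, fun Q hQ => ?_, fun Q hQ => ?_⟩
  · rw [mem_LSp] at hg'
    push Not at hg'
    obtain ⟨Q, hQ⟩ := hg'
    have hQP : P = Q := by
      by_contra hne
      rw [Finsupp.sub_apply, Finsupp.single_eq_of_ne' hne, sub_zero] at hQ
      exact absurd (hg Q) (not_le.2 hQ)
    subst hQP
    rw [Finsupp.sub_apply, Finsupp.single_eq_same, hDP, zero_sub] at hQ
    have h3 := hg P
    rw [hDP, exp_zero] at h3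
    rcases h3.lt_or_eq with h4 | h4
    · exact absurd (P.ell2b_le_exp_neg_one h4) (not_le.2 hQ)
    · exact h4
  · refine (hg Q).trans ?_
    rw [hDfin Q hQ, ← exp_zero, exp_le_exp]
    have := le_max_right (-(Q.ord f)) 0
    omega
  · rw [map_mul, Q.v_eq_exp_neg_ord hf0]
    refine (mul_le_mul_right (hg Q) _).trans ?_
    rw [hDfin Q hQ, ← exp_add, ← exp_zero, exp_le_exp]
    have := le_max_left (-(Q.ord f)) 0
    omega

/-- a denominator which is a unit at `P` -/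
theorem IsWFF.exists_unit_multiplier (h : IsWFF W M x y) (hΔ : W.Δ ≠ 0) {P : Place k M}
    (hP : ¬ P.IsInf x) {f : M} (hf : P.v f ≤ 1) :
    ∃ A B A' B' : k[X], P.v (aeval x A' + aeval x B' * y) = 1 ∧
      f * (aeval x A' + aeval x B' * y) = aeval x A + aeval x B * y := by
  by_cases hf0 : f = 0
  · refine ⟨0, 0, 1, 0, ?_, ?_⟩
    · simp
    · simp [hf0]
  · obtain ⟨g, hg1, hg2, hg3⟩ := h.ell7c_exists_unit hP hf0 hf
    obtain ⟨A', B', hAB'⟩ := h.mem_coord hΔ g hg2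
    obtain ⟨A, B, hAB⟩ := h.mem_coord hΔ (f * g) hg3
    exact ⟨A, B, A', B', hAB' ▸ hg1, by rw [← hAB', hAB]⟩

theorem IsWFF.le_of_subring_fin (h : IsWFF W M x y) (hΔ : W.Δ ≠ 0) {P : Place k M}
    (hP : ¬ P.IsInf x) (B : Subring M) (hk : ∀ c : k, algebraMap k M c ∈ B) (hx : x ∈ B)
    (hy : y ∈ B) (hinv : ∀ b ∈ B, P.v b = 1 → b⁻¹ ∈ B) {f : M} (hf : P.v f ≤ 1) : f ∈ B := by
  obtain ⟨A, B₁, A', B', hv, he⟩ := h.exists_unit_multiplier hΔ hP hf
  have hm : ∀ A₂ B₂ : k[X], aeval x A₂ + aeval x B₂ * y ∈ B := fun A₂ B₂ =>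
    add_mem (ell7c_aeval_mem B hk hx A₂) (mul_mem (ell7c_aeval_mem B hk hx B₂) hy)
  have h0 : aeval x A' + aeval x B' * y ≠ 0 := by
    intro h0
    rw [h0, map_zero] at hv
    exact zero_ne_one hv
  have e : f = (aeval x A + aeval x B₁ * y) * (aeval x A' + aeval x B' * y)⁻¹ := by
    rw [← he, mul_assoc, mul_inv_cancel₀ h0, mul_one]
  rw [e]
  exact mul_mem (hm A B₁) (hinv _ (hm A' B') hv)

theorem ell7c_mono_mem (B : Subring M) {t u : M} (ht : t ∈ B) (hu : u ∈ B) (hxt : x * t ^ 2 = u)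
    {i m : ℕ} (him : 2 * i ≤ m) : x ^ i * t ^ m ∈ B := by
  have e : x ^ i * t ^ m = u ^ i * t ^ (m - 2 * i) := by
    rw [← hxt, mul_pow, ← pow_mul, mul_assoc, ← pow_add]
    congr 2
    omega
  rw [e]
  exact mul_mem (pow_mem hu i) (pow_mem ht _)

theorem ell7c_poly_mem (B : Subring M) (hk : ∀ c : k, algebraMap k M c ∈ B) {t u : M} (ht : t ∈ B)
    (hu : u ∈ B) (hxt : x * t ^ 2 = u) (A : k[X]) {m : ℕ} (hm : 2 * A.natDegree ≤ m) :
    aeval x A * t ^ m ∈ B := by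
  rw [aeval_eq_sum_range, Finset.sum_mul]
  refine Subring.sum_mem _ fun i hi => ?_
  rw [Algebra.smul_def, mul_assoc]
  have : i ≤ A.natDegree := Nat.lt_succ_iff.1 (Finset.mem_range.1 hi)
  exact mul_mem (hk _) (ell7c_mono_mem B ht hu hxt (by omega))

theorem IsWFF.le_of_subring_inf (h : IsWFF W M x y) {P : Place k M} (hP : P.IsInf x)
    (B : Subring M) (hk : ∀ c : k, algebraMap k M c ∈ B) (ht : x / y ∈ B) (hu : x ^ 3 / y ^ 2 ∈ B)
    (hinv : ∀ b ∈ B, P.v b = 1 → b⁻¹ ∈ B) {f : M} (hf : P.v f ≤ 1) : f ∈ B := by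
  obtain ⟨hvx, hvy, -⟩ := h.inf_spec hP
  have hy0 : y ≠ 0 := by
    intro h0
    rw [h0, map_zero] at hvy
    exact exp_ne_zero hvy.symm
  have hx0 : x ≠ 0 := by
    intro h0
    rw [h0, map_zero] at hvx
    exact exp_ne_zero hvx.symm
  have hxt : x * (x / y) ^ 2 = x ^ 3 / y ^ 2 := by
    field_simp
  have hyt : y * (x / y) ^ 3 = x ^ 3 / y ^ 2 := by
    field_simp
  have hvt : P.v (x / y) = exp (-1) := by
    rw [map_div₀, hvx, hvy, ← exp_sub]
    norm_num
  obtain ⟨A, B', D, hD, he⟩ := h.repr f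
  obtain ⟨m, hm⟩ : ∃ m : ℕ, m = 2 * D.natDegree := ⟨_, rfl⟩
  have hvD : P.v (aeval x D) = exp (m : ℤ) := by
    rw [h.v_aeval_inf hP hD, hm]
    push_cast
    rfl
  have hle : max (P.v (aeval x A)) (P.v (aeval x B' * y)) ≤ exp (m : ℤ) := by
    rw [← h.v_repr_inf hP, ← he, map_mul, hvD]
    exact mul_le_of_le_one_left' hf
  have hA : 2 * A.natDegree ≤ m := by
    by_cases hA0 : A = 0
    · simp [hA0]
    · have := (le_max_left _ _).trans hle
      rw [h.v_aeval_inf hP hA0, exp_le_exp] at this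
      exact_mod_cast this
  have hAm : aeval x A * (x / y) ^ m ∈ B := ell7c_poly_mem B hk ht hu hxt A hA
  have hDm : aeval x D * (x / y) ^ m ∈ B := ell7c_poly_mem B hk ht hu hxt D hm.ge
  have hBm : aeval x B' * y * (x / y) ^ m ∈ B := by
    by_cases hB0 : B' = 0
    · simp [hB0]
    · have h3 := (le_max_right _ _).trans hle
      rw [h.v_mul_y_inf hP hB0, exp_le_exp] at h3
      have h4 : 2 * B'.natDegree + 3 ≤ m := by exact_mod_cast h3
      have e : aeval x B' * y * (x / y) ^ m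
          = aeval x B' * (x / y) ^ (m - 3) * (x ^ 3 / y ^ 2) := by
        rw [← hyt]
        have : (x / y) ^ m = (x / y) ^ (m - 3) * (x / y) ^ 3 := by
          rw [← pow_add]
          congr 1
          omega
        rw [this]
        ring
      rw [e]
      exact mul_mem (ell7c_poly_mem B hk ht hu hxt B' (by omega)) hu
  have hvDm : P.v (aeval x D * (x / y) ^ m) = 1 := by
    rw [map_mul, map_pow, hvD, hvt, ← exp_nsmul, ← exp_add]
    simp
  have hD0 : aeval x D * (x / y) ^ m ≠ 0 := by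
    intro h0
    rw [h0, map_zero] at hvDm
    exact zero_ne_one hvDm
  have e : f = (aeval x A * (x / y) ^ m + aeval x B' * y * (x / y) ^ m)
      * (aeval x D * (x / y) ^ m)⁻¹ := by
    rw [← add_mul, ← he, mul_assoc f, mul_assoc, mul_inv_cancel₀ hD0, mul_one]
  rw [e]
  exact mul_mem (add_mem hAm hBm) (hinv _ hDm hvDm)

end Ell7c

end Claimed.Agent.R280
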