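import Claimed.Agent.R280.Ell.P8a

/-!
# Row 280, package Ell9a: the pull-back of the invariant differential along a point `(a,b) ∈ W(N)` is regular

ROUTE OF Ell9 (no Hurwitz, no Lüroth, no genus; works for every field `k`, all characteristics).   `N ⊇ k` a field with a `k`-derivation `∂`, `(a,b) ∈ W(N)`, `Δ ≠ 0`.
`Fy := 2b + a₁a + a₃`, `Gx := 3a² + 2a₂a + a₄ - a₁b` (`= -F_x`).   Differentiating the equation: `Fy ∂b = Gx ∂a`; `(Fy, Gx) ≠ (0,0)` (nonsingular).   So there is a unique `hh ∈ N` with `∂a = hh Fy`, `∂b = hh Gx`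
(`hh du` is the pull-back of `dx / (2y + a₁x + a₃)`).   If `O ⊇ k` is a valuation ring of `N` and `c ∂ O ⊆ O`, then `c hh ∈ O`.
For `N = k(u)`: `hh ∈ k[u]` (all finite places, `c = 1`) and `u² hh ∈ O_∞` (`c = u²`): `hh = 0` (Ell9b).  Then `∂a = ∂b = 0` and Frobenius descent (Ell9c).

Uses the STATEMENTS of Ell8a (with `A = O`, `F = IsLocalRing.ResidueField O`, `r = IsLocalRing.residue O`, `Wt = W.baseChange N`, `W0 = W.map (r ∘ (k → O))`).   `v := O.valuation`.

PLAN (~500 lines)
* `exists_invariant_ratio`: apply `∂` to `Affine.equation_iff` (`∂ (algebraMap c) = 0`: `Derivation.map_algebraMap`): `Fy * ∂ b = Gx * ∂ a`.  Nonsingular over `N` (`Δ ≠ 0`, `Affine.nonsingular_iff'`): `Fy ≠ 0` ⟹ `hh := ∂ a / Fy`;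
  `Fy = 0` ⟹ `Gx ≠ 0`, `∂ a = 0`, `hh := ∂ b / Gx`.
* `unit_partial_of_mem`: `a ∈ O` ⟹ `b ∈ O` (`RedCurveA.mem_of_equation`); the residues satisfy the equation of the reduced (constant) curve (`RedCurveA.equation`), which has `Δ ≠ 0`; nonsingular ⟹ residue of `Fy` or of `Gx` is `≠ 0`
  ⟹ `v Fy = 1` or `v Gx = 1` (`resA_eq_zero_iff`).
* `invariant_ratio_mem`:
  - `a ∈ O`: `v Fy = 1`: `c hh = c ∂a / Fy ∈ O`.   `v Gx = 1`: `c hh = c ∂b / Gx ∈ O`.
  - `a ∉ O`: `v b ^ 2 = v a ^ 3` (as in Ell2a `inf_rel`), `t := a / b ∈ O`;  `∂ t = (∂a b - a ∂b) / b² = hh (Fy b - a Gx) / b²`, `Fy b - a Gx = - a³ + a₄ a + 2 a₆ - a₃ b` (equation), of valuation `v a ^ 3 = v b ^ 2`: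
    `w := (Fy b - a Gx) / b²` is a unit of `O`, `c hh = c ∂t / w ∈ O`.
-/

set_option autoImplicit false

namespace Claimed.Agent.R280

open WithZero WeierstrassCurve Polynomial
open scoped Classical

section Ell9a

variable {k N : Type} [Field k] [Field N] [Algebra k N]

theorem ell9a_der_rel (W : WeierstrassCurve k) (d : Derivation k N N)
    {a b : N} (hab : (W.baseChange N).toAffine.Equation a b) :
    (2 * b + algebraMap k N W.a₁ * a + algebraMap k N W.a₃) * d b =
      (3 * a ^ 2 + 2 * algebraMap k N W.a₂ * a + algebraMap k N W.a₄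
        - algebraMap k N W.a₁ * b) * d a := by
  rw [Affine.equation_iff] at hab
  have h := congrArg d hab
  simp only [WeierstrassCurve.baseChange, WeierstrassCurve.map_a₁, WeierstrassCurve.map_a₂,
    WeierstrassCurve.map_a₃, WeierstrassCurve.map_a₄, WeierstrassCurve.map_a₆, map_add,
    Derivation.leibniz, Derivation.leibniz_pow, Derivation.map_algebraMap, smul_eq_mul,
    add_zero, mul_zero] at h
  simp only [nsmul_eq_mul] at h
  push_cast at h
  linear_combination h

theorem exists_invariant_ratio (W : WeierstrassCurve k) (hΔ : W.Δ ≠ 0) (d : Derivation k N N)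
    {a b : N} (hab : (W.baseChange N).toAffine.Equation a b) :
    ∃ hh : N, d a = hh * (2 * b + algebraMap k N W.a₁ * a + algebraMap k N W.a₃) ∧
      d b = hh * (3 * a ^ 2 + 2 * algebraMap k N W.a₂ * a + algebraMap k N W.a₄
        - algebraMap k N W.a₁ * b) := by
  have hrel := ell9a_der_rel W d hab
  have hΔ' : (W.baseChange N).Δ ≠ 0 := by
    rw [WeierstrassCurve.baseChange, WeierstrassCurve.map_Δ]
    exact (_root_.map_ne_zero _).mpr hΔ
  have hns : (W.baseChange N).toAffine.Nonsingular a b :=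
    (Affine.equation_iff_nonsingular_of_Δ_ne_zero hΔ').mp hab
  rw [Affine.nonsingular_iff'] at hns
  obtain ⟨-, hns⟩ := hns
  simp only [WeierstrassCurve.baseChange, WeierstrassCurve.map_a₁, WeierstrassCurve.map_a₂,
    WeierstrassCurve.map_a₃, WeierstrassCurve.map_a₄] at hns
  by_cases hF : 2 * b + algebraMap k N W.a₁ * a + algebraMap k N W.a₃ = 0
  · have hG : 3 * a ^ 2 + 2 * algebraMap k N W.a₂ * a + algebraMap k N W.a₄
        - algebraMap k N W.a₁ * b ≠ 0 := by
      rcases hns with h | h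
      · intro h0; apply h; linear_combination -h0
      · exact absurd hF h
    refine ⟨d b / (3 * a ^ 2 + 2 * algebraMap k N W.a₂ * a + algebraMap k N W.a₄
        - algebraMap k N W.a₁ * b), ?_, ?_⟩
    · rw [hF, mul_zero]
      rw [hF, zero_mul] at hrel
      rcases mul_eq_zero.mp hrel.symm with h | h
      · exact absurd h hG
      · exact h
    · rw [div_mul_cancel₀ _ hG]
  · refine ⟨d a / (2 * b + algebraMap k N W.a₁ * a + algebraMap k N W.a₃), ?_, ?_⟩
    · rw [div_mul_cancel₀ _ hF]
    · field_simp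
      linear_combination hrel

theorem unit_partial_of_mem (W : WeierstrassCurve k) (hΔ : W.Δ ≠ 0) {a b : N}
    (hab : (W.baseChange N).toAffine.Equation a b) (O : ValuationSubring N)
    (hk : ∀ c : k, algebraMap k N c ∈ O) (ha : a ∈ O) :
    b ∈ O ∧ (O.valuation (2 * b + algebraMap k N W.a₁ * a + algebraMap k N W.a₃) = 1 ∨
      O.valuation (3 * a ^ 2 + 2 * algebraMap k N W.a₂ * a + algebraMap k N W.a₄
        - algebraMap k N W.a₁ * b) = 1) := by
  set r : O →+* IsLocalRing.ResidueField O := IsLocalRing.residue O with hrdef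
  have hr : ∀ x : O, r x = 0 ↔ x ∈ IsLocalRing.maximalIdeal O := fun x =>
    IsLocalRing.residue_eq_zero_iff x
  let φ : k →+* O := (algebraMap k N).codRestrict O.toSubring hk
  set W0 : WeierstrassCurve (IsLocalRing.ResidueField O) := W.map (r.comp φ) with hW0
  have hres : ∀ c : k, resA O r (algebraMap k N c) = (r.comp φ) c := fun c => by
    rw [resA_of_mem O r (hk c)]; rfl
  have hW : RedCurveA O r (W.baseChange N) W0 :=
    ⟨⟨hk _, hres _⟩, ⟨hk _, hres _⟩, ⟨hk _, hres _⟩, ⟨hk _, hres _⟩, ⟨hk _, hres _⟩⟩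
  have hb : b ∈ O := hW.mem_of_equation hab ha
  refine ⟨hb, ?_⟩
  have heq := hW.equation hab ha hb
  have hΔ0 : W0.Δ ≠ 0 := by
    rw [hW0, WeierstrassCurve.map_Δ]
    exact (_root_.map_ne_zero _).mpr hΔ
  have hns := (Affine.equation_iff_nonsingular_of_Δ_ne_zero hΔ0).mp heq
  rw [Affine.nonsingular_iff'] at hns
  obtain ⟨-, hns⟩ := hns
  have m2 : (2 : N) ∈ O := by exact_mod_cast natCast_mem O 2
  have m3 : (3 : N) ∈ O := by exact_mod_cast natCast_mem O 3
  have r2 : resA O r (2 : N) = 2 := by exact_mod_cast resA_natCast O r 2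
  have r3 : resA O r (3 : N) = 3 := by exact_mod_cast resA_natCast O r 3
  have one_of : ∀ z : N, z ∈ O → resA O r z ≠ 0 → O.valuation z = 1 := fun z hz h0 => by
    have h1 : ¬ O.valuation z < 1 := fun h => h0 ((resA_eq_zero_iff hr hz).mpr h)
    exact le_antisymm ((O.valuation_le_one_iff z).mpr hz) (not_lt.mp h1)
  rcases hns with h | h
  · right
    have n1 := O.mul_mem _ _ m3 (pow_mem ha 2)
    have n2 := O.mul_mem _ _ (O.mul_mem _ _ m2 (hk W.a₂)) ha
    have n3 := O.add_mem _ _ n1 n2
    have n4 := O.add_mem _ _ n3 (hk W.a₄)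
    have n5 := O.mul_mem _ _ (hk W.a₁) hb
    apply one_of _ (O.sub_mem n4 n5)
    rw [resA_sub O r n4 n5, resA_add O r n3 (hk W.a₄), resA_add O r n1 n2,
      resA_mul O r m3 (pow_mem ha 2), resA_pow O r ha,
      resA_mul O r (O.mul_mem _ _ m2 (hk W.a₂)) ha, resA_mul O r m2 (hk W.a₂),
      resA_mul O r (hk W.a₁) hb, r2, r3, hres, hres, hres]
    intro h0
    apply h
    simp only [hW0, WeierstrassCurve.map_a₁, WeierstrassCurve.map_a₂, WeierstrassCurve.map_a₄]
    linear_combination -h0
  · left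
    have n1 := O.mul_mem _ _ m2 hb
    have n2 := O.mul_mem _ _ (hk W.a₁) ha
    have n3 := O.add_mem _ _ n1 n2
    apply one_of _ (O.add_mem _ _ n3 (hk W.a₃))
    rw [resA_add O r n3 (hk W.a₃), resA_add O r n1 n2, resA_mul O r m2 hb,
      resA_mul O r (hk W.a₁) ha, r2, hres, hres]
    intro h0
    apply h
    simp only [hW0, WeierstrassCurve.map_a₁, WeierstrassCurve.map_a₃]
    linear_combination h0

/-- a point with a pole: `v b > v a > 1` and `v b ^ 2 = v a ^ 3` -/
theorem ell9a_pole_rel (W : WeierstrassCurve k) {a b : N}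
    (hab : (W.baseChange N).toAffine.Equation a b) (O : ValuationSubring N)
    (hk : ∀ c : k, algebraMap k N c ∈ O) (ha : a ∉ O) :
    1 < O.valuation a ∧ O.valuation a < O.valuation b ∧
      O.valuation b ^ 2 = O.valuation a ^ 3 := by
  have hva : 1 < O.valuation a := by
    rw [← not_le, O.valuation_le_one_iff]; exact ha
  have hc : ∀ c : k, O.valuation (algebraMap k N c) ≤ 1 := fun c =>
    (O.valuation_le_one_iff _).mpr (hk c)
  rw [Affine.equation_iff] at hab
  simp only [WeierstrassCurve.baseChange, WeierstrassCurve.map_a₁, WeierstrassCurve.map_a₂,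
    WeierstrassCurve.map_a₃, WeierstrassCurve.map_a₄, WeierstrassCurve.map_a₆] at hab
  have h0 : (0 : O.ValueGroup) < O.valuation a := lt_trans zero_lt_one hva
  have h13 : 1 < O.valuation a ^ 3 := one_lt_pow₀ hva (by norm_num)
  have h1_3 : O.valuation a < O.valuation a ^ 3 := lt_self_pow₀ hva (by norm_num)
  have h2_3 : O.valuation a ^ 2 < O.valuation a ^ 3 := pow_lt_pow_right₀ hva (by norm_num)
  -- the right hand side
  have hR : O.valuation (a ^ 3 + algebraMap k N W.a₂ * a ^ 2 + algebraMap k N W.a₄ * a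
      + algebraMap k N W.a₆) = O.valuation a ^ 3 := by
    have e : a ^ 3 + algebraMap k N W.a₂ * a ^ 2 + algebraMap k N W.a₄ * a
      + algebraMap k N W.a₆ = a ^ 3 + (algebraMap k N W.a₂ * a ^ 2 + (algebraMap k N W.a₄ * a
      + algebraMap k N W.a₆)) := by ring
    rw [e, Valuation.map_add_eq_of_lt_left, map_pow]
    rw [map_pow]
    apply Valuation.map_add_lt
    · rw [map_mul, map_pow]
      exact lt_of_le_of_lt (mul_le_of_le_one_left' (hc _)) h2_3
    · apply Valuation.map_add_lt
      · rw [map_mul]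
        exact lt_of_le_of_lt (mul_le_of_le_one_left' (hc _)) h1_3
      · exact lt_of_le_of_lt (hc _) h13
  have hL : O.valuation (b * (b + (algebraMap k N W.a₁ * a + algebraMap k N W.a₃)))
      = O.valuation a ^ 3 := by
    rw [← hR]; congr 1; linear_combination hab
  have hlin : O.valuation (algebraMap k N W.a₁ * a + algebraMap k N W.a₃) ≤ O.valuation a := by
    apply Valuation.map_add_le
    · rw [map_mul]; exact mul_le_of_le_one_left' (hc _)
    · exact le_trans (hc _) hva.le
  have hlt : O.valuation a < O.valuation b := by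
    by_contra hle
    rw [not_lt] at hle
    have h1 : O.valuation (b + (algebraMap k N W.a₁ * a + algebraMap k N W.a₃))
        ≤ O.valuation a := Valuation.map_add_le _ hle hlin
    have h2 : O.valuation (b * (b + (algebraMap k N W.a₁ * a + algebraMap k N W.a₃)))
        ≤ O.valuation a ^ 2 := by
      rw [map_mul, pow_two]; exact mul_le_mul' hle h1
    rw [hL] at h2
    exact absurd h2 (not_le.mpr h2_3)
  refine ⟨hva, hlt, ?_⟩
  rw [← hL, map_mul, Valuation.map_add_eq_of_lt_left _ (lt_of_le_of_lt hlin hlt), pow_two]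

theorem invariant_ratio_mem (W : WeierstrassCurve k) (hΔ : W.Δ ≠ 0) (d : Derivation k N N)
    {a b hh : N} (hab : (W.baseChange N).toAffine.Equation a b)
    (h1 : d a = hh * (2 * b + algebraMap k N W.a₁ * a + algebraMap k N W.a₃))
    (h2 : d b = hh * (3 * a ^ 2 + 2 * algebraMap k N W.a₂ * a + algebraMap k N W.a₄
        - algebraMap k N W.a₁ * b))
    (O : ValuationSubring N) (hk : ∀ c : k, algebraMap k N c ∈ O) (c : N)
    (hd : ∀ f ∈ O, c * d f ∈ O) : c * hh ∈ O := by
  have key : ∀ z w : N, z ∈ O → O.valuation w = 1 → d z = hh * w → c * hh ∈ O := by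
    intro z w hz hw hzw
    have hw0 : w ≠ 0 := by
      rintro rfl
      simp at hw
    have hwi : w⁻¹ ∈ O := by
      rw [← O.valuation_le_one_iff, map_inv₀, hw, inv_one]
    have : c * hh = (c * d z) * w⁻¹ := by
      rw [hzw]; field_simp
    rw [this]
    exact O.mul_mem _ _ (hd z hz) hwi
  by_cases ha : a ∈ O
  · obtain ⟨hb, hF | hG⟩ := unit_partial_of_mem W hΔ hab O hk ha
    · exact key a _ ha hF h1
    · exact key b _ hb hG h2
  · obtain ⟨hva, hlt, hrel⟩ := ell9a_pole_rel W hab O hk ha
    have hc : ∀ c : k, O.valuation (algebraMap k N c) ≤ 1 := fun c =>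
      (O.valuation_le_one_iff _).mpr (hk c)
    have hvb : 1 < O.valuation b := lt_trans hva hlt
    have hb0 : b ≠ 0 := by
      rintro rfl
      simp at hvb
    have ht : a / b ∈ O := by
      rw [← O.valuation_le_one_iff, map_div₀]
      exact (div_le_one₀ (lt_trans zero_lt_one hvb)).mpr hlt.le
    rw [Affine.equation_iff] at hab
    simp only [WeierstrassCurve.baseChange, WeierstrassCurve.map_a₁, WeierstrassCurve.map_a₂,
      WeierstrassCurve.map_a₃, WeierstrassCurve.map_a₄, WeierstrassCurve.map_a₆] at hab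
    have m2 : O.valuation (2 : N) ≤ 1 := by
      rw [O.valuation_le_one_iff]; exact_mod_cast natCast_mem O 2
    refine key (a / b) ((-a ^ 3 + (algebraMap k N W.a₄ * a + (2 * algebraMap k N W.a₆
      + -(algebraMap k N W.a₃ * b)))) / b ^ 2) ht ?_ ?_
    · rw [map_div₀, map_pow, Valuation.map_add_eq_of_lt_left, Valuation.map_neg, map_pow, hrel]
      · exact div_self (pow_ne_zero _ (lt_trans zero_lt_one hva).ne')
      · rw [Valuation.map_neg, map_pow]
        apply Valuation.map_add_lt
        · rw [map_mul]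
          exact lt_of_le_of_lt (mul_le_of_le_one_left' (hc _)) (lt_self_pow₀ hva (by norm_num))
        · apply Valuation.map_add_lt
          · rw [map_mul]
            exact lt_of_le_of_lt (mul_le_one' m2 (hc _)) (one_lt_pow₀ hva (by norm_num))
          · rw [Valuation.map_neg, map_mul, ← hrel]
            exact lt_of_le_of_lt (mul_le_of_le_one_left' (hc _)) (lt_self_pow₀ hvb (by norm_num))
    · rw [Derivation.leibniz_div, h1, h2]
      simp only [smul_eq_mul]
      field_simp
      linear_combination (2 * hh) * hab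

end Ell9a

end Claimed.Agent.R280
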