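import Claimed.Agent.R280.Ell.P7a
import Claimed.Agent.R280.Ell.P7c
import Claimed.Agent.R280.Ell.P9a

/-!
# Row 280, package Ell7d: local behaviour of derivations at the places of `M`

Uses the STATEMENTS of Ell1b, Ell2a, Ell7a, Ell7c.

PLAN (~700 lines)
* `polyY_ne_zero`: if `2y + a₁x + a₃ = 0` then `repr_unique` with `A = C a₁ * X + C a₃`, `B = C 2` gives `2 = 0`, `a₁ = 0`, `a₃ = 0` in `k`; then `Δ = 0` (unfold `WeierstrassCurve.Δ, b₂, b₄, b₆, b₈`;
  `b₂ = a₁² + 4a₂ = 0`, `b₄ = 2a₄ + a₁a₃ = 0`, `b₆ = a₃² + 4a₆ = 0` using `(4 : k) = 2 * 2 = 0`).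
* `unit_partial_fin`: `F := P.Res`, `x̄, ȳ` the residues of `x, y ∈ P.O` (`le_one_of_not_inf`).  `(x̄, ȳ)` satisfies the equation of `W.baseChange F` (apply `IsLocalRing.residue` to the equation in `P.O`;
  `algebraMap k F c = residue ⟨algebraMap k M c, _⟩` by `rfl`/`IsScalarTower`), `Δ ≠ 0` in `F`, hence nonsingular (`Affine.nonsingular_iff'`): one of the two partial derivatives is `≠ 0` in `F`, i.e. the corresponding
  element of `P.O` is a unit, i.e. has valuation `1`.   (Alternative: use Ell8a with `A = P.O`, `r = residue`: `RedCurveA.equation`.)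
* `der_preserves_fin/inf`: `B := {f | v f ≤ 1 ∧ v (D f) ≤ 1}` is a `Subring M` (`Derivation.leibniz`, `map_add`, `map_neg`, `Derivation.map_one_eq_zero`), `hinv`: `D b⁻¹ = - b⁻¹ ^ 2 • D b` (`Derivation.leibniz_inv`);
  `le_of_subring_fin/inf`;  (`v (x / y) = exp (-1)`, `v (x ^ 3 / y ^ 2) = 1` by `inf_spec`).
* `invDer_inf`: `D (x / y) = (D x * y - x * D y) / y ^ 2` (`Derivation.leibniz_div`).  With the equation:  `D x * y - x * D y = - x ^ 3 + a₄ x + 2 a₆ - a₃ y`, valuation `exp 6 = v (y ^ 2)` (dominant term `x ^ 3`).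
  `D (x ^ 3 / y ^ 2) = x ^ 2 * (3 y D x - 2 x D y) / y ^ 3`, `3 y D x - 2 x D y = - a₁ x y - 3 a₃ y + 2 a₂ x ^ 2 + 4 a₄ x + 6 a₆` (uses the equation), valuation `≤ exp 5`; total `≤ exp (4 + 5 - 9) = 1`.
-/

set_option autoImplicit false

namespace Claimed.Agent.R280

open WithZero WeierstrassCurve Polynomial
open scoped Classical

section Ell7d

variable {k M : Type} [Field k] [Field M] [Algebra k M] {W : WeierstrassCurve k} {x y : M}

theorem IsWFF.polyY_ne_zero (h : IsWFF W M x y) (hΔ : W.Δ ≠ 0) :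
    2 * y + algebraMap k M W.a₁ * x + algebraMap k M W.a₃ ≠ 0 := by
  intro h0
  have h1 : aeval x (C W.a₁ * X + C W.a₃ : k[X]) + aeval x (C 2 : k[X]) * y = 0 := by
    simp only [map_add, map_mul, aeval_C, aeval_X, map_ofNat]
    linear_combination h0
  obtain ⟨hA, hB⟩ := h.repr_unique h1
  have h2 : (2 : k) = 0 := by simpa using hB
  have e1 : W.a₁ = 0 := by
    have := congrArg (fun p : k[X] => p.coeff 1) hA
    simpa using this
  have e3 : W.a₃ = 0 := by
    have := congrArg (fun p : k[X] => p.coeff 0) hA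
    simpa using this
  apply hΔ
  simp only [WeierstrassCurve.Δ, WeierstrassCurve.b₂, WeierstrassCurve.b₄, WeierstrassCurve.b₆,
    WeierstrassCurve.b₈, e1, e3]
  linear_combination (-8 * W.a₂ ^ 2 * (4 * W.a₂ * W.a₆ - W.a₄ ^ 2) - 32 * W.a₄ ^ 3 - 216 * W.a₆ ^ 2
    + 144 * W.a₂ * W.a₄ * W.a₆) * h2

theorem ell7d_val_eq_one (P : Place k M) (f : M) : P.O.valuation f = 1 ↔ P.v f = 1 :=
  (Valuation.isEquiv_valuation_valuationSubring P.v).eq_one_iff_eq_one.symm

/-- smoothness at an arbitrary finite place (any degree, any residue field) -/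
theorem IsWFF.unit_partial_fin (h : IsWFF W M x y) (hΔ : W.Δ ≠ 0) {P : Place k M}
    (hP : ¬ P.IsInf x) :
    P.v (2 * y + algebraMap k M W.a₁ * x + algebraMap k M W.a₃) = 1 ∨
    P.v (3 * x ^ 2 + 2 * algebraMap k M W.a₂ * x + algebraMap k M W.a₄
      - algebraMap k M W.a₁ * y) = 1 := by
  have hx : x ∈ P.O := (Valuation.mem_valuationSubring_iff _ _).mpr (h.le_one_of_not_inf hP).1
  obtain ⟨-, h1⟩ := unit_partial_of_mem W hΔ h.equation P.O P.algebraMap_mem hx
  rwa [ell7d_val_eq_one, ell7d_val_eq_one] at h1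

/-- the subring of `O_P` of the elements whose derivative is in `O_P` -/
def ell7dSub (P : Place k M) (D : Derivation ℤ M M) : Subring M where
  carrier := {f | P.v f ≤ 1 ∧ P.v (D f) ≤ 1}
  mul_mem' := by
    rintro a b ⟨ha, ha'⟩ ⟨hb, hb'⟩
    refine ⟨by rw [map_mul]; exact mul_le_one' ha hb, ?_⟩
    rw [Derivation.leibniz, smul_eq_mul, smul_eq_mul]
    exact Valuation.map_add_le _ (by rw [map_mul]; exact mul_le_one' ha hb')
      (by rw [map_mul]; exact mul_le_one' hb ha')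
  one_mem' := ⟨by rw [map_one], by rw [Derivation.map_one_eq_zero, map_zero]; exact zero_le⟩
  add_mem' := by
    rintro a b ⟨ha, ha'⟩ ⟨hb, hb'⟩
    exact ⟨Valuation.map_add_le _ ha hb, by rw [map_add]; exact Valuation.map_add_le _ ha' hb'⟩
  zero_mem' := ⟨by rw [map_zero]; exact zero_le, by rw [map_zero, map_zero]; exact zero_le⟩
  neg_mem' := by
    rintro a ⟨ha, ha'⟩
    exact ⟨by rw [Valuation.map_neg]; exact ha, by rw [map_neg, Valuation.map_neg]; exact ha'⟩

theorem ell7dSub_inv (P : Place k M) (D : Derivation ℤ M M) :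
    ∀ b ∈ ell7dSub P D, P.v b = 1 → b⁻¹ ∈ ell7dSub P D := by
  rintro b ⟨hb, hb'⟩ h1
  refine ⟨by rw [map_inv₀, h1, inv_one], ?_⟩
  rw [Derivation.leibniz_inv, smul_eq_mul, map_mul, Valuation.map_neg, map_pow, map_inv₀, h1,
    inv_one, one_pow, one_mul]
  exact hb'

theorem IsWFF.der_preserves_fin (h : IsWFF W M x y) (hΔ : W.Δ ≠ 0) {P : Place k M}
    (hP : ¬ P.IsInf x) (D : Derivation ℤ M M) (hk : ∀ c : k, P.v (D (algebraMap k M c)) ≤ 1)
    (hx : P.v (D x) ≤ 1) (hy : P.v (D y) ≤ 1) {f : M} (hf : P.v f ≤ 1) : P.v (D f) ≤ 1 := by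
  have h1 := h.le_one_of_not_inf hP
  exact (h.le_of_subring_fin hΔ hP (ell7dSub P D)
    (fun c => ⟨(Valuation.mem_valuationSubring_iff _ _).mp (P.algebraMap_mem c), hk c⟩)
    ⟨h1.1, hx⟩ ⟨h1.2, hy⟩ (ell7dSub_inv P D) hf).2

theorem IsWFF.der_preserves_inf (h : IsWFF W M x y) {P : Place k M} (hP : P.IsInf x)
    (D : Derivation ℤ M M) (hk : ∀ c : k, P.v (D (algebraMap k M c)) ≤ 1)
    (ht : P.v (D (x / y)) ≤ 1) (hu : P.v (D (x ^ 3 / y ^ 2)) ≤ 1) {f : M} (hf : P.v f ≤ 1) :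
    P.v (D f) ≤ 1 := by
  obtain ⟨hx, hy, -⟩ := h.inf_spec hP
  have h1 : P.v (x / y) ≤ 1 := by
    rw [map_div₀, hx, hy, ← exp_sub, ← exp_zero, exp_le_exp]; norm_num
  have h2 : P.v (x ^ 3 / y ^ 2) ≤ 1 := by
    rw [map_div₀, map_pow, map_pow, ← h.inf_rel hP, div_self]
    rw [hy]; exact pow_ne_zero _ exp_ne_zero
  exact (h.le_of_subring_inf hP (ell7dSub P D)
    (fun c => ⟨(Valuation.mem_valuationSubring_iff _ _).mp (P.algebraMap_mem c), hk c⟩)
    ⟨h1, ht⟩ ⟨h2, hu⟩ (ell7dSub_inv P D) hf).2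

/-- the invariant derivation at infinity: `x / y` is a uniformiser with `D (x / y)` a unit -/
theorem IsWFF.invDer_inf (h : IsWFF W M x y) {P : Place k M} (hP : P.IsInf x)
    (D : Derivation ℤ M M) (hk : ∀ c : k, D (algebraMap k M c) = 0)
    (hx : D x = 2 * y + algebraMap k M W.a₁ * x + algebraMap k M W.a₃)
    (hy : D y = 3 * x ^ 2 + 2 * algebraMap k M W.a₂ * x + algebraMap k M W.a₄
      - algebraMap k M W.a₁ * y) :
    P.v (D (x / y)) = 1 ∧ P.v (D (x ^ 3 / y ^ 2)) ≤ 1 := by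
  obtain ⟨vx, vy, -⟩ := h.inf_spec hP
  have hc : ∀ c : k, P.v (algebraMap k M c) ≤ 1 := fun c =>
    (Valuation.mem_valuationSubring_iff _ _).mp (P.algebraMap_mem c)
  have hn : ∀ n : ℕ, P.v (n : M) ≤ 1 := fun n => by
    have := hc (n : k)
    rwa [map_natCast] at this
  have hy0 : y ≠ 0 := by
    rintro rfl
    rw [map_zero] at vy
    exact exp_ne_zero vy.symm
  have hab := h.equation
  rw [Affine.equation_iff] at hab
  simp only [WeierstrassCurve.baseChange, WeierstrassCurve.map_a₁, WeierstrassCurve.map_a₂,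
    WeierstrassCurve.map_a₃, WeierstrassCurve.map_a₄, WeierstrassCurve.map_a₆] at hab
  have le_exp : ∀ (c z : M) (n m : ℤ), P.v c ≤ 1 → P.v z = exp n → n ≤ m →
      P.v (c * z) ≤ exp m := by
    intro c z n m h1 h2 h3
    rw [map_mul, h2]
    exact le_trans (mul_le_of_le_one_left' h1) (exp_le_exp.mpr h3)
  have vx2 : P.v (x ^ 2) = exp 4 := by rw [map_pow, vx, ← exp_nsmul]; norm_num
  have vx3 : P.v (x ^ 3) = exp 6 := by rw [map_pow, vx, ← exp_nsmul]; norm_num
  have vy2 : P.v (y ^ 2) = exp 6 := by rw [map_pow, vy, ← exp_nsmul]; norm_num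
  have vy3 : P.v (y ^ 3) = exp 9 := by rw [map_pow, vy, ← exp_nsmul]; norm_num
  have vxy : P.v (x * y) = exp 5 := by rw [map_mul, vx, vy, ← exp_add]; norm_num
  have v1 : P.v (1 : M) = exp 0 := by rw [map_one, exp_zero]
  constructor
  · have e : D (x / y) = (-x ^ 3 + (algebraMap k M W.a₄ * x + ((2 : ℕ) * algebraMap k M W.a₆ * 1
      + -(algebraMap k M W.a₃ * y)))) / y ^ 2 := by
      rw [Derivation.leibniz_div, hx, hy]
      simp only [smul_eq_mul]
      field_simp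
      push_cast
      linear_combination (2 : M) * hab
    rw [e, map_div₀, vy2, Valuation.map_add_eq_of_lt_left, Valuation.map_neg, vx3]
    · exact div_self exp_ne_zero
    · rw [Valuation.map_neg, vx3]
      have h56 : (exp 5 : ℤᵐ⁰) < exp 6 := exp_lt_exp.mpr (by norm_num)
      refine lt_of_le_of_lt ?_ h56
      apply Valuation.map_add_le _ (le_exp _ _ 2 5 (hc _) vx (by norm_num))
      apply Valuation.map_add_le _
        (le_exp _ _ 0 5 (by rw [map_mul]; exact mul_le_one' (hn 2) (hc _)) v1 (by norm_num))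
      rw [Valuation.map_neg]
      exact le_exp _ _ 3 5 (hc _) vy (by norm_num)
  · have e : D (x ^ 3 / y ^ 2) = x ^ 2 * (-(algebraMap k M W.a₁ * (x * y))
        + (-((3 : ℕ) * algebraMap k M W.a₃ * y) + ((2 : ℕ) * algebraMap k M W.a₂ * x ^ 2
        + ((4 : ℕ) * algebraMap k M W.a₄ * x + (6 : ℕ) * algebraMap k M W.a₆ * 1)))) / y ^ 3 := by
      rw [Derivation.leibniz_div, Derivation.leibniz_pow, Derivation.leibniz_pow, hx, hy]
      simp only [smul_eq_mul, nsmul_eq_mul]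
      field_simp
      push_cast
      linear_combination (6 * y * x ^ 2) * hab
    have hm : ∀ (n : ℕ) (c : k), P.v ((n : M) * algebraMap k M c) ≤ 1 := fun n c => by
      rw [map_mul]; exact mul_le_one' (hn n) (hc c)
    have h5 : P.v (-(algebraMap k M W.a₁ * (x * y))
        + (-((3 : ℕ) * algebraMap k M W.a₃ * y) + ((2 : ℕ) * algebraMap k M W.a₂ * x ^ 2
        + ((4 : ℕ) * algebraMap k M W.a₄ * x + (6 : ℕ) * algebraMap k M W.a₆ * 1)))) ≤ exp 5 := by
      apply Valuation.map_add_le _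
        (by rw [Valuation.map_neg]; exact le_exp _ _ 5 5 (hc _) vxy le_rfl)
      apply Valuation.map_add_le _
        (by rw [Valuation.map_neg]; exact le_exp _ _ 3 5 (hm _ _) vy (by norm_num))
      apply Valuation.map_add_le _ (le_exp _ _ 4 5 (hm _ _) vx2 (by norm_num))
      exact Valuation.map_add_le _ (le_exp _ _ 2 5 (hm _ _) vx (by norm_num))
        (le_exp _ _ 0 5 (hm _ _) v1 (by norm_num))
    rw [e, map_div₀, map_mul, vx2, vy3, div_le_one₀ (exp_pos)]
    calc exp 4 * P.v _ ≤ exp 4 * exp 5 := mul_le_mul' le_rfl h5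
      _ = exp 9 := by rw [← exp_add]; norm_num

/-- every member of the frame preserves every `O_P`; the invariant derivation has a unit value on `O_P` -/
theorem IsWFF.invDer_preserves (h : IsWFF W M x y) (hΔ : W.Δ ≠ 0) (P : Place k M)
    (D : Derivation ℤ M M) (hk : ∀ c : k, D (algebraMap k M c) = 0)
    (hx : D x = 2 * y + algebraMap k M W.a₁ * x + algebraMap k M W.a₃)
    (hy : D y = 3 * x ^ 2 + 2 * algebraMap k M W.a₂ * x + algebraMap k M W.a₄
      - algebraMap k M W.a₁ * y) :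
    (∀ f : M, P.v f ≤ 1 → P.v (D f) ≤ 1) ∧ ∃ f : M, P.v f ≤ 1 ∧ P.v (D f) = 1 := by
  have hk' : ∀ c : k, P.v (D (algebraMap k M c)) ≤ 1 := fun c => by
    rw [hk, map_zero]; exact zero_le
  by_cases hP : P.IsInf x
  · obtain ⟨h1, h2⟩ := h.invDer_inf hP D hk hx hy
    refine ⟨fun f hf => h.der_preserves_inf hP D hk' h1.le h2 hf, x / y, ?_, h1⟩
    obtain ⟨vx, vy, -⟩ := h.inf_spec hP
    rw [map_div₀, vx, vy, ← exp_sub, ← exp_zero, exp_le_exp]; norm_num
  · obtain ⟨vx, vy⟩ := h.le_one_of_not_inf hP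
    have mx : x ∈ P.O := (Valuation.mem_valuationSubring_iff _ _).mpr vx
    have my : y ∈ P.O := (Valuation.mem_valuationSubring_iff _ _).mpr vy
    have m2 : (2 : M) ∈ P.O := by exact_mod_cast natCast_mem P.O 2
    have m3 : (3 : M) ∈ P.O := by exact_mod_cast natCast_mem P.O 3
    have hc := P.algebraMap_mem
    have h1 : P.v (D x) ≤ 1 := by
      rw [hx, ← Valuation.mem_valuationSubring_iff]
      exact P.O.add_mem _ _ (P.O.add_mem _ _ (P.O.mul_mem _ _ m2 my) (P.O.mul_mem _ _ (hc _) mx))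
        (hc _)
    have h2 : P.v (D y) ≤ 1 := by
      rw [hy, ← Valuation.mem_valuationSubring_iff]
      exact P.O.sub_mem (P.O.add_mem _ _ (P.O.add_mem _ _ (P.O.mul_mem _ _ m3 (pow_mem mx 2))
        (P.O.mul_mem _ _ (P.O.mul_mem _ _ m2 (hc _)) mx)) (hc _)) (P.O.mul_mem _ _ (hc _) my)
    refine ⟨fun f hf => h.der_preserves_fin hΔ hP D hk' h1 h2 hf, ?_⟩
    rcases h.unit_partial_fin hΔ hP with h3 | h3
    · exact ⟨x, vx, by rw [hx]; exact h3⟩
    · exact ⟨y, vy, by rw [hy]; exact h3⟩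

theorem IsWFF.extDer_preserves (h : IsWFF W M x y) (hΔ : W.Δ ≠ 0) (P : Place k M)
    (D : Derivation ℤ M M) (hk : ∀ c : k, ∃ c' : k, D (algebraMap k M c) = algebraMap k M c')
    (hx : D x = 0) (hy : D y = 0) {f : M} (hf : P.v f ≤ 1) : P.v (D f) ≤ 1 := by
  have hk' : ∀ c : k, P.v (D (algebraMap k M c)) ≤ 1 := fun c => by
    obtain ⟨c', hc'⟩ := hk c
    rw [hc']
    exact (Valuation.mem_valuationSubring_iff _ _).mp (P.algebraMap_mem c')
  have h0 : P.v (0 : M) ≤ 1 := by rw [map_zero]; exact zero_le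
  by_cases hP : P.IsInf x
  · refine h.der_preserves_inf hP D hk' ?_ ?_ hf
    · rw [Derivation.leibniz_div, hx, hy]; simp
    · rw [Derivation.leibniz_div, Derivation.leibniz_pow, Derivation.leibniz_pow, hx, hy]
      simp
  · exact h.der_preserves_fin hΔ hP D hk' (by rw [hx]; exact h0) (by rw [hy]; exact h0) hf

end Ell7d

end Claimed.Agent.R280
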