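import Claimed.Agent.R280.Ell.P7b
import Claimed.Agent.R280.Ell.P7d

/-!
# Row 280, package Ell7: the global frame of `Der M` (GLUE, proved from Ell7a-d)
-/

set_option autoImplicit false

namespace Claimed.Agent.R280

open WithZero WeierstrassCurve Polynomial
open scoped Classical

section Ell7

variable {k M : Type} [Field k] [Field M] [Algebra k M] {W : WeierstrassCurve k} {x y : M}

omit [Field k] [Algebra k M] in
theorem der_sum_apply_ell {m : ℕ} (c : Fin m → M) (D : Fin m → Derivation ℤ M M) (f : M) :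
    (∑ j, c j • D j) f = ∑ j, c j * D j f := by
  have key : ∀ s : Finset (Fin m), (∑ j ∈ s, c j • D j) f = ∑ j ∈ s, c j * D j f := by
    intro s
    induction s using Finset.induction_on with
    | empty => simp
    | insert a s ha ih =>
      rw [Finset.sum_insert ha, Finset.sum_insert ha, Derivation.add_apply, ih,
        Derivation.smul_apply, smul_eq_mul]
  exact key _

theorem Place.v_algebraMap_le_one_ell (P : Place k M) (c : k) : P.v (algebraMap k M c) ≤ 1 :=
  (Valuation.mem_valuationSubring_iff _ _).mp (P.algebraMap_mem c)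

/-- **the global frame**: `D₀` (invariant) and the extensions `D j` of a basis `θ j` of `Der k` form a basis of `Der M`
which is a basis of `{D | D O_P ⊆ O_P}` at every place `P`. -/
theorem IsWFF.frame (h : IsWFF W M x y) (hΔ : W.Δ ≠ 0) {n : ℕ} (θ : Fin n → Derivation ℤ k k)
    (hθ : ∀ θ' : Derivation ℤ k k, ∃! c : Fin n → k, θ' = ∑ j, c j • θ j)
    (hW : ∀ j, θ j W.a₁ = 0 ∧ θ j W.a₂ = 0 ∧ θ j W.a₃ = 0 ∧ θ j W.a₄ = 0 ∧ θ j W.a₆ = 0)
    (D : Fin (n + 1) → Derivation ℤ M M)
    (hD0 : (∀ c : k, D 0 (algebraMap k M c) = 0) ∧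
      D 0 x = 2 * y + algebraMap k M W.a₁ * x + algebraMap k M W.a₃)
    (hDj : ∀ j : Fin n, (∀ c : k, D j.succ (algebraMap k M c) = algebraMap k M (θ j c)) ∧
      D j.succ x = 0 ∧ D j.succ y = 0) :
    (∀ D' : Derivation ℤ M M, ∃! c : Fin (n + 1) → M, D' = ∑ j, c j • D j) ∧
    ∀ (P : Place k M) (c : Fin (n + 1) → M),
      (∀ f : M, P.v f ≤ 1 → P.v ((∑ j, c j • D j) f) ≤ 1) ↔ ∀ j, P.v (c j) ≤ 1 := by
  have hFy := h.polyY_ne_zero hΔ
  set Fy : M := 2 * y + algebraMap k M W.a₁ * x + algebraMap k M W.a₃ with hFydef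
  -- the value of `D 0` at `y`
  have hD0y : D 0 y = 3 * x ^ 2 + 2 * algebraMap k M W.a₂ * x + algebraMap k M W.a₄
      - algebraMap k M W.a₁ * y := by
    have hrel := h.der_rel (D 0)
    simp only [hD0.1, hD0.2] at hrel
    have : Fy * (D 0 y - (3 * x ^ 2 + 2 * algebraMap k M W.a₂ * x + algebraMap k M W.a₄
      - algebraMap k M W.a₁ * y)) = 0 := by
      linear_combination hrel
    rcases mul_eq_zero.mp this with h0 | h0
    · exact absurd h0 hFy
    · exact sub_eq_zero.mp h0
  -- evaluation of a combination on constants, `x`, `y`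
  have hconst : ∀ (c : Fin (n + 1) → M) (a : k), (∑ j, c j • D j) (algebraMap k M a) =
      ∑ j : Fin n, c j.succ * algebraMap k M (θ j a) := by
    intro c a
    rw [der_sum_apply_ell, Fin.sum_univ_succ, hD0.1, mul_zero, zero_add]
    exact Finset.sum_congr rfl fun j _ => by rw [(hDj j).1]
  have hxval : ∀ c : Fin (n + 1) → M, (∑ j, c j • D j) x = c 0 * Fy := by
    intro c
    rw [der_sum_apply_ell, Fin.sum_univ_succ, hD0.2]
    simp [(hDj _).2.1]
  have hyval : ∀ c : Fin (n + 1) → M, (∑ j, c j • D j) y = c 0 * D 0 y := by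
    intro c
    rw [der_sum_apply_ell, Fin.sum_univ_succ]
    simp [(hDj _).2.2]
  -- dual coordinates
  obtain ⟨m, a, b, hab⟩ := exists_dual_of_der_basis θ hθ
  have hcoef : ∀ (c : Fin (n + 1) → M) (i : Fin n), c i.succ =
      ∑ l, algebraMap k M (b i l) * (∑ j, c j • D j) (algebraMap k M (a i l)) := by
    intro c i
    simp only [hconst, Finset.mul_sum]
    rw [Finset.sum_comm]
    have : ∀ j : Fin n, ∑ l, algebraMap k M (b i l) * (c j.succ * algebraMap k M (θ j (a i l))) =
        c j.succ * algebraMap k M (if i = j then 1 else 0) := by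
      intro j
      rw [← hab i j, map_sum, Finset.mul_sum]
      exact Finset.sum_congr rfl fun l _ => by rw [map_mul]; ring
    rw [Finset.sum_congr rfl fun j _ => this j]
    simp
  refine ⟨fun D' => ?_, fun P c => ?_⟩
  · -- basis
    obtain ⟨c, hc⟩ := der_into_ext_eq_sum θ hθ M (D'.compAlgebraMap k)
    have hc' : ∀ a : k, D' (algebraMap k M a) = ∑ j, c j * algebraMap k M (θ j a) := hc
    refine ⟨Fin.cons (D' x / Fy) c, ?_, ?_⟩
    · refine h.der_ext (fun a => ?_) ?_ ?_
      · rw [hconst, hc']
        simp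
      · rw [hxval]
        simp only [Fin.cons_zero]
        field_simp
      · rw [hyval, hD0y]
        simp only [Fin.cons_zero]
        have hrel := h.der_rel D'
        have hz : ∀ e : k, (∀ j, θ j e = 0) → D' (algebraMap k M e) = 0 := by
          intro e he
          rw [hc']
          simp [he]
        rw [hz _ fun j => (hW j).1, hz _ fun j => (hW j).2.1, hz _ fun j => (hW j).2.2.1,
          hz _ fun j => (hW j).2.2.2.1, hz _ fun j => (hW j).2.2.2.2] at hrel
        rw [eq_comm, div_mul_eq_mul_div, div_eq_iff hFy]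
        linear_combination -hrel
    · intro c' hc''
      funext j
      refine Fin.cases ?_ (fun i => ?_) j
      · have := hxval c'
        rw [← hc''] at this
        simp only [Fin.cons_zero]
        rw [this]
        field_simp
      · rw [hcoef c' i, ← hc'']
        simp only [Fin.cons_succ, hc', Finset.mul_sum]
        rw [Finset.sum_comm]
        have : ∀ j : Fin n, ∑ l, algebraMap k M (b i l) * (c j * algebraMap k M (θ j (a i l))) =
            c j * algebraMap k M (if i = j then 1 else 0) := by
          intro j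
          rw [← hab i j, map_sum, Finset.mul_sum]
          exact Finset.sum_congr rfl fun l _ => by rw [map_mul]; ring
        rw [Finset.sum_congr rfl fun j _ => this j]
        simp
  · -- integrality
    obtain ⟨hp0, f₀, hf₀, hf₀'⟩ := h.invDer_preserves hΔ P (D 0) hD0.1 hD0.2 hD0y
    have hpj : ∀ (j : Fin n) (f : M), P.v f ≤ 1 → P.v (D j.succ f) ≤ 1 := fun j f hf =>
      h.extDer_preserves hΔ P (D j.succ) (fun c => ⟨θ j c, (hDj j).1 c⟩) (hDj j).2.1 (hDj j).2.2 hf
    constructor
    · intro hE
      have hsucc : ∀ i : Fin n, P.v (c i.succ) ≤ 1 := by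
        intro i
        rw [hcoef c i]
        refine P.v.map_sum_le fun l _ => ?_
        rw [map_mul]
        exact mul_le_one' (P.v_algebraMap_le_one_ell _) (hE _ (P.v_algebraMap_le_one_ell _))
      intro j
      refine Fin.cases ?_ hsucc j
      have h1 : c 0 * D 0 f₀ = (∑ j, c j • D j) f₀ - ∑ j : Fin n, c j.succ * D j.succ f₀ := by
        rw [der_sum_apply_ell, Fin.sum_univ_succ]
        ring
      have h2 : P.v (c 0 * D 0 f₀) ≤ 1 := by
        rw [h1]
        refine (P.v.map_sub _ _).trans (max_le (hE f₀ hf₀) ?_)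
        refine P.v.map_sum_le fun j _ => ?_
        rw [map_mul]
        exact mul_le_one' (hsucc j) (hpj j f₀ hf₀)
      rwa [map_mul, hf₀', mul_one] at h2
    · intro hc f hf
      rw [der_sum_apply_ell]
      refine P.v.map_sum_le fun j _ => ?_
      rw [map_mul]
      refine mul_le_one' (hc j) ?_
      exact Fin.cases (hp0 f hf) (fun i => hpj i f hf) j

end Ell7

end Claimed.Agent.R280
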