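import Claimed.Agent.R280.Ell.P1b

/-!
# Row 280, package Ell7a: construction of derivations of `M = k(x,y)`

`W/k` ANY Weierstrass curve.  Uses the STATEMENTS of Ell1a.  `exists_invDer` and `exists_extDer` are PROVED below from `exists_der`, `der_ext`.

PLAN (~600 lines)
* `der_ext`: `{f | D f = D' f}` is a subfield (`Derivation.leibniz`, `Derivation.leibniz_inv`/`leibniz_div`, `map_add`, `map_neg`) containing `k, x, y`; `h.gen`
  (build an `IntermediateField k M` with this carrier, `IntermediateField.adjoin_le_iff`; or `IntermediateField.adjoin_induction`).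
* `der_rel`: apply `D` to `Affine.equation_iff` for `h.equation` (`(W.baseChange M).a₁ = algebraMap k M W.a₁` by `rfl`/`map_a₁`), `Derivation.leibniz`, `Derivation.leibniz_pow`, `smul_eq_mul`, `ring`/`linear_combination`.
* `exists_der`, by DUAL NUMBERS `E := TrivSqZeroExt M M` (`DualNumber M`):
  1. `j : k →+* E`, `c ↦ (algebraMap c, algebraMap (θ c))` is a ring hom (Leibniz for `θ`; `TrivSqZeroExt.ext`, `fst_mul`, `snd_mul`).
  2. `Φ₀ : k[X][Y] →+* E := eval₂RingHom (eval₂RingHom j (x, u)) (y, w)`;   `Φ₀ W.polynomial = (0, hrel-expression) = 0` (unfold `Affine.polynomial`, `simp [eval₂_add, …]`, `TrivSqZeroExt.ext`; first component `h.equation`, second `hrel`).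
  3. `Φ₁ : k[W] →+* E := AdjoinRoot.lift _ _ _`;   `fst ∘ Φ₁ = ι` (the embedding of `exists_coordHom`; both are ring homs agreeing on `mk (C (C c))`, `mk (C X)`, `mk Y`: `AdjoinRoot.ringHom_ext`, `Polynomial.ringHom_ext`).
  4. for `b ≠ 0`, `Φ₁ b` is a unit of `E` (`TrivSqZeroExt.isUnit_iff_isUnit_fst`, `ι b ≠ 0`);   `M = Frac k[W]` (`exists_frac` + injectivity ⟹ `IsFractionRing`/`IsLocalization` for the algebra structure `ι.toRingHom.toAlgebra`);
     `Φ : M →+* E := IsLocalization.lift`;   `fst ∘ Φ = id` (`IsLocalization.ringHom_ext`).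
  5. `D f := snd (Φ f)`: additive, `D (f g) = f • D g + g • D f` from `snd_mul` and `fst (Φ f) = f`; `Derivation.mk'` over `ℤ` (the `ℤ`-linearity is automatic: `AddMonoidHom.toIntLinearMap`).
-/

set_option autoImplicit false

namespace Claimed.Agent.R280

open WithZero WeierstrassCurve Polynomial
open scoped Classical

section Ell7a

variable {k M : Type} [Field k] [Field M] [Algebra k M] {W : WeierstrassCurve k} {x y : M}

/-- a derivation of `M` is determined by its values on `k`, `x`, `y` -/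
theorem IsWFF.der_ext (h : IsWFF W M x y) {D D' : Derivation ℤ M M}
    (hk : ∀ c : k, D (algebraMap k M c) = D' (algebraMap k M c)) (hx : D x = D' x)
    (hy : D y = D' y) : D = D' := by
  ext f
  have hf : f ∈ IntermediateField.adjoin k {x, y} := by rw [h.gen]; trivial
  induction hf using IntermediateField.adjoin_induction with
  | mem z hz =>
    rcases hz with rfl | hz
    · exact hx
    · rw [Set.mem_singleton_iff.mp hz]; exact hy
  | algebraMap c => exact hk c
  | add a b _ _ ha hb => rw [map_add, map_add, ha, hb]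
  | inv a _ ha => rw [Derivation.leibniz_inv, Derivation.leibniz_inv, ha]
  | mul a b _ _ ha hb => rw [Derivation.leibniz, Derivation.leibniz, ha, hb]

theorem IsWFF.eqn_ell7 (h : IsWFF W M x y) :
    y ^ 2 + algebraMap k M W.a₁ * x * y + algebraMap k M W.a₃ * y
      = x ^ 3 + algebraMap k M W.a₂ * x ^ 2 + algebraMap k M W.a₄ * x + algebraMap k M W.a₆ := by
  have := (Affine.equation_iff (W := (W.baseChange M).toAffine) x y).mp h.equation
  simpa using this

/-- the relation between `D x`, `D y` and the values of `D` on the coefficients -/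
theorem IsWFF.der_rel (h : IsWFF W M x y) (D : Derivation ℤ M M) :
    (2 * y + algebraMap k M W.a₁ * x + algebraMap k M W.a₃) * D y
      + (algebraMap k M W.a₁ * y - 3 * x ^ 2 - 2 * algebraMap k M W.a₂ * x - algebraMap k M W.a₄) * D x
      + (D (algebraMap k M W.a₁) * x * y + D (algebraMap k M W.a₃) * y
        - D (algebraMap k M W.a₂) * x ^ 2 - D (algebraMap k M W.a₄) * x
        - D (algebraMap k M W.a₆)) = 0 := by
  have e := congrArg D h.eqn_ell7
  simp only [map_add, Derivation.leibniz, Derivation.leibniz_pow, smul_eq_mul, nsmul_eq_mul] at e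
  push_cast at e
  linear_combination e

/-- the element `(a, b)` of the dual numbers -/
noncomputable def ell7P {M : Type} [Field M] (a b : M) : TrivSqZeroExt M M :=
  TrivSqZeroExt.inl a + TrivSqZeroExt.inr b

theorem ell7P_fst {M : Type} [Field M] (a b : M) : (ell7P a b).fst = a := by
  simp [ell7P]

theorem ell7P_snd {M : Type} [Field M] (a b : M) : (ell7P a b).snd = b := by
  simp [ell7P]

/-- the ring hom `c ↦ (c, θ c)` into the dual numbers -/
noncomputable def ell7J (M : Type) [Field M] [Algebra k M] (θ : Derivation ℤ k k) :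
    k →+* TrivSqZeroExt M M where
  toFun c := ell7P (algebraMap k M c) (algebraMap k M (θ c))
  map_one' := by
    refine TrivSqZeroExt.ext ?_ ?_
    · rw [ell7P_fst, map_one, TrivSqZeroExt.fst_one]
    · rw [ell7P_snd, Derivation.map_one_eq_zero, map_zero, TrivSqZeroExt.snd_one]
  map_mul' a b := by
    refine TrivSqZeroExt.ext ?_ ?_
    · rw [TrivSqZeroExt.fst_mul, ell7P_fst, ell7P_fst, ell7P_fst, map_mul]
    · rw [TrivSqZeroExt.snd_mul, ell7P_fst, ell7P_fst, ell7P_snd, ell7P_snd, ell7P_snd,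
        Derivation.leibniz, op_smul_eq_smul, smul_eq_mul, smul_eq_mul, smul_eq_mul, smul_eq_mul,
        map_add, map_mul, map_mul]
  map_zero' := by
    refine TrivSqZeroExt.ext ?_ ?_
    · rw [ell7P_fst, map_zero, TrivSqZeroExt.fst_zero]
    · rw [ell7P_snd, map_zero, map_zero, TrivSqZeroExt.snd_zero]
  map_add' a b := by
    refine TrivSqZeroExt.ext ?_ ?_
    · rw [TrivSqZeroExt.fst_add, ell7P_fst, ell7P_fst, ell7P_fst, map_add]
    · rw [TrivSqZeroExt.snd_add, ell7P_snd, ell7P_snd, ell7P_snd, map_add, map_add]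

theorem ell7J_eqns_cite : True := by
  have := @ell7J.eq_1
  have := @ell7P.eq_1
  trivial

theorem ell7J_fst (θ : Derivation ℤ k k) (c : k) : (ell7J M θ c).fst = algebraMap k M c :=
  ell7P_fst _ _

theorem ell7J_snd (θ : Derivation ℤ k k) (c : k) :
    (ell7J M θ c).snd = algebraMap k M (θ c) := ell7P_snd _ _

/-- the defining polynomial is killed -/
theorem IsWFF.ell7_poly (h : IsWFF W M x y) (θ : Derivation ℤ k k) (u w : M)
    (hrel : (2 * y + algebraMap k M W.a₁ * x + algebraMap k M W.a₃) * w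
      + (algebraMap k M W.a₁ * y - 3 * x ^ 2 - 2 * algebraMap k M W.a₂ * x - algebraMap k M W.a₄) * u
      + (algebraMap k M (θ W.a₁) * x * y + algebraMap k M (θ W.a₃) * y
        - algebraMap k M (θ W.a₂) * x ^ 2 - algebraMap k M (θ W.a₄) * x
        - algebraMap k M (θ W.a₆)) = 0) :
    W.toAffine.polynomial.eval₂ (eval₂RingHom (ell7J M θ) (ell7P x u)) (ell7P y w) = 0 := by
  have e := h.eqn_ell7
  rw [Affine.polynomial]
  simp only [eval₂_add, eval₂_sub, eval₂_mul, eval₂_pow, eval₂_C, eval₂_X, coe_eval₂RingHom]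
  refine TrivSqZeroExt.ext ?_ ?_
  · simp only [TrivSqZeroExt.fst_add, TrivSqZeroExt.fst_sub, TrivSqZeroExt.fst_mul,
      TrivSqZeroExt.fst_pow, ell7J_fst, ell7P_fst, TrivSqZeroExt.fst_zero]
    linear_combination e
  · simp only [TrivSqZeroExt.snd_add, TrivSqZeroExt.snd_sub, TrivSqZeroExt.snd_mul,
      TrivSqZeroExt.snd_pow, TrivSqZeroExt.fst_add, TrivSqZeroExt.fst_mul, TrivSqZeroExt.fst_pow,
      ell7J_fst, ell7J_snd, ell7P_fst, ell7P_snd, TrivSqZeroExt.snd_zero, op_smul_eq_smul,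
      smul_eq_mul, nsmul_eq_mul]
    push_cast
    simp only [Nat.pred_eq_sub_one, Nat.reduceSub, pow_one]
    linear_combination hrel

theorem ell7_fst_eval₂ (θ : Derivation ℤ k k) (x u : M) (q : k[X]) :
    (q.eval₂ (ell7J M θ) (ell7P x u)).fst = aeval x q := by
  have e : ((TrivSqZeroExt.fstHom ℤ M M).toRingHom.comp (eval₂RingHom (ell7J M θ) (ell7P x u)))
      = (aeval x : k[X] →ₐ[k] M).toRingHom := by
    refine Polynomial.ringHom_ext (fun a => ?_) ?_
    · show ((C a).eval₂ (ell7J M θ) (ell7P x u)).fst = aeval x (C a)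
      rw [eval₂_C, ell7J_fst, aeval_C]
    · show ((X : k[X]).eval₂ (ell7J M θ) (ell7P x u)).fst = aeval x (X : k[X])
      rw [eval₂_X, ell7P_fst, aeval_X]
  exact RingHom.congr_fun e q

/-- existence of a derivation with prescribed restriction to `k` and prescribed values at `x`, `y` -/
theorem IsWFF.exists_der (h : IsWFF W M x y) (θ : Derivation ℤ k k) (u w : M)
    (hrel : (2 * y + algebraMap k M W.a₁ * x + algebraMap k M W.a₃) * w
      + (algebraMap k M W.a₁ * y - 3 * x ^ 2 - 2 * algebraMap k M W.a₂ * x - algebraMap k M W.a₄) * u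
      + (algebraMap k M (θ W.a₁) * x * y + algebraMap k M (θ W.a₃) * y
        - algebraMap k M (θ W.a₂) * x ^ 2 - algebraMap k M (θ W.a₄) * x
        - algebraMap k M (θ W.a₆)) = 0) :
    ∃ D : Derivation ℤ M M, (∀ c : k, D (algebraMap k M c) = algebraMap k M (θ c)) ∧
      D x = u ∧ D y = w := by
  obtain ⟨ι, hinj, hX, hY⟩ := h.exists_coordHom
  obtain ⟨Φ₁, hΦ₁⟩ : ∃ Φ₁ : W.toAffine.CoordinateRing →+* TrivSqZeroExt M M,
      ∀ p, Φ₁ (Affine.CoordinateRing.mk W.toAffine p)
        = p.eval₂ (eval₂RingHom (ell7J M θ) (ell7P x u)) (ell7P y w) :=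
    ⟨AdjoinRoot.lift (eval₂RingHom (ell7J M θ) (ell7P x u)) (ell7P y w) (h.ell7_poly θ u w hrel),
      fun p => AdjoinRoot.lift_mk _ p⟩
  have hfst : ∀ a, (Φ₁ a).fst = ι a := by
    intro a
    obtain ⟨p, rfl⟩ := AdjoinRoot.mk_surjective a
    have e : ((TrivSqZeroExt.fstHom ℤ M M).toRingHom.comp
        (Φ₁.comp (Affine.CoordinateRing.mk W.toAffine)))
        = ι.toRingHom.comp (Affine.CoordinateRing.mk W.toAffine) := by
      refine Polynomial.ringHom_ext (fun q => ?_) ?_
      · show (Φ₁ (Affine.CoordinateRing.mk W.toAffine (C q))).fst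
          = ι (Affine.CoordinateRing.mk W.toAffine (C q))
        rw [hΦ₁, hX, eval₂_C, coe_eval₂RingHom, ell7_fst_eval₂]
      · show (Φ₁ (Affine.CoordinateRing.mk W.toAffine X)).fst
          = ι (Affine.CoordinateRing.mk W.toAffine X)
        rw [hΦ₁, hY, eval₂_X, ell7P_fst]
    exact RingHom.congr_fun e p
  let _ : Algebra W.toAffine.CoordinateRing M := ι.toRingHom.toAlgebra
  have hal : ∀ a, algebraMap W.toAffine.CoordinateRing M a = ι a := fun _ => rfl
  have : FaithfulSMul W.toAffine.CoordinateRing M :=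
    (faithfulSMul_iff_algebraMap_injective _ _).mpr hinj
  have : IsFractionRing W.toAffine.CoordinateRing M := IsFractionRing.of_field _ _ (fun z => by
    obtain ⟨a, b, hb, hab⟩ := h.exists_frac ι hinj hX hY z
    refine ⟨a, b, ?_⟩
    rw [hal, hal, eq_div_iff ((map_ne_zero_iff ι hinj).mpr hb)]
    exact hab)
  have hunit : ∀ b : nonZeroDivisors W.toAffine.CoordinateRing, IsUnit (Φ₁ b) := by
    intro b
    rw [TrivSqZeroExt.isUnit_iff_isUnit_fst, hfst]
    exact isUnit_iff_ne_zero.mpr ((map_ne_zero_iff ι hinj).mpr (nonZeroDivisors.ne_zero b.2))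
  obtain ⟨Φ, hΦ⟩ : ∃ Φ : M →+* TrivSqZeroExt M M, ∀ a, Φ (ι a) = Φ₁ a :=
    ⟨IsLocalization.lift hunit, fun a => IsLocalization.lift_eq hunit a⟩
  have hΦfst : ∀ f, (Φ f).fst = f := by
    intro f
    have e : (TrivSqZeroExt.fstHom ℤ M M).toRingHom.comp Φ = RingHom.id M := by
      refine IsLocalization.ringHom_ext (nonZeroDivisors W.toAffine.CoordinateRing)
        (RingHom.ext fun a => ?_)
      show (Φ (ι a)).fst = ι a
      rw [hΦ, hfst]
    exact RingHom.congr_fun e f
  let D₀ : M →+ M :=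
    { toFun := fun f => (Φ f).snd
      map_zero' := by rw [map_zero, TrivSqZeroExt.snd_zero]
      map_add' := fun a b => by rw [map_add, TrivSqZeroExt.snd_add] }
  have hD₀ : ∀ f, D₀ f = (Φ f).snd := fun _ => rfl
  refine ⟨Derivation.mk' D₀.toIntLinearMap (fun a b => ?_), fun c => ?_, ?_, ?_⟩
  · show D₀ (a * b) = a • D₀ b + b • D₀ a
    rw [hD₀, hD₀, hD₀, map_mul, TrivSqZeroExt.snd_mul, hΦfst, hΦfst, op_smul_eq_smul]
  · show D₀ (algebraMap k M c) = _
    have e : algebraMap k M c = ι (Affine.CoordinateRing.mk W.toAffine (C (C c))) := by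
      rw [hX, aeval_C]
    rw [hD₀, e, hΦ, hΦ₁, eval₂_C, coe_eval₂RingHom, eval₂_C, ell7J_snd]
  · show D₀ x = u
    have e : x = ι (Affine.CoordinateRing.mk W.toAffine (C X)) := by
      rw [hX, aeval_X]
    rw [hD₀]
    conv_lhs => rw [e]
    rw [hΦ, hΦ₁, eval₂_C, coe_eval₂RingHom, eval₂_X, ell7P_snd]
  · show D₀ y = w
    rw [hD₀]
    conv_lhs => rw [← hY]
    rw [hΦ, hΦ₁, eval₂_X, ell7P_snd]

/-- the invariant derivation -/
theorem IsWFF.exists_invDer (h : IsWFF W M x y) :
    ∃! D : Derivation ℤ M M, (∀ c : k, D (algebraMap k M c) = 0) ∧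
      D x = 2 * y + algebraMap k M W.a₁ * x + algebraMap k M W.a₃ ∧
      D y = 3 * x ^ 2 + 2 * algebraMap k M W.a₂ * x + algebraMap k M W.a₄
        - algebraMap k M W.a₁ * y := by
  obtain ⟨D, hk, hx, hy⟩ := h.exists_der 0
    (2 * y + algebraMap k M W.a₁ * x + algebraMap k M W.a₃)
    (3 * x ^ 2 + 2 * algebraMap k M W.a₂ * x + algebraMap k M W.a₄ - algebraMap k M W.a₁ * y)
    (by simp only [Derivation.coe_zero, Pi.zero_apply, map_zero]; ring)
  refine ⟨D, ⟨fun c => by rw [hk]; simp, hx, hy⟩, ?_⟩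
  rintro D' ⟨hk', hx', hy'⟩
  exact h.der_ext (fun c => by rw [hk', hk]; simp) (by rw [hx', hx]) (by rw [hy', hy])

/-- a derivation of `k` killing the coefficients of `W` extends to `M`, killing `x` and `y` -/
theorem IsWFF.exists_extDer (h : IsWFF W M x y) (θ : Derivation ℤ k k)
    (hθ : θ W.a₁ = 0 ∧ θ W.a₂ = 0 ∧ θ W.a₃ = 0 ∧ θ W.a₄ = 0 ∧ θ W.a₆ = 0) :
    ∃! D : Derivation ℤ M M, (∀ c : k, D (algebraMap k M c) = algebraMap k M (θ c)) ∧
      D x = 0 ∧ D y = 0 := by
  obtain ⟨h1, h2, h3, h4, h6⟩ := hθ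
  obtain ⟨D, hk, hx, hy⟩ := h.exists_der θ 0 0 (by rw [h1, h2, h3, h4, h6]; simp)
  refine ⟨D, ⟨hk, hx, hy⟩, ?_⟩
  rintro D' ⟨hk', hx', hy'⟩
  exact h.der_ext (fun c => by rw [hk', hk]) (by rw [hx', hx]) (by rw [hy', hy])

end Ell7a

end Claimed.Agent.R280
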