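import Mathlib

/-!
# Row 280, package Ell7b: a finite basis of `Der k` has dual "coordinates"; derivations `k → M`

`k` a field such that `Der_ℤ(k,k)` has a finite basis `θ 0 … θ (n-1)` over `k`.  Mathlib only (Kähler differentials `Ω[k⁄ℤ]`).

PLAN (~350 lines)
* `Derivation ℤ k N ≃ₗ[k] (Ω[k⁄ℤ] →ₗ[k] N)` (`KaehlerDifferential.linearMapEquivDerivation`, `Derivation.liftKaehlerDifferential`, `Derivation.liftKaehlerDifferential_comp_D`).
  For `N = k`: `Der k ≃ Module.Dual k Ω`.  `hθ` makes `θ` a basis of `Der k` (`Module.Basis.mk`/`Module.Basis.ofRepr`, or just `Module.Finite.of_fintype_span…`): the dual of `Ω` is finite dimensional, so `Ω` is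
  (`Module.finite_dual_iff`), and the images `θ' j ∈ Dual Ω` form a basis; take the basis `ω i` of `Ω` with `θ' j (ω i) = δ_ij`
  (`Module.Basis.dualBasis` of … / `Module.evalEquiv`: pull back the dual basis of `θ'` along `Ω ≃ Dual (Dual Ω)`).
* `exists_dual_of_der_basis`: `Ω` is spanned by the `D a` (`KaehlerDifferential.span_range_derivation`), so each `ω i = ∑_l b i l • D (a i l)` (`Submodule.mem_span_range_iff_exists_fun`-type / `Finsupp.mem_span_range_iff_exists_finsupp`);
  pad the `n` finite sums to a common length `m` (or index by a `Finset` and use `Fin m` via `Finset.equivFin`; zero coefficients for the padding).   `θ' j (D a) = θ j a`.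
* `der_into_ext_eq_sum`: `d = L ∘ D`, `L : Ω →ₗ[k] M`;   `D a = ∑_j θ j a • ω j` (coordinates in the basis `ω` are given by the dual basis `θ'`);  `c j := L (ω j)`;  `Algebra.smul_def`, `mul_comm`.
-/

set_option autoImplicit false

namespace Claimed.Agent.R280

theorem ell7b_sum_apply {k : Type} [Field k] {n : ℕ} (θ : Fin n → Derivation ℤ k k) (c : Fin n → k)
    (a : k) : (∑ j, c j • θ j) a = ∑ j, c j * θ j a := by
  have h := congrFun (map_sum (Derivation.coeFnAddMonoidHom (R := ℤ) (A := k) (M := k))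
    (fun j => c j • θ j) Finset.univ) a
  rw [Finset.sum_apply] at h
  exact h

open KaehlerDifferential in
/-- every functional on `Ω` is a combination of the lifts of the `θ j`. -/
theorem ell7b_dual_span {k : Type} [Field k] {n : ℕ} (θ : Fin n → Derivation ℤ k k)
    (hθ : ∀ θ' : Derivation ℤ k k, ∃! c : Fin n → k, θ' = ∑ j, c j • θ j) (f : Ω[k⁄ℤ] →ₗ[k] k) :
    ∃ c : Fin n → k, f = ∑ j, c j • (θ j).liftKaehlerDifferential := by
  obtain ⟨c, hc, -⟩ := hθ (f.compDer (KaehlerDifferential.D ℤ k))
  refine ⟨c, ?_⟩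
  apply Derivation.liftKaehlerDifferential_unique
  rw [hc]
  ext a
  rw [ell7b_sum_apply]
  simp [Derivation.liftKaehlerDifferential_comp_D]

open KaehlerDifferential in
theorem ell7b_inj {k : Type} [Field k] {n : ℕ} (θ : Fin n → Derivation ℤ k k)
    (hθ : ∀ θ' : Derivation ℤ k k, ∃! c : Fin n → k, θ' = ∑ j, c j • θ j) (ω : Ω[k⁄ℤ])
    (h : ∀ j, (θ j).liftKaehlerDifferential ω = 0) : ω = 0 := by
  rw [← Module.forall_dual_apply_eq_zero_iff k ω]
  intro f
  obtain ⟨c, rfl⟩ := ell7b_dual_span θ hθ f
  simp [h]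

open KaehlerDifferential in
/-- dual vectors. -/
theorem ell7b_exists_dual {k : Type} [Field k] {n : ℕ} (θ : Fin n → Derivation ℤ k k)
    (hθ : ∀ θ' : Derivation ℤ k k, ∃! c : Fin n → k, θ' = ∑ j, c j • θ j) :
    ∃ ω : Fin n → Ω[k⁄ℤ], ∀ i j, (θ j).liftKaehlerDifferential (ω i) = if i = j then 1 else 0 := by
  classical
  set Φ : Ω[k⁄ℤ] →ₗ[k] (Fin n → k) := LinearMap.pi fun j => (θ j).liftKaehlerDifferential with hΦ
  have hsurj : LinearMap.range Φ = ⊤ := by
    by_contra hne
    obtain ⟨f, hf0, hf⟩ := Submodule.exists_le_ker_of_lt_top _ (lt_top_iff_ne_top.2 hne)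
    -- the coefficients of `f`
    have hzero : (0 : Derivation ℤ k k) = ∑ j, (f (Pi.single j 1)) • θ j := by
      ext a
      have h1 : f (Φ (KaehlerDifferential.D ℤ k a)) = 0 := hf ⟨_, rfl⟩
      have h2 : Φ (KaehlerDifferential.D ℤ k a) = ∑ j, (θ j a) • (Pi.single j (1 : k) : Fin n → k) := by
        ext i
        simp [hΦ, Derivation.liftKaehlerDifferential_comp_D, Finset.sum_apply, Pi.single_apply]
      rw [h2, map_sum] at h1
      simp only [map_smul, smul_eq_mul] at h1
      rw [ell7b_sum_apply, Derivation.coe_zero, Pi.zero_apply, ← h1]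
      exact Finset.sum_congr rfl fun j _ => mul_comm _ _
    obtain ⟨c, -, huniq⟩ := hθ 0
    have e1 := huniq (fun j => f (Pi.single j 1)) hzero
    have e2 := huniq (fun _ => 0) (by simp)
    apply hf0
    apply LinearMap.pi_ext'
    intro j
    ext
    have : f (Pi.single j 1) = 0 := by
      have := congrFun (e1.trans e2.symm) j
      simpa using this
    simpa using this
  have hs : Function.Surjective Φ := LinearMap.range_eq_top.1 hsurj
  choose ω hω using fun i : Fin n => hs (Pi.single i 1)
  refine ⟨ω, fun i j => ?_⟩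
  have := congrFun (hω i) j
  simp only [hΦ, LinearMap.pi_apply, Pi.single_apply] at this
  rw [this]
  by_cases h : i = j
  · simp [h]
  · have h' : ¬ j = i := fun e => h e.symm
    simp [h, h']

theorem exists_dual_of_der_basis {k : Type} [Field k] {n : ℕ} (θ : Fin n → Derivation ℤ k k)
    (hθ : ∀ θ' : Derivation ℤ k k, ∃! c : Fin n → k, θ' = ∑ j, c j • θ j) :
    ∃ (m : ℕ) (a b : Fin n → Fin m → k),
      ∀ i j, ∑ l, b i l * θ j (a i l) = if i = j then 1 else 0 := by
  classical
  obtain ⟨ω, hω⟩ := ell7b_exists_dual θ hθ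
  have hspan : ∀ i, ∃ c : k →₀ k, (c.sum fun a r => r • KaehlerDifferential.D ℤ k a) = ω i := by
    intro i
    have : ω i ∈ Submodule.span k (Set.range (KaehlerDifferential.D ℤ k)) := by
      rw [KaehlerDifferential.span_range_derivation]
      exact Submodule.mem_top
    exact (Finsupp.mem_span_range_iff_exists_finsupp).1 this
  choose c hc using hspan
  set S : Finset k := Finset.univ.biUnion fun i => (c i).support with hS
  refine ⟨S.card, fun _ l => (S.equivFin.symm l : k), fun i l => c i (S.equivFin.symm l : k), ?_⟩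
  intro i j
  rw [← hω i j, ← hc i]
  have h1 : (c i).sum (fun a r => r • KaehlerDifferential.D ℤ k a)
      = ∑ a ∈ S, c i a • KaehlerDifferential.D ℤ k a := by
    refine Finsupp.sum_of_support_subset _ ?_ _ (fun a _ => zero_smul _ _)
    intro a ha
    exact Finset.mem_biUnion.2 ⟨i, Finset.mem_univ i, ha⟩
  rw [h1, map_sum]
  simp only [map_smul, Derivation.liftKaehlerDifferential_comp_D, smul_eq_mul]
  rw [← Finset.sum_coe_sort S fun a => c i a * θ j a]
  exact Equiv.sum_comp S.equivFin.symm fun a : S => c i (a : k) * θ j (a : k)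

theorem der_into_ext_eq_sum {k : Type} [Field k] {n : ℕ} (θ : Fin n → Derivation ℤ k k)
    (hθ : ∀ θ' : Derivation ℤ k k, ∃! c : Fin n → k, θ' = ∑ j, c j • θ j) (M : Type) [Field M]
    [Algebra k M] (d : Derivation ℤ k M) :
    ∃ c : Fin n → M, ∀ a : k, d a = ∑ j, c j * algebraMap k M (θ j a) := by
  classical
  obtain ⟨ω, hω⟩ := ell7b_exists_dual θ hθ
  refine ⟨fun j => d.liftKaehlerDifferential (ω j), fun a => ?_⟩
  have h1 : KaehlerDifferential.D ℤ k a = ∑ j, θ j a • ω j := by
    rw [← sub_eq_zero]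
    apply ell7b_inj θ hθ
    intro i
    rw [map_sub, map_sum, Derivation.liftKaehlerDifferential_comp_D]
    simp only [map_smul, hω, smul_eq_mul, mul_ite, mul_one, mul_zero, Finset.sum_ite_eq',
      Finset.mem_univ, if_true, sub_self]
  rw [← Derivation.liftKaehlerDifferential_comp_D d a, h1, map_sum]
  refine Finset.sum_congr rfl fun j _ => ?_
  rw [map_smul, Algebra.smul_def, mul_comm]

end Claimed.Agent.R280
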