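import Claimed.Agent.R280.Ell.Defs

/-!
# Row 280, package Ell8a: reduction modulo a valuation ring: residues, existence, uniqueness, negation

`A ⊆ K` ANY valuation subring, `r : A →+* F` a ring hom into a field with kernel the maximal ideal (NOT nec. surjective), `Wt/K` with coefficients in `A` reducing to `W0/F`.
Mathlib only.  `v := A.valuation` (`ValuationSubring.valuation_le_one_iff`, `valuation_lt_one_iff`, `valuation_eq_one_iff`) is the convenient tool.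

PLAN (~450 lines)
* `resA_of_mem`, `resA_add/mul/neg/sub/one/zero/pow`: `dif_pos`, `map_add` … on subtypes.
* `resA_eq_zero_iff`: `hr` + `ValuationSubring.valuation_lt_one_iff`.
* `resA_div`: `resA b ≠ 0` ⟹ `v b = 1` ⟹ `b⁻¹ ∈ A`, `resA b⁻¹ = (resA b)⁻¹` (from `b * b⁻¹ = 1`).
* `RedCurveA.mem_of_equation`: `x ∈ A`, equation.  If `1 < v y` then `v (y² + a₁xy + a₃y) = v y ^ 2 > 1 ≥ v (x³ + …)`.
* `RedCurveA.equation`: apply `resA` to `Affine.equation_iff`.
* `RedCurveA.negY`, `RedCurveA.addX`, `RedCurveA.addY`: these are polynomial expressions (`Affine.negY`, `addX`, `negAddY`, `addY` unfold to ring expressions).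
* `RedPtA.unique`: 4 × 2 cases, `Affine.Point.some.injEq`.   `RedPtA.existsUnique`: `Q = 0 ↦ 0`; `Q = (a,b)`, `a ∉ A ↦ 0`; `a ∈ A ↦ (resA a, resA b)`, nonsingular since `W0.Δ ≠ 0`
  (`Affine.equation_iff_nonsingular_of_Δ_ne_zero`-type lemma; see `WeierstrassCurve.Affine.nonsingular_of_Δ_ne_zero`).
* `RedPtA.neg`: `Affine.Point.neg_some`, `RedCurveA.negY`.
-/

set_option autoImplicit false

namespace Claimed.Agent.R280

open WithZero WeierstrassCurve Polynomial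
open scoped Classical

section Ell8a

variable {K F : Type} [Field K] [Field F] (A : ValuationSubring K) (r : A →+* F)

theorem resA_of_mem {a : K} (ha : a ∈ A) : resA A r a = r ⟨a, ha⟩ := dif_pos ha

theorem resA_zero : resA A r 0 = 0 := by
  rw [resA_of_mem A r A.zero_mem]; exact map_zero r

theorem resA_one : resA A r 1 = 1 := by
  rw [resA_of_mem A r A.one_mem]; exact map_one r

theorem resA_add {a b : K} (ha : a ∈ A) (hb : b ∈ A) :
    resA A r (a + b) = resA A r a + resA A r b := by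
  rw [resA_of_mem A r (A.add_mem _ _ ha hb), resA_of_mem A r ha, resA_of_mem A r hb, ← map_add]
  rfl

theorem resA_mul {a b : K} (ha : a ∈ A) (hb : b ∈ A) :
    resA A r (a * b) = resA A r a * resA A r b := by
  rw [resA_of_mem A r (A.mul_mem _ _ ha hb), resA_of_mem A r ha, resA_of_mem A r hb, ← map_mul]
  rfl

theorem resA_neg {a : K} (ha : a ∈ A) : resA A r (-a) = - resA A r a := by
  rw [resA_of_mem A r (A.neg_mem _ ha), resA_of_mem A r ha, ← map_neg]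
  rfl

theorem resA_sub {a b : K} (ha : a ∈ A) (hb : b ∈ A) :
    resA A r (a - b) = resA A r a - resA A r b := by
  rw [sub_eq_add_neg, resA_add A r ha (A.neg_mem _ hb), resA_neg A r hb, sub_eq_add_neg]

theorem resA_pow {a : K} (ha : a ∈ A) (n : ℕ) : resA A r (a ^ n) = resA A r a ^ n := by
  induction n with
  | zero => simp [resA_one]
  | succ n ih => rw [pow_succ, resA_mul A r (pow_mem ha n) ha, ih, pow_succ]

theorem resA_natCast (n : ℕ) : resA A r (n : K) = n := by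
  rw [resA_of_mem A r (natCast_mem A n)]
  exact map_natCast r n

variable {A r}

theorem resA_eq_zero_iff (hr : ∀ a : A, r a = 0 ↔ a ∈ IsLocalRing.maximalIdeal A) {a : K}
    (ha : a ∈ A) : resA A r a = 0 ↔ A.valuation a < 1 := by
  rw [resA_of_mem A r ha, hr]
  exact A.valuation_lt_one_iff ⟨a, ha⟩

theorem resA_div (hr : ∀ a : A, r a = 0 ↔ a ∈ IsLocalRing.maximalIdeal A) {a b : K} (ha : a ∈ A)
    (hb : b ∈ A) (hb0 : resA A r b ≠ 0) :
    a / b ∈ A ∧ resA A r (a / b) = resA A r a / resA A r b := by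
  have hv : A.valuation b = 1 := by
    have h1 : ¬ A.valuation b < 1 := fun h => hb0 ((resA_eq_zero_iff hr hb).mpr h)
    exact le_antisymm ((A.valuation_le_one_iff b).mpr hb) (not_lt.mp h1)
  have hb1 : b ≠ 0 := by
    rintro rfl
    simp at hv
  have hbi : b⁻¹ ∈ A := by
    rw [← A.valuation_le_one_iff, map_inv₀, hv, inv_one]
  have hi : resA A r b⁻¹ = (resA A r b)⁻¹ := by
    have := resA_mul A r hb hbi
    rw [mul_inv_cancel₀ hb1, resA_one] at this
    exact eq_inv_of_mul_eq_one_right this.symm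
  rw [div_eq_mul_inv, div_eq_mul_inv]
  exact ⟨A.mul_mem _ _ ha hbi, by rw [resA_mul A r ha hbi, hi]⟩

variable {Wt : WeierstrassCurve K} {W0 : WeierstrassCurve F}

theorem RedCurveA.mem_of_equation (hW : RedCurveA A r Wt W0) {a b : K}
    (hab : Wt.toAffine.Equation a b) (ha : a ∈ A) : b ∈ A := by
  obtain ⟨⟨h1, -⟩, ⟨h2, -⟩, ⟨h3, -⟩, ⟨h4, -⟩, ⟨h6, -⟩⟩ := hW
  by_contra hb
  have hvb : 1 < A.valuation b := by
    rw [← not_le, A.valuation_le_one_iff]; exact hb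
  rw [Affine.equation_iff] at hab
  have hc : Wt.a₁ * a + Wt.a₃ ∈ A := A.add_mem _ _ (A.mul_mem _ _ h1 ha) h3
  have hR : a ^ 3 + Wt.a₂ * a ^ 2 + Wt.a₄ * a + Wt.a₆ ∈ A :=
    A.add_mem _ _ (A.add_mem _ _ (A.add_mem _ _ (pow_mem ha 3) (A.mul_mem _ _ h2 (pow_mem ha 2)))
      (A.mul_mem _ _ h4 ha)) h6
  have hL : b * (b + (Wt.a₁ * a + Wt.a₃)) ∈ A := by
    have : b * (b + (Wt.a₁ * a + Wt.a₃)) = a ^ 3 + Wt.a₂ * a ^ 2 + Wt.a₄ * a + Wt.a₆ := by
      linear_combination hab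
    rw [this]; exact hR
  have hv1 : A.valuation (b + (Wt.a₁ * a + Wt.a₃)) = A.valuation b :=
    Valuation.map_add_eq_of_lt_left _ (lt_of_le_of_lt ((A.valuation_le_one_iff _).mpr hc) hvb)
  rw [← A.valuation_le_one_iff, map_mul, hv1] at hL
  exact absurd hL (not_le.mpr (one_lt_mul'' hvb hvb))

theorem RedCurveA.equation (hW : RedCurveA A r Wt W0) {a b : K} (hab : Wt.toAffine.Equation a b)
    (ha : a ∈ A) (hb : b ∈ A) : W0.toAffine.Equation (resA A r a) (resA A r b) := by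
  obtain ⟨⟨h1, e1⟩, ⟨h2, e2⟩, ⟨h3, e3⟩, ⟨h4, e4⟩, ⟨h6, e6⟩⟩ := hW
  rw [Affine.equation_iff] at hab ⊢
  have := congrArg (resA A r) hab
  rw [resA_add A r (A.add_mem _ _ (pow_mem hb 2) (A.mul_mem _ _ (A.mul_mem _ _ h1 ha) hb))
      (A.mul_mem _ _ h3 hb),
    resA_add A r (pow_mem hb 2) (A.mul_mem _ _ (A.mul_mem _ _ h1 ha) hb),
    resA_mul A r (A.mul_mem _ _ h1 ha) hb, resA_mul A r h1 ha, resA_mul A r h3 hb,
    resA_pow A r hb,
    resA_add A r (A.add_mem _ _ (A.add_mem _ _ (pow_mem ha 3) (A.mul_mem _ _ h2 (pow_mem ha 2)))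
      (A.mul_mem _ _ h4 ha)) h6,
    resA_add A r (A.add_mem _ _ (pow_mem ha 3) (A.mul_mem _ _ h2 (pow_mem ha 2)))
      (A.mul_mem _ _ h4 ha),
    resA_add A r (pow_mem ha 3) (A.mul_mem _ _ h2 (pow_mem ha 2)),
    resA_mul A r h2 (pow_mem ha 2), resA_mul A r h4 ha, resA_pow A r ha, resA_pow A r ha,
    e1, e2, e3, e4, e6] at this
  exact this

theorem RedCurveA.negY (hW : RedCurveA A r Wt W0) {a b : K} (ha : a ∈ A) (hb : b ∈ A) :
    Wt.toAffine.negY a b ∈ A ∧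
      resA A r (Wt.toAffine.negY a b) = W0.toAffine.negY (resA A r a) (resA A r b) := by
  obtain ⟨⟨h1, e1⟩, ⟨h2, e2⟩, ⟨h3, e3⟩, ⟨h4, e4⟩, ⟨h6, e6⟩⟩ := hW
  simp only [Affine.negY]
  have m1 := A.neg_mem _ hb
  have m2 := A.mul_mem _ _ h1 ha
  refine ⟨A.sub_mem (A.sub_mem m1 m2) h3, ?_⟩
  rw [resA_sub A r (A.sub_mem m1 m2) h3, resA_sub A r m1 m2, resA_neg A r hb, resA_mul A r h1 ha,
    e1, e3]

theorem RedCurveA.addX (hW : RedCurveA A r Wt W0) {a a' l : K} (ha : a ∈ A) (ha' : a' ∈ A)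
    (hl : l ∈ A) : Wt.toAffine.addX a a' l ∈ A ∧
      resA A r (Wt.toAffine.addX a a' l) =
        W0.toAffine.addX (resA A r a) (resA A r a') (resA A r l) := by
  obtain ⟨⟨h1, e1⟩, ⟨h2, e2⟩, ⟨h3, e3⟩, ⟨h4, e4⟩, ⟨h6, e6⟩⟩ := hW
  simp only [Affine.addX]
  have m1 := pow_mem hl 2
  have m2 := A.mul_mem _ _ h1 hl
  have m3 := A.add_mem _ _ m1 m2
  have m4 := A.sub_mem m3 h2
  have m5 := A.sub_mem m4 ha
  refine ⟨A.sub_mem m5 ha', ?_⟩
  rw [resA_sub A r m5 ha', resA_sub A r m4 ha, resA_sub A r m3 h2, resA_add A r m1 m2,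
    resA_pow A r hl, resA_mul A r h1 hl, e1, e2]

theorem RedCurveA.addY (hW : RedCurveA A r Wt W0) {a a' b l : K} (ha : a ∈ A) (ha' : a' ∈ A)
    (hb : b ∈ A) (hl : l ∈ A) : Wt.toAffine.addY a a' b l ∈ A ∧
      resA A r (Wt.toAffine.addY a a' b l) =
        W0.toAffine.addY (resA A r a) (resA A r a') (resA A r b) (resA A r l) := by
  obtain ⟨mX, eX⟩ := RedCurveA.addX hW ha ha' hl
  simp only [Affine.addY, Affine.negAddY]
  have m1 := A.sub_mem mX ha
  have m2 := A.mul_mem _ _ hl m1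
  have m3 := A.add_mem _ _ m2 hb
  obtain ⟨mN, eN⟩ := RedCurveA.negY hW mX m3
  refine ⟨mN, ?_⟩
  rw [eN, eX, resA_add A r m2 hb, resA_mul A r hl m1, resA_sub A r mX ha, eX]

theorem RedPtA.unique {Q : Wt.toAffine.Point} {Qb Qb' : W0.toAffine.Point} (h : RedPtA A r Q Qb)
    (h' : RedPtA A r Q Qb') : Qb = Qb' := by
  rcases Q with _ | ⟨a, b, hQ⟩ <;> rcases Qb with _ | ⟨a1, b1, h1⟩ <;>
    rcases Qb' with _ | ⟨a2, b2, h2⟩
  · rfl
  · exact h'.elim
  · exact h.elim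
  · exact h.elim
  · rfl
  · exact absurd h'.1 h
  · exact absurd h.1 h'
  · obtain ⟨-, -, e1, e2⟩ := h
    obtain ⟨-, -, e1', e2'⟩ := h'
    subst e1 e2
    simp only [Affine.Point.some.injEq]
    exact ⟨e1', e2'⟩

variable (A r)

theorem RedPtA.existsUnique (hr : ∀ a : A, r a = 0 ↔ a ∈ IsLocalRing.maximalIdeal A)
    (hW : RedCurveA A r Wt W0) (hΔ : W0.Δ ≠ 0) (Q : Wt.toAffine.Point) :
    ∃! Qb : W0.toAffine.Point, RedPtA A r Q Qb := by
  suffices h : ∃ Qb : W0.toAffine.Point, RedPtA A r Q Qb by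
    obtain ⟨Qb, hQb⟩ := h
    exact ⟨Qb, hQb, fun Q' hQ' => RedPtA.unique hQ' hQb⟩
  rcases Q with _ | ⟨a, b, hQ⟩
  · exact ⟨.zero, trivial⟩
  · by_cases ha : a ∈ A
    · have hb := RedCurveA.mem_of_equation hW hQ.left ha
      exact ⟨.some (resA A r a) (resA A r b)
        ((W0.toAffine.equation_iff_nonsingular_of_Δ_ne_zero hΔ).mp
          (RedCurveA.equation hW hQ.left ha hb)), ha, hb, rfl, rfl⟩
    · exact ⟨.zero, ha⟩

theorem RedPtA.neg (hr : ∀ a : A, r a = 0 ↔ a ∈ IsLocalRing.maximalIdeal A)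
    (hW : RedCurveA A r Wt W0) {Q : Wt.toAffine.Point} {Qb : W0.toAffine.Point}
    (h : RedPtA A r Q Qb) : RedPtA A r (-Q) (-Qb) := by
  rcases Q with _ | ⟨a, b, hQ⟩ <;> rcases Qb with _ | ⟨a1, b1, h1⟩
  · trivial
  · exact h.elim
  · exact h
  · obtain ⟨ha, hb, e1, e2⟩ := h
    obtain ⟨mN, eN⟩ := RedCurveA.negY hW ha hb
    rw [Affine.Point.neg_some, Affine.Point.neg_some]
    exact ⟨ha, mN, e1, by rw [eN, e1, e2]⟩

end Ell8a

end Claimed.Agent.R280
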