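import Claimed.Agent.R280.Ell.P8a

/-!
# Row 280, package Ell8b: reduction and addition, case A: both reductions affine, `Q̄ + Q̄' ≠ 0`

Uses the STATEMENTS of Ell8a.  Mathlib: `Affine.slope_of_X_ne`, `slope_of_Y_ne`, `Y_eq_of_X_eq`, `Point.add_some`, `Point.add_of_Y_eq`.

PLAN (~400 lines).  `Q = (x₁,y₁)`, `Q' = (x₂,y₂)`, all four coordinates in `A`; bars = `resA`.
* `slope_identity` (both points on the curve): `(y₁ - y₂) * D = (x₁ - x₂) * N`, `D := y₁ - negY x₂ y₂ = y₁ + y₂ + a₁x₂ + a₃`, `N := x₁² + x₁x₂ + x₂² + a₂(x₁+x₂) + a₄ - a₁y₁`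
  (`linear_combination` of the two equations).
* `RedCurveA.slope`: hypothesis `¬ (x̄₁ = x̄₂ ∧ ȳ₁ = negY x̄₂ ȳ₂)`.
  (i) `x̄₁ ≠ x̄₂`: `x₁ ≠ x₂`, `slope_of_X_ne` on both sides, `resA_div`.
  (ii) `x̄₁ = x̄₂`: then `ȳ₁ = ȳ₂` (`Affine.Y_eq_of_X_eq` for the reduced equations) and `D̄ = ȳ₁ - negY x̄₂ ȳ₂ ≠ 0`.  The reduced slope is `N̄ / D̄` (`slope_of_Y_ne`; after `x̄₁ = x̄₂`, `ȳ₁ = ȳ₂` the numerator is `3x̄² + 2a₂x̄ + a₄ - a₁ȳ`).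
       Over `K`: `x₁ = x₂` ⟹ `y₁ ≠ negY x₂ y₂` (else reduce) ⟹ `y₁ = y₂`, `slope_of_Y_ne`, slope `= N / D`.    `x₁ ≠ x₂` ⟹ slope `= (y₁-y₂)/(x₁-x₂) = N / D` by `slope_identity` (`D ≠ 0`).   `resA_div`.
* `RedPtA.add_A`: unfold the four points (`Qb ≠ 0`, `Qb' ≠ 0` exclude the `zero` cases); `Qb + Qb' ≠ 0` gives the hypothesis of `RedCurveA.slope` (`Point.add_of_Y_eq`); it also holds over `K`;
  `Point.add_some` on both sides; `RedCurveA.addX`, `RedCurveA.addY`.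
-/

set_option autoImplicit false

namespace Claimed.Agent.R280

open WithZero WeierstrassCurve Polynomial
open scoped Classical

section Ell8b

variable {K F : Type} [Field K] [Field F] {A : ValuationSubring K} {r : A →+* F}
  {Wt : WeierstrassCurve K} {W0 : WeierstrassCurve F}

theorem slope_identity (W : WeierstrassCurve K) {x₁ y₁ x₂ y₂ : K} (h₁ : W.toAffine.Equation x₁ y₁)
    (h₂ : W.toAffine.Equation x₂ y₂) :
    (y₁ - y₂) * (y₁ - W.toAffine.negY x₂ y₂) =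
      (x₁ - x₂) * (x₁ ^ 2 + x₁ * x₂ + x₂ ^ 2 + W.a₂ * (x₁ + x₂) + W.a₄ - W.a₁ * y₁) := by
  rw [Affine.equation_iff] at h₁ h₂
  simp only [Affine.negY]
  linear_combination h₁ - h₂

/-- the universal slope formula -/
theorem slope_eq_div (W : WeierstrassCurve K) {x₁ y₁ x₂ y₂ : K} (h₁ : W.toAffine.Equation x₁ y₁)
    (h₂ : W.toAffine.Equation x₂ y₂) (hD : y₁ - W.toAffine.negY x₂ y₂ ≠ 0) :
    W.toAffine.slope x₁ x₂ y₁ y₂ =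
      (x₁ ^ 2 + x₁ * x₂ + x₂ ^ 2 + W.a₂ * (x₁ + x₂) + W.a₄ - W.a₁ * y₁) /
        (y₁ - W.toAffine.negY x₂ y₂) := by
  by_cases hx : x₁ = x₂
  · have hy : y₁ ≠ W.toAffine.negY x₂ y₂ := sub_ne_zero.mp hD
    have hyy : y₁ = y₂ := Affine.Y_eq_of_Y_ne h₁ h₂ hx hy
    rw [Affine.slope_of_Y_ne hx hy]
    subst hx hyy
    congr 1
    ring
  · rw [Affine.slope_of_X_ne hx, div_eq_div_iff (sub_ne_zero.mpr hx) hD, slope_identity W h₁ h₂]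
    ring

theorem RedCurveA.slope (hr : ∀ a : A, r a = 0 ↔ a ∈ IsLocalRing.maximalIdeal A)
    (hW : RedCurveA A r Wt W0) {x₁ y₁ x₂ y₂ : K} (h₁ : Wt.toAffine.Equation x₁ y₁)
    (h₂ : Wt.toAffine.Equation x₂ y₂) (hx₁ : x₁ ∈ A) (hy₁ : y₁ ∈ A) (hx₂ : x₂ ∈ A) (hy₂ : y₂ ∈ A)
    (hne : ¬ (resA A r x₁ = resA A r x₂ ∧
      resA A r y₁ = W0.toAffine.negY (resA A r x₂) (resA A r y₂))) :
    Wt.toAffine.slope x₁ x₂ y₁ y₂ ∈ A ∧ resA A r (Wt.toAffine.slope x₁ x₂ y₁ y₂) =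
      W0.toAffine.slope (resA A r x₁) (resA A r x₂) (resA A r y₁) (resA A r y₂) := by
  have e₁ := hW.equation h₁ hx₁ hy₁
  have e₂ := hW.equation h₂ hx₂ hy₂
  by_cases hx : resA A r x₁ = resA A r x₂
  · have hy : resA A r y₁ ≠ W0.toAffine.negY (resA A r x₂) (resA A r y₂) := fun h => hne ⟨hx, h⟩
    obtain ⟨mN, eN⟩ := hW.negY hx₂ hy₂
    have mD := A.sub_mem hy₁ mN
    have rD : resA A r (y₁ - Wt.toAffine.negY x₂ y₂) =
        resA A r y₁ - W0.toAffine.negY (resA A r x₂) (resA A r y₂) := by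
      rw [resA_sub A r hy₁ mN, eN]
    have rD0 : resA A r (y₁ - Wt.toAffine.negY x₂ y₂) ≠ 0 := by
      rw [rD]; exact sub_ne_zero.mpr hy
    have hD : y₁ - Wt.toAffine.negY x₂ y₂ ≠ 0 := by
      intro h0; rw [h0, resA_zero] at rD0; exact rD0 rfl
    obtain ⟨⟨h1, c1⟩, ⟨h2, c2⟩, ⟨h3, c3⟩, ⟨h4, c4⟩, ⟨h6, c6⟩⟩ := hW
    rw [slope_eq_div Wt h₁ h₂ hD, slope_eq_div W0 e₁ e₂ (sub_ne_zero.mpr hy)]
    have n1 := pow_mem hx₁ 2
    have n2 := A.mul_mem _ _ hx₁ hx₂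
    have n3 := pow_mem hx₂ 2
    have n4 := A.add_mem _ _ hx₁ hx₂
    have n5 := A.mul_mem _ _ h2 n4
    have n6 := A.mul_mem _ _ h1 hy₁
    have n7 := A.add_mem _ _ n1 n2
    have n8 := A.add_mem _ _ n7 n3
    have n9 := A.add_mem _ _ n8 n5
    have n10 := A.add_mem _ _ n9 h4
    have mNum := A.sub_mem n10 n6
    obtain ⟨m, e⟩ := resA_div hr mNum mD rD0
    refine ⟨m, ?_⟩
    rw [e, rD, resA_sub A r n10 n6, resA_add A r n9 h4, resA_add A r n8 n5, resA_add A r n7 n3,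
      resA_add A r n1 n2, resA_pow A r hx₁, resA_mul A r hx₁ hx₂, resA_pow A r hx₂,
      resA_mul A r h2 n4, resA_add A r hx₁ hx₂, resA_mul A r h1 hy₁, c1, c2, c4]
  · have hxK : x₁ ≠ x₂ := fun h => hx (by rw [h])
    rw [Affine.slope_of_X_ne hxK, Affine.slope_of_X_ne hx]
    have rD : resA A r (x₁ - x₂) = resA A r x₁ - resA A r x₂ := resA_sub A r hx₁ hx₂
    obtain ⟨m, e⟩ := resA_div hr (A.sub_mem hy₁ hy₂) (A.sub_mem hx₁ hx₂)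
      (by rw [rD]; exact sub_ne_zero.mpr hx)
    exact ⟨m, by rw [e, rD, resA_sub A r hy₁ hy₂]⟩

theorem RedPtA.add_A (hr : ∀ a : A, r a = 0 ↔ a ∈ IsLocalRing.maximalIdeal A)
    (hW : RedCurveA A r Wt W0) {Q Q' : Wt.toAffine.Point} {Qb Qb' : W0.toAffine.Point}
    (h : RedPtA A r Q Qb) (h' : RedPtA A r Q' Qb') (hb : Qb ≠ 0) (hb' : Qb' ≠ 0)
    (hne : Qb + Qb' ≠ 0) : RedPtA A r (Q + Q') (Qb + Qb') := by
  rcases Qb with _ | ⟨a₁, b₁, hQb⟩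
  · exact absurd rfl hb
  rcases Qb' with _ | ⟨a₂, b₂, hQb'⟩
  · exact absurd rfl hb'
  rcases Q with _ | ⟨x₁, y₁, hQ⟩
  · exact absurd h (by simp [RedPtA])
  rcases Q' with _ | ⟨x₂, y₂, hQ'⟩
  · exact absurd h' (by simp [RedPtA])
  obtain ⟨hx₁, hy₁, rfl, rfl⟩ := h
  obtain ⟨hx₂, hy₂, rfl, rfl⟩ := h'
  have hxy : ¬ (resA A r x₁ = resA A r x₂ ∧
      resA A r y₁ = W0.toAffine.negY (resA A r x₂) (resA A r y₂)) := by
    rintro ⟨e1, e2⟩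
    exact hne (Affine.Point.add_of_Y_eq e1 e2)
  have hxyK : ¬ (x₁ = x₂ ∧ y₁ = Wt.toAffine.negY x₂ y₂) := by
    rintro ⟨e1, e2⟩
    apply hxy
    refine ⟨by rw [e1], ?_⟩
    rw [e2, (hW.negY hx₂ hy₂).2]
  obtain ⟨ml, el⟩ := RedCurveA.slope hr hW hQ.left hQ'.left hx₁ hy₁ hx₂ hy₂ hxy
  rw [Affine.Point.add_some hxyK, Affine.Point.add_some hxy]
  obtain ⟨mX, eX⟩ := hW.addX hx₁ hx₂ ml
  obtain ⟨mY, eY⟩ := hW.addY hx₁ hx₂ hy₁ ml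
  exact ⟨mX, mY, by rw [eX, el], by rw [eY, el]⟩

end Ell8b

end Claimed.Agent.R280
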