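import Claimed.Agent.R280.Ell.P8b

/-!
# Row 280, package Ell8c: reduction and addition, case B: both reductions affine, `Q̄ + Q̄' = 0`

Uses the STATEMENTS of Ell8a, Ell8b (`slope_identity`, `slope_eq_div`).   `v := A.valuation`.

PLAN (~350 lines).  `Q = (x₁,y₁)`, `Q' = (x₂,y₂)` integral, `x̄₁ = x̄₂`, `ȳ₁ = negY x̄₂ ȳ₂` (from `Qb + Qb' = 0`: `Point.add_eq_zero`/`neg_some`, `eq_neg_of_add_eq_zero_left`).
If `x₁ = x₂ ∧ y₁ = negY x₂ y₂` then `Q + Q' = 0` and `RedPtA 0 0 = True`.   Otherwise `Q + Q' = (x₃, _)`, `x₃ = λ² + a₁λ - a₂ - x₁ - x₂` (`Point.add_some`, `Affine.addX`); to show: `x₃ ∉ A`.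
* `one_lt_v_slope`: `1 < v λ`.   `D := y₁ - negY x₂ y₂` has `D̄ = 0`, i.e. `v D < 1`.   `N` as in `slope_identity`.
  - `ȳ₁ ≠ ȳ₂`: then `x₁ ≠ x₂` (if `x₁ = x₂` then `y₁ = y₂` or `y₁ = negY x₂ y₂` by `Y_eq_of_X_eq`; the first contradicts `ȳ₁ ≠ ȳ₂`, the second the assumption), `λ = (y₁-y₂)/(x₁-x₂)`, `v (y₁-y₂) = 1`, `v (x₁-x₂) < 1`.
  - `ȳ₁ = ȳ₂`: then `ȳ₂ = negY x̄₂ ȳ₂`, so `polynomialY` vanishes at `Q̄'`; `Q̄'` is nonsingular (it is a `Point`), so `polynomialX ≠ 0` there (`Affine.nonsingular_iff'`): `N̄ = 3x̄² + 2a₂x̄ + a₄ - a₁ȳ ≠ 0`, `v N = 1`.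
    `D ≠ 0`: else `(x₁ - x₂) N = 0`, `x₁ = x₂`, and `D = 0` says `y₁ = negY x₂ y₂`: excluded.   `λ = N / D` (`slope_eq_div`), `v λ = 1 / v D > 1`.
* `v x₃ = v λ ^ 2 > 1` (`Valuation.map_add_eq_of_lt_left`: `v (a₁λ) ≤ v λ < v λ ^ 2`, the rest is in `A`).
-/

set_option autoImplicit false

namespace Claimed.Agent.R280

open WithZero WeierstrassCurve Polynomial
open scoped Classical

section Ell8c

variable {K F : Type} [Field K] [Field F] {A : ValuationSubring K} {r : A →+* F}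
  {Wt : WeierstrassCurve K} {W0 : WeierstrassCurve F}

/-- a large slope sends integral points to the kernel of reduction -/
theorem RedCurveA.addX_not_mem (hW : RedCurveA A r Wt W0) {x₁ x₂ l : K} (hx₁ : x₁ ∈ A)
    (hx₂ : x₂ ∈ A) (hl : l ∉ A) : Wt.toAffine.addX x₁ x₂ l ∉ A := by
  obtain ⟨⟨h1, -⟩, ⟨h2, -⟩, -⟩ := hW
  intro hmem
  have hvl : 1 < A.valuation l := by
    rw [← not_le, A.valuation_le_one_iff]; exact hl
  have hL : l * (l + Wt.a₁) ∈ A := by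
    have : l * (l + Wt.a₁) = Wt.toAffine.addX x₁ x₂ l + Wt.a₂ + x₁ + x₂ := by
      simp only [Affine.addX]
      ring
    rw [this]
    exact A.add_mem _ _ (A.add_mem _ _ (A.add_mem _ _ hmem h2) hx₁) hx₂
  have hv1 : A.valuation (l + Wt.a₁) = A.valuation l :=
    Valuation.map_add_eq_of_lt_left _ (lt_of_le_of_lt ((A.valuation_le_one_iff _).mpr h1) hvl)
  rw [← A.valuation_le_one_iff, map_mul, hv1] at hL
  exact absurd hL (not_le.mpr (one_lt_mul'' hvl hvl))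

/-- a quotient of a unit by a nonzero element of the maximal ideal is not integral. -/
theorem ell8c_div_not_mem {n d : K}
    (hd : d ∈ A) (hn0 : resA A r n ≠ 0) (hd0 : resA A r d = 0) (hd1 : d ≠ 0) :
    n / d ∉ A := by
  intro hmem
  apply hn0
  have : n = n / d * d := by field_simp
  rw [this, resA_mul A r hmem hd, hd0, mul_zero]

theorem RedCurveA.slope_not_mem (hr : ∀ a : A, r a = 0 ↔ a ∈ IsLocalRing.maximalIdeal A)
    (hW : RedCurveA A r Wt W0) {x₁ y₁ x₂ y₂ : K} (h₁ : Wt.toAffine.Equation x₁ y₁)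
    (h₂ : Wt.toAffine.Equation x₂ y₂) (hx₁ : x₁ ∈ A) (hy₁ : y₁ ∈ A) (hx₂ : x₂ ∈ A) (hy₂ : y₂ ∈ A)
    (hns : W0.toAffine.Nonsingular (resA A r x₂) (resA A r y₂))
    (hxb : resA A r x₁ = resA A r x₂)
    (hyb : resA A r y₁ = W0.toAffine.negY (resA A r x₂) (resA A r y₂))
    (hxy : ¬ (x₁ = x₂ ∧ y₁ = Wt.toAffine.negY x₂ y₂)) :
    Wt.toAffine.slope x₁ x₂ y₁ y₂ ∉ A := by
  obtain ⟨mN, eN⟩ := RedCurveA.negY hW hx₂ hy₂
  have hDmem : y₁ - Wt.toAffine.negY x₂ y₂ ∈ A := A.sub_mem hy₁ mN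
  have hD0 : resA A r (y₁ - Wt.toAffine.negY x₂ y₂) = 0 := by
    rw [resA_sub A r hy₁ mN, eN, hyb, sub_self]
  by_cases hy : resA A r y₁ = resA A r y₂
  · -- the tangent case
    obtain ⟨⟨h1, e1⟩, ⟨h2, e2⟩, ⟨h3, e3⟩, ⟨h4, e4⟩, ⟨h6, e6⟩⟩ := hW
    have m1 := pow_mem hx₁ 2
    have m2 := A.mul_mem _ _ hx₁ hx₂
    have m3 := pow_mem hx₂ 2
    have m4 := A.mul_mem _ _ h2 (A.add_mem _ _ hx₁ hx₂)
    have m5 := A.mul_mem _ _ h1 hy₁
    have m6 := A.add_mem _ _ m1 m2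
    have m7 := A.add_mem _ _ m6 m3
    have m8 := A.add_mem _ _ m7 m4
    have m9 := A.add_mem _ _ m8 h4
    have hNmem : x₁ ^ 2 + x₁ * x₂ + x₂ ^ 2 + Wt.a₂ * (x₁ + x₂) + Wt.a₄ - Wt.a₁ * y₁ ∈ A :=
      A.sub_mem m9 m5
    have hNres : resA A r (x₁ ^ 2 + x₁ * x₂ + x₂ ^ 2 + Wt.a₂ * (x₁ + x₂) + Wt.a₄ - Wt.a₁ * y₁)
        = 3 * resA A r x₂ ^ 2 + 2 * W0.a₂ * resA A r x₂ + W0.a₄ - W0.a₁ * resA A r y₂ := by
      rw [resA_sub A r m9 m5, resA_add A r m8 h4, resA_add A r m7 m4, resA_add A r m6 m3,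
        resA_add A r m1 m2, resA_pow A r hx₁, resA_mul A r hx₁ hx₂, resA_pow A r hx₂,
        resA_mul A r h2 (A.add_mem _ _ hx₁ hx₂), resA_add A r hx₁ hx₂, resA_mul A r h1 hy₁,
        e1, e2, e4, hxb, hy]
      ring
    have hN0 : resA A r (x₁ ^ 2 + x₁ * x₂ + x₂ ^ 2 + Wt.a₂ * (x₁ + x₂) + Wt.a₄ - Wt.a₁ * y₁) ≠ 0 := by
      rw [hNres]
      rw [Affine.nonsingular_iff] at hns
      rcases hns.2 with h | h
      · intro h0
        apply h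
        linear_combination -h0
      · exfalso
        apply h
        rw [hy] at hyb
        simpa only [Affine.negY] using hyb
    have hD1 : y₁ - Wt.toAffine.negY x₂ y₂ ≠ 0 := by
      intro hD
      have hid := slope_identity Wt h₁ h₂
      rw [hD, mul_zero] at hid
      have hNne : x₁ ^ 2 + x₁ * x₂ + x₂ ^ 2 + Wt.a₂ * (x₁ + x₂) + Wt.a₄ - Wt.a₁ * y₁ ≠ 0 := by
        intro h0
        rw [h0, resA_zero] at hN0
        exact hN0 rfl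
      rcases mul_eq_zero.1 hid.symm with h | h
      · exact hxy ⟨sub_eq_zero.1 h, sub_eq_zero.1 hD⟩
      · exact hNne h
    rw [slope_eq_div Wt h₁ h₂ hD1]
    exact ell8c_div_not_mem hDmem hN0 hD0 hD1
  · -- the secant case
    have hx : x₁ ≠ x₂ := by
      intro hx
      rcases Affine.Y_eq_of_X_eq h₁ h₂ hx with h | h
      · exact hy (by rw [h])
      · exact hxy ⟨hx, h⟩
    rw [Affine.slope_of_X_ne hx]
    refine ell8c_div_not_mem (r := r) (A.sub_mem hx₁ hx₂) ?_ ?_ (sub_ne_zero.2 hx)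
    · rw [resA_sub A r hy₁ hy₂]
      exact sub_ne_zero.2 hy
    · rw [resA_sub A r hx₁ hx₂, hxb, sub_self]

theorem RedPtA.add_B (hr : ∀ a : A, r a = 0 ↔ a ∈ IsLocalRing.maximalIdeal A)
    (hW : RedCurveA A r Wt W0) {Q Q' : Wt.toAffine.Point} {Qb Qb' : W0.toAffine.Point}
    (h : RedPtA A r Q Qb) (h' : RedPtA A r Q' Qb') (hb : Qb ≠ 0) (hb' : Qb' ≠ 0)
    (he : Qb + Qb' = 0) : RedPtA A r (Q + Q') (0 : W0.toAffine.Point) := by
  rcases Qb with _ | ⟨a1, b1, h1⟩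
  · exact absurd rfl hb
  rcases Qb' with _ | ⟨a2, b2, h2⟩
  · exact absurd rfl hb'
  rcases Q with _ | ⟨x₁, y₁, hQ⟩
  · exact h.elim
  rcases Q' with _ | ⟨x₂, y₂, hQ'⟩
  · exact h'.elim
  obtain ⟨hx₁, hy₁, e1, e2⟩ := h
  obtain ⟨hx₂, hy₂, e1', e2'⟩ := h'
  have hneg := eq_neg_of_add_eq_zero_left he
  rw [Affine.Point.neg_some, Affine.Point.some.injEq] at hneg
  obtain ⟨q1, q2⟩ := hneg
  by_cases hxy : x₁ = x₂ ∧ y₁ = Wt.toAffine.negY x₂ y₂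
  · rw [Affine.Point.add_of_Y_eq hxy.1 hxy.2]
    trivial
  · rw [Affine.Point.add_some hxy]
    show Wt.toAffine.addX x₁ x₂ (Wt.toAffine.slope x₁ x₂ y₁ y₂) ∉ A
    refine RedCurveA.addX_not_mem hW hx₁ hx₂ ?_
    refine RedCurveA.slope_not_mem hr hW hQ.left hQ'.left hx₁ hy₁ hx₂ hy₂ ?_ ?_ ?_ hxy
    · rw [e1', e2']
      exact h2
    · rw [e1, e1', q1]
    · rw [e2, e1', e2', q2]

end Ell8c

end Claimed.Agent.R280
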