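import Claimed.Agent.R280.Ell.P9a

/-!
# Row 280, package Ell9b: `d/du` on `k(u)`; a point of `W(k(u))` has `∂a = ∂b = 0`

Mathlib has no derivative on `RatFunc`.   Uses the STATEMENTS of Ell9a.   `point_ratFunc_der_eq_zero` is PROVED below.

PLAN (~600 lines)
* `exists_ratFunc_der`: dual numbers as in Ell7a: `k[X] →+* TrivSqZeroExt (RatFunc k) (RatFunc k)`, `p ↦ (p, p')` (ring hom by `Polynomial.derivative_mul`), nonzero `p` goes to a unit (`TrivSqZeroExt.isUnit_iff_isUnit_fst`),
  `RatFunc.liftRingHom`/`IsLocalization.lift`; `fst ∘ Φ = id`; `∂ := snd ∘ Φ`; `k`-linear because `∂ (C c) = 0`.    (Or define `∂ f := (num' denom - num denom') / denom²` and check Leibniz through `RatFunc.induction_on`.)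
* quotient rule: `∂ (p / q) = (p' q - p q') / q²` (`Derivation.leibniz_div`).
* `ratFunc_der_adic`: `f = num / denom`, coprime; `v f ≤ 1` ⟹ `v denom = 1` (if `v denom < 1` then `v num = 1` by coprimality (`valuation_lt_one_iff_dvd`/`_mem`, `RatFunc.isCoprime_num_denom`) and `v f > 1`);
  polynomials have `v ≤ 1` (`HeightOneSpectrum.valuation_le_one`).
* `ratFunc_der_infty`: `inftyValuation f = exp (intDegree f)`.   `f = num/denom`, `deg num ≤ deg denom =: m`.   `num' denom - num denom'` has degree `≤ 2m - 2`: degree `≤ n + m - 1`, and if `n = m` the coefficients of `X^(2m-1)`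
  cancel (`m a_m b_m - a_m m b_m`).   (`Polynomial.natDegree_sub_le`, `coeff_mul_degree_add_degree`-type; or write `num = c • denom + r`, `deg r < m` (`Polynomial.div_modByMonic`; `denom` is monic), so `f = c + r/denom`, `∂ f = ∂ (r/denom)`, `deg ≤ (m-1) + m - 1 - 2m`.)
* `ratFunc_eq_zero_of`: `HeightOneSpectrum.mem_integers_of_valuation_le_one` ⟹ `hh = algebraMap p`; `inftyValuation.polynomial`: `exp (2 + natDegree p) ≤ 1` is impossible for `p ≠ 0`.
-/

set_option autoImplicit false

namespace Claimed.Agent.R280

open WithZero WeierstrassCurve Polynomial IsDedekindDomain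
open scoped Classical

section Ell9b

/-- the ring homomorphism `a ↦ (a, D a)` into the dual numbers. -/
noncomputable def derTsze {k A K : Type} [CommRing k] [CommRing A] [Algebra k A] [Field K]
    [Algebra k K] [Algebra A K] [IsScalarTower k A K] (D : Derivation k A K) :
    A →+* TrivSqZeroExt K K where
  toFun a := TrivSqZeroExt.inl (algebraMap A K a) + TrivSqZeroExt.inr (D a)
  map_one' := by
    ext <;> simp
  map_mul' a b := by
    ext
    · simp
    · have h1 : ∀ (c : A) (z : K), c • z = algebraMap A K c * z := fun c z => Algebra.smul_def c z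
      simp only [Derivation.leibniz, h1, TrivSqZeroExt.snd_add, TrivSqZeroExt.snd_inl,
        TrivSqZeroExt.snd_inr, zero_add, TrivSqZeroExt.snd_mul, TrivSqZeroExt.fst_add,
        TrivSqZeroExt.fst_inl, TrivSqZeroExt.fst_inr, add_zero, smul_eq_mul,
        op_smul_eq_mul]
      ring
  map_zero' := by
    ext <;> simp
  map_add' a b := by
    ext <;> simp

theorem derTsze_fst {k A K : Type} [CommRing k] [CommRing A] [Algebra k A] [Field K]
    [Algebra k K] [Algebra A K] [IsScalarTower k A K] (D : Derivation k A K) (a : A) :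
    (derTsze D a).fst = algebraMap A K a := by
  simp [derTsze]

theorem derTsze_snd {k A K : Type} [CommRing k] [CommRing A] [Algebra k A] [Field K]
    [Algebra k K] [Algebra A K] [IsScalarTower k A K] (D : Derivation k A K) (a : A) :
    (derTsze D a).snd = D a := by
  simp [derTsze]

/-- a derivation `A → K = Frac A` extends to `K`. -/
theorem exists_der_fractionRing {k A K : Type} [CommRing k] [CommRing A] [IsDomain A] [Algebra k A]
    [Field K] [Algebra k K] [Algebra A K] [IsScalarTower k A K] [IsFractionRing A K]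
    (D : Derivation k A K) : ∃ d : Derivation k K K, ∀ a, d (algebraMap A K a) = D a := by
  have hu : ∀ y : nonZeroDivisors A, IsUnit (derTsze D y) := by
    intro y
    rw [TrivSqZeroExt.isUnit_iff_isUnit_fst, derTsze_fst]
    exact IsLocalization.map_units K y
  set Φ : K →+* TrivSqZeroExt K K := IsLocalization.lift hu with hΦ
  have hΦa : ∀ a, Φ (algebraMap A K a) = derTsze D a := fun a => IsLocalization.lift_eq hu a
  have hfst : ∀ x, (Φ x).fst = x := by
    have : ((TrivSqZeroExt.fstHom K K K).toRingHom.comp Φ) = RingHom.id K := by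
      refine IsLocalization.ringHom_ext (nonZeroDivisors A) ?_
      ext a
      simp [hΦa, derTsze_fst]
    intro x
    exact congrArg (fun f : K →+* K => f x) this
  refine ⟨Derivation.mk' 
    { toFun := fun x => (Φ x).snd
      map_add' := fun x y => by simp
      map_smul' := fun c x => by
        have h1 : c • x = algebraMap A K (algebraMap k A c) * x := by
          rw [← IsScalarTower.algebraMap_apply, Algebra.smul_def]
        simp only [h1, map_mul, hΦa, RingHom.id_apply, TrivSqZeroExt.snd_mul, hfst, derTsze_fst,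
          derTsze_snd, Derivation.map_algebraMap, smul_zero, add_zero, smul_eq_mul]
        rw [← IsScalarTower.algebraMap_apply, Algebra.smul_def] } ?_, ?_⟩
  · intro a b
    simp only [LinearMap.coe_mk, AddHom.coe_mk, map_mul, TrivSqZeroExt.snd_mul, hfst, smul_eq_mul,
      op_smul_eq_mul]
    ring
  · intro a
    simp [hΦa, derTsze_snd]

variable {k : Type} [Field k]

/-- `d` is `d/du` on `k(u)` -/
def IsRatDer (d : Derivation k (RatFunc k) (RatFunc k)) : Prop :=
  ∀ p : k[X], d (algebraMap k[X] (RatFunc k) p) = algebraMap k[X] (RatFunc k) (derivative p)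

/-- generates the equation lemmas of the definitions of this file here (unique names) -/
theorem ell9b_eqns_cite : True := by
  have := @derTsze.eq_1
  have := @IsRatDer.eq_1
  trivial

theorem exists_ratFunc_der (k : Type) [Field k] :
    ∃ d : Derivation k (RatFunc k) (RatFunc k), IsRatDer d := by
  obtain ⟨d, hd⟩ := exists_der_fractionRing (k := k) (A := k[X]) (K := RatFunc k)
    ((Algebra.linearMap k[X] (RatFunc k)).compDer Polynomial.derivative')
  refine ⟨d, fun p => ?_⟩
  rw [hd]
  simp

/-- quotient rule for `d/du`. -/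
theorem IsRatDer.div {d : Derivation k (RatFunc k) (RatFunc k)} (hd : IsRatDer d) (p q : k[X]) :
    d (algebraMap k[X] (RatFunc k) p / algebraMap k[X] (RatFunc k) q)
      = algebraMap k[X] (RatFunc k) (q * derivative p - p * derivative q)
        / algebraMap k[X] (RatFunc k) q ^ 2 := by
  rw [Derivation.leibniz_div, hd, hd]
  simp only [smul_eq_mul, map_sub, map_mul, inv_pow]
  rw [div_eq_mul_inv, mul_comm]

theorem ratFunc_der_adic {d : Derivation k (RatFunc k) (RatFunc k)} (hd : IsRatDer d)
    (v : HeightOneSpectrum k[X]) {f : RatFunc k} (hf : v.valuation (RatFunc k) f ≤ 1) :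
    v.valuation (RatFunc k) (d f) ≤ 1 := by
  have hq : f.denom ∉ v.asIdeal := by
    rw [← RatFunc.num_div_denom f] at hf
    refine (v.valuation_div_le_one_iff (RatFunc k) f.num f.denom_ne_zero ?_).1 hf
    exact Ideal.IsPrime.notMem_of_isCoprime_of_mem f.isCoprime_num_denom.symm
  have h1 : v.valuation (RatFunc k) (algebraMap k[X] (RatFunc k) f.denom) = 1 :=
    (HeightOneSpectrum.valuation_eq_one_iff_notMem v).2 hq
  conv_lhs => rw [← RatFunc.num_div_denom f]
  rw [hd.div, map_div₀, map_pow, h1, one_pow, div_one]
  exact v.valuation_le_one _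

/-- the valuation at infinity of a nonzero polynomial. -/
theorem infty_poly {p : k[X]} (hp : p ≠ 0) :
    RatFunc.inftyValuation k (algebraMap k[X] (RatFunc k) p) = exp (p.natDegree : ℤ) := by
  rw [RatFunc.inftyValuation_apply, RatFunc.inftyValuation.polynomial k hp]

theorem infty_derivative_le (p : k[X]) :
    RatFunc.inftyValuation k (algebraMap k[X] (RatFunc k) (derivative p))
      ≤ RatFunc.inftyValuation k (algebraMap k[X] (RatFunc k) p) * exp (-1) := by
  rcases eq_or_ne (derivative p) 0 with h0 | h0
  · rw [h0, map_zero, map_zero]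
    exact zero_le
  · have hp : p ≠ 0 := by
      rintro rfl
      exact h0 derivative_zero
    have hn : p.natDegree ≠ 0 := fun h => h0 (derivative_of_natDegree_zero h)
    have hlt := natDegree_derivative_lt hn
    rw [infty_poly h0, infty_poly hp, ← exp_add, exp_le_exp]
    omega

theorem infty_der_le {d : Derivation k (RatFunc k) (RatFunc k)} (hd : IsRatDer d)
    (f : RatFunc k) :
    RatFunc.inftyValuation k (d f) ≤ RatFunc.inftyValuation k f * exp (-1) := by
  set w := RatFunc.inftyValuation k with hw
  set P := algebraMap k[X] (RatFunc k) f.num with hP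
  set Q := algebraMap k[X] (RatFunc k) f.denom with hQ
  have hQ0 : Q ≠ 0 := by
    rw [hQ]
    simpa using f.denom_ne_zero
  have hwQ : w Q ≠ 0 := (Valuation.ne_zero_iff _).2 hQ0
  have hf : f = P / Q := (RatFunc.num_div_denom f).symm
  have h1 : w (algebraMap k[X] (RatFunc k) (f.denom * derivative f.num - f.num * derivative f.denom))
      ≤ w P * w Q * exp (-1) := by
    rw [map_sub, map_mul, map_mul]
    refine (w.map_sub _ _).trans (max_le ?_ ?_)
    · rw [map_mul]
      calc w Q * w (algebraMap k[X] (RatFunc k) (derivative f.num))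
          ≤ w Q * (w P * exp (-1)) := mul_le_mul_right (infty_derivative_le f.num) _
        _ = w P * w Q * exp (-1) := by rw [← mul_assoc, mul_comm (w Q)]
    · rw [map_mul]
      calc w P * w (algebraMap k[X] (RatFunc k) (derivative f.denom))
          ≤ w P * (w Q * exp (-1)) := mul_le_mul_right (infty_derivative_le f.denom) _
        _ = w P * w Q * exp (-1) := by rw [← mul_assoc]
  rw [hf, hd.div, map_div₀, map_div₀, map_pow]
  rw [div_le_iff₀ (pow_pos (zero_lt_iff.2 hwQ) 2)]
  refine h1.trans (le_of_eq ?_)
  field_simp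

theorem infty_exists_const {f : RatFunc k} (hf : RatFunc.inftyValuation k f ≤ 1) :
    ∃ c : k, RatFunc.inftyValuation k (f - algebraMap k (RatFunc k) c) < 1 := by
  rcases hf.lt_or_eq with h | h
  · exact ⟨0, by simpa using h⟩
  set w := RatFunc.inftyValuation k with hw
  have hQ0 : algebraMap k[X] (RatFunc k) f.denom ≠ 0 := by simpa using f.denom_ne_zero
  have hf0 : f ≠ 0 := by
    rintro rfl
    simp at h
  have hn0 : f.num ≠ 0 := RatFunc.num_ne_zero hf0
  have hdeg : f.num.natDegree = f.denom.natDegree := by
    rw [← RatFunc.num_div_denom f, map_div₀, hw, infty_poly hn0, infty_poly f.denom_ne_zero,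
      ← exp_sub, ← exp_zero, exp_inj] at h
    omega
  refine ⟨f.num.leadingCoeff, ?_⟩
  set c := f.num.leadingCoeff with hc
  have hc0 : c ≠ 0 := leadingCoeff_ne_zero.2 hn0
  have e : f - algebraMap k (RatFunc k) c
      = algebraMap k[X] (RatFunc k) (f.num - C c * f.denom) / algebraMap k[X] (RatFunc k) f.denom := by
    conv_lhs => rw [← RatFunc.num_div_denom f]
    rw [IsScalarTower.algebraMap_apply k k[X] (RatFunc k), map_sub, map_mul, sub_div,
      mul_div_cancel_right₀ _ hQ0]
    rfl
  rw [e, map_div₀]
  rcases eq_or_ne (f.num - C c * f.denom) 0 with h0 | h0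
  · rw [h0]
    simp
  · have hlt : (f.num - C c * f.denom).degree < f.num.degree := by
      refine degree_sub_lt_left ?_ hn0 ?_
      · rw [degree_C_mul hc0, degree_eq_natDegree hn0, degree_eq_natDegree f.denom_ne_zero, hdeg]
      · rw [leadingCoeff_mul, leadingCoeff_C, f.monic_denom.leadingCoeff, mul_one]
    have hlt' : (f.num - C c * f.denom).natDegree < f.denom.natDegree := by
      rw [← hdeg]
      exact natDegree_lt_natDegree h0 hlt
    rw [hw, infty_poly h0, infty_poly f.denom_ne_zero, ← exp_sub, ← exp_zero, exp_lt_exp]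
    omega

theorem ratFunc_der_infty {d : Derivation k (RatFunc k) (RatFunc k)} (hd : IsRatDer d)
    {f : RatFunc k} (hf : RatFunc.inftyValuation k f ≤ 1) :
    RatFunc.inftyValuation k (RatFunc.X ^ 2 * d f) ≤ 1 := by
  obtain ⟨c, hc⟩ := infty_exists_const hf
  have e : d f = d (f - algebraMap k (RatFunc k) c) := by
    rw [map_sub, Derivation.map_algebraMap, sub_zero]
  have h1 := infty_der_le hd (f - algebraMap k (RatFunc k) c)
  have h2 : RatFunc.inftyValuation k (f - algebraMap k (RatFunc k) c) ≤ exp (-1) := by
    rw [← lt_mul_exp_iff_le exp_ne_zero, ← exp_add]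
    simpa using hc
  rw [map_mul, map_pow, RatFunc.inftyValuation.X, e]
  calc exp 1 ^ 2 * RatFunc.inftyValuation k (d (f - algebraMap k (RatFunc k) c))
      ≤ exp 1 ^ 2 * (exp (-1) * exp (-1)) :=
        mul_le_mul_right (h1.trans (mul_le_mul_left h2 _)) _
    _ = 1 := by
        rw [← exp_nsmul, ← exp_add, ← exp_add, ← exp_zero]
        congr 1

theorem ratFunc_eq_zero_of {hh : RatFunc k}
    (h1 : ∀ v : HeightOneSpectrum k[X], v.valuation (RatFunc k) hh ≤ 1)
    (h2 : RatFunc.inftyValuation k (RatFunc.X ^ 2 * hh) ≤ 1) : hh = 0 := by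
  obtain ⟨p, rfl⟩ := HeightOneSpectrum.mem_integers_of_valuation_le_one (RatFunc k) hh h1
  by_contra hne
  have hp : p ≠ 0 := by
    rintro rfl
    exact hne (map_zero _)
  rw [map_mul, map_pow, RatFunc.inftyValuation.X, infty_poly hp, ← exp_nsmul, ← exp_add,
    ← exp_zero, exp_le_exp] at h2
  simp at h2
  omega

theorem adic_algebraMap_le_one (v : HeightOneSpectrum k[X]) (c : k) :
    v.valuation (RatFunc k) (algebraMap k (RatFunc k) c) ≤ 1 := by
  rw [IsScalarTower.algebraMap_apply k k[X] (RatFunc k)]
  exact v.valuation_le_one _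

theorem infty_algebraMap_le_one (c : k) :
    RatFunc.inftyValuation k (algebraMap k (RatFunc k) c) ≤ 1 := by
  rw [RatFunc.algebraMap_eq_C]
  rcases eq_or_ne c 0 with rfl | hc
  · simp
  · rw [RatFunc.inftyValuation.C k hc]

theorem point_ratFunc_der_eq_zero (W : WeierstrassCurve k) (hΔ : W.Δ ≠ 0)
    {d : Derivation k (RatFunc k) (RatFunc k)} (hd : IsRatDer d) {a b : RatFunc k}
    (hab : (W.baseChange (RatFunc k)).toAffine.Equation a b) : d a = 0 ∧ d b = 0 := by
  obtain ⟨hh, h1, h2⟩ := exists_invariant_ratio W hΔ d hab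
  have hz : hh = 0 := by
    refine ratFunc_eq_zero_of (fun v => ?_) ?_
    · have := invariant_ratio_mem W hΔ d hab h1 h2 (v.valuation (RatFunc k)).valuationSubring
        (fun c => (Valuation.mem_valuationSubring_iff _ _).mpr (adic_algebraMap_le_one v c)) 1
        (fun f hf => by
          rw [one_mul]
          exact (Valuation.mem_valuationSubring_iff _ _).mpr
            (ratFunc_der_adic hd v ((Valuation.mem_valuationSubring_iff _ _).mp hf)))
      rw [one_mul] at this
      exact (Valuation.mem_valuationSubring_iff _ _).mp this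
    · have := invariant_ratio_mem W hΔ d hab h1 h2 (RatFunc.inftyValuation k).valuationSubring
        (fun c => (Valuation.mem_valuationSubring_iff _ _).mpr (infty_algebraMap_le_one c))
        (RatFunc.X ^ 2)
        (fun f hf => (Valuation.mem_valuationSubring_iff _ _).mpr
            (ratFunc_der_infty hd ((Valuation.mem_valuationSubring_iff _ _).mp hf)))
      exact (Valuation.mem_valuationSubring_iff _ _).mp this
  rw [h1, h2, hz]
  simp

end Ell9b

end Claimed.Agent.R280
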