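import Claimed.Agent.R280.Ell.P9b

/-!
# Row 280, package Ell9c: Frobenius descent; `W(k(u)) = W(k)`

Uses the STATEMENTS of Ell9b.

PLAN (~700 lines)
* `ratFunc_num_denom_der`: `d f = 0`, `f = P/Q` (`P = num f`, `Q = denom f`, coprime, `Q` monic): `P' Q = P Q'` (quotient rule, clear `Q²`, injectivity of `algebraMap k[X] (RatFunc k)`).  `Q ∣ P Q'`, coprime ⟹ `Q ∣ Q'`, `deg Q' < deg Q` ⟹ `Q' = 0`
  (`Polynomial.eq_zero_of_dvd_of_natDegree_lt`/`degree_derivative_lt`); then `P' Q = 0`, `P' = 0`.
* `ratFunc_const_of_der_eq_zero` (char 0): `Polynomial.natDegree_eq_zero_of_derivative_eq_zero`: `P, Q` constants.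
* `ratExpand`: `RatFunc.mapAlgHom (Polynomial.expand k p)`; injective (field hom).
* `exists_ratExpand_of_der_eq_zero` (char `p`): `P = expand k p (contract p P)` (`Polynomial.expand_contract`), the same for `Q`; `g := contract p P / contract p Q`; `RatFunc.mapAlgHom` on `algebraMap _ _ P₁ / algebraMap _ _ Q₁` (`RatFunc.map_apply_div`).
  heights: `num g ∣ contract p P` (`RatFunc.num_div_dvd`), `denom g ∣ contract p Q` (`RatFunc.denom_div_dvd`), `natDegree (contract p P) * p = natDegree P` (`natDegree_expand`); if `ratHt f ≠ 0` then `ratHt g ≤ ratHt f / p < ratHt f`.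
* `ratFunc_const_of_ht`: `natDegree num = natDegree denom = 0`: `f = C c / C c'` (`RatFunc.num_div_denom`, `Polynomial.eq_C_of_natDegree_eq_zero`).
* `ratFunc_const_of_isAlgebraic`: `f` integral over `k`, so over `k[X]`; `k[X]` integrally closed in `RatFunc k` (`IsIntegrallyClosed.isIntegral_iff`): `f = algebraMap P`; `P` algebraic over `k` ⟹ `natDegree P = 0`
  (`Polynomial.transcendental_of…`/ compare degrees in `aeval P q = q.comp P`, `natDegree_comp`).
* `point_ratFunc_const_x`: strong induction on `ratHt a` for all `(a,b)`.   `CharP.exists k`, `CharP.char_is_prime_or_zero`.   `d` from `exists_ratFunc_der`, `d a = d b = 0`.   char 0: constant.   char `p`: `a = E a₁`, `b = E b₁`, `E = ratExpand`;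
  `(a₁,b₁)` satisfies the equation (`Affine.baseChange_equation`/`Affine.map_equation` for the injective `k`-algebra hom `E`; `W.baseChange (RatFunc k)` is fixed by `E`);   `ratHt a = 0` ⟹ constant; else induction: `a₁ = algebraMap c`, `a = E a₁ = algebraMap c` (`AlgHom.commutes`).
* `point_ratFunc_const`: `a` constant ⟹ `b` is a root of a monic quadratic over `k` ⟹ algebraic ⟹ constant.
-/

set_option autoImplicit false

namespace Claimed.Agent.R280

open WithZero WeierstrassCurve Polynomial
open scoped Classical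

section Ell9c

variable {k : Type} [Field k]

/-- height of a rational function -/
noncomputable def ratHt (f : RatFunc k) : ℕ := f.num.natDegree + f.denom.natDegree

/-- `u ↦ u ^ p` -/
noncomputable def ratExpand (k : Type) [Field k] (p : ℕ) (hp : 0 < p) : RatFunc k →ₐ[k] RatFunc k :=
  RatFunc.mapAlgHom (Polynomial.expand k p) fun q hq => by
    rw [Submonoid.mem_comap, mem_nonZeroDivisors_iff_ne_zero] at *
    exact fun h0 => hq ((Polynomial.expand_eq_zero hp).mp h0)

theorem ratFunc_num_denom_der {d : Derivation k (RatFunc k) (RatFunc k)} (hd : IsRatDer d)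
    {f : RatFunc k} (hf : d f = 0) : derivative f.num = 0 ∧ derivative f.denom = 0 := by
  have hQ0 : f.denom ≠ 0 := f.denom_ne_zero
  have hQ0' : algebraMap k[X] (RatFunc k) f.denom ≠ 0 := RatFunc.algebraMap_ne_zero hQ0
  have h1 : f * algebraMap k[X] (RatFunc k) f.denom = algebraMap k[X] (RatFunc k) f.num := by
    have := RatFunc.num_div_denom f
    rw [div_eq_iff hQ0'] at this
    exact this.symm
  have h2 := congrArg d h1
  rw [Derivation.leibniz, hf, hd, hd, smul_zero, add_zero, smul_eq_mul] at h2
  -- `P Q' = P' Q`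
  have h3 : f.num * derivative f.denom = derivative f.num * f.denom := by
    apply RatFunc.algebraMap_injective k
    rw [map_mul, map_mul, ← h2, ← h1]
    ring
  have h4 : f.denom ∣ derivative f.denom := by
    have : f.denom ∣ f.num * derivative f.denom := by
      rw [h3]
      exact dvd_mul_left _ _
    exact (RatFunc.isCoprime_num_denom f).symm.dvd_of_dvd_mul_left this
  have h5 : derivative f.denom = 0 :=
    Polynomial.eq_zero_of_dvd_of_degree_lt h4 (Polynomial.degree_derivative_lt hQ0)
  refine ⟨?_, h5⟩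
  rw [h5, mul_zero] at h3
  exact (mul_eq_zero.1 h3.symm).resolve_right hQ0

theorem ratFunc_const_of_ht {f : RatFunc k} (hf : ratHt f = 0) :
    f ∈ Set.range (algebraMap k (RatFunc k)) := by
  unfold ratHt at hf
  have h1 : f.num.natDegree = 0 := by omega
  have h2 : f.denom.natDegree = 0 := by omega
  rw [← RatFunc.num_div_denom f, Polynomial.eq_C_of_natDegree_eq_zero h1,
    Polynomial.eq_C_of_natDegree_eq_zero h2]
  refine ⟨f.num.coeff 0 / f.denom.coeff 0, ?_⟩
  rw [map_div₀, IsScalarTower.algebraMap_apply k k[X] (RatFunc k),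
    IsScalarTower.algebraMap_apply k k[X] (RatFunc k), Polynomial.algebraMap_eq]

theorem ratFunc_const_of_der_eq_zero [CharZero k] {d : Derivation k (RatFunc k) (RatFunc k)}
    (hd : IsRatDer d) {f : RatFunc k} (hf : d f = 0) :
    f ∈ Set.range (algebraMap k (RatFunc k)) := by
  obtain ⟨h1, h2⟩ := ratFunc_num_denom_der hd hf
  apply ratFunc_const_of_ht
  unfold ratHt
  rw [Polynomial.derivative_eq_zero.1 h1, Polynomial.derivative_eq_zero.1 h2]

theorem ell9c_ratExpand_div (p : ℕ) (hp : 0 < p) (P Q : k[X]) :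
    ratExpand k p hp (algebraMap k[X] (RatFunc k) P / algebraMap k[X] (RatFunc k) Q)
      = algebraMap k[X] (RatFunc k) (expand k p P) / algebraMap k[X] (RatFunc k) (expand k p Q) := by
  unfold ratExpand
  rw [RatFunc.coe_mapAlgHom_eq_coe_map]
  exact RatFunc.map_apply_div _ _ P Q

theorem exists_ratExpand_of_der_eq_zero (p : ℕ) (hp : p.Prime) [CharP k p]
    {d : Derivation k (RatFunc k) (RatFunc k)} (hd : IsRatDer d) {f : RatFunc k} (hf : d f = 0) :
    ∃ g : RatFunc k, f = ratExpand k p hp.pos g ∧ (ratHt f = 0 ∨ ratHt g < ratHt f) := by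
  obtain ⟨h1, h2⟩ := ratFunc_num_denom_der hd hf
  have e1 := Polynomial.expand_contract p h1 hp.ne_zero
  have e2 := Polynomial.expand_contract p h2 hp.ne_zero
  set P₁ := contract p f.num with hP₁
  set Q₁ := contract p f.denom with hQ₁
  refine ⟨algebraMap k[X] (RatFunc k) P₁ / algebraMap k[X] (RatFunc k) Q₁, ?_, ?_⟩
  · rw [ell9c_ratExpand_div, e1, e2, RatFunc.num_div_denom]
  · by_cases h0 : ratHt f = 0
    · exact Or.inl h0
    · right
      have hQ₁0 : Q₁ ≠ 0 := by
        intro h
        rw [h, map_zero] at e2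
        exact f.denom_ne_zero e2.symm
      have d1 : f.num.natDegree = P₁.natDegree * p := by rw [← e1, Polynomial.natDegree_expand]
      have d2 : f.denom.natDegree = Q₁.natDegree * p := by rw [← e2, Polynomial.natDegree_expand]
      have hP₁0 : P₁ ≠ 0 := by
        intro h
        rw [h, map_zero] at e1
        have hf0 : f = 0 := RatFunc.num_eq_zero_iff.1 e1.symm
        apply h0
        unfold ratHt
        rw [hf0]
        simp
      have l1 : (algebraMap k[X] (RatFunc k) P₁ / algebraMap k[X] (RatFunc k) Q₁).num.natDegree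
          ≤ P₁.natDegree := Polynomial.natDegree_le_of_dvd (RatFunc.num_div_dvd P₁ hQ₁0) hP₁0
      have l2 : (algebraMap k[X] (RatFunc k) P₁ / algebraMap k[X] (RatFunc k) Q₁).denom.natDegree
          ≤ Q₁.natDegree := Polynomial.natDegree_le_of_dvd (RatFunc.denom_div_dvd P₁ Q₁) hQ₁0
      unfold ratHt at h0 ⊢
      rw [d1, d2] at h0 ⊢
      have hp2 := hp.two_le
      have hs : 0 < P₁.natDegree + Q₁.natDegree := by
        rcases Nat.eq_zero_or_pos (P₁.natDegree + Q₁.natDegree) with h | h
        · exfalso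
          apply h0
          have a1 : P₁.natDegree = 0 := by omega
          have a2 : Q₁.natDegree = 0 := by omega
          rw [a1, a2]
          simp
        · exact h
      nlinarith

theorem ratFunc_const_of_isAlgebraic {f : RatFunc k} (hf : IsAlgebraic k f) :
    f ∈ Set.range (algebraMap k (RatFunc k)) := by
  by_contra h
  refine RatFunc.transcendental_of_ne_C (f := f) ?_ hf
  rintro ⟨c, rfl⟩
  exact h ⟨c, by rw [RatFunc.algebraMap_eq_C]⟩

theorem ell9c_const_x_aux (W : WeierstrassCurve k) (hΔ : W.Δ ≠ 0) (n : ℕ) :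
    ∀ a b : RatFunc k, ratHt a = n → (W.baseChange (RatFunc k)).toAffine.Equation a b →
      a ∈ Set.range (algebraMap k (RatFunc k)) := by
  induction n using Nat.strong_induction_on with
  | _ n ih =>
    intro a b hn hab
    obtain ⟨d, hd⟩ := exists_ratFunc_der k
    obtain ⟨ha, hb⟩ := point_ratFunc_der_eq_zero W hΔ hd hab
    obtain ⟨p, hp⟩ := CharP.exists k
    rcases CharP.char_is_prime_or_zero k p with hpp | rfl
    · obtain ⟨a₁, ea, hha⟩ := exists_ratExpand_of_der_eq_zero p hpp hd ha
      obtain ⟨b₁, eb, -⟩ := exists_ratExpand_of_der_eq_zero p hpp hd hb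
      rcases hha with h0 | hlt
      · exact ratFunc_const_of_ht h0
      · have hab₁ : (W.baseChange (RatFunc k)).toAffine.Equation a₁ b₁ := by
          rw [ea, eb] at hab
          exact (Affine.baseChange_equation (W := W) (f := ratExpand k p hpp.pos)
            (ratExpand k p hpp.pos).toRingHom.injective a₁ b₁).1 hab
        obtain ⟨c, hc⟩ := ih (ratHt a₁) (hn ▸ hlt) a₁ b₁ rfl hab₁
        exact ⟨c, by rw [ea, ← hc, AlgHom.commutes]⟩
    · have : CharZero k := CharP.charP_to_charZero k
      exact ratFunc_const_of_der_eq_zero hd ha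

theorem point_ratFunc_const_x (W : WeierstrassCurve k) (hΔ : W.Δ ≠ 0) {a b : RatFunc k}
    (hab : (W.baseChange (RatFunc k)).toAffine.Equation a b) :
    a ∈ Set.range (algebraMap k (RatFunc k)) :=
  ell9c_const_x_aux W hΔ _ a b rfl hab

/-- `W(k(u)) = W(k)` -/
theorem point_ratFunc_const {k : Type} [Field k] (W : WeierstrassCurve k) (hΔ : W.Δ ≠ 0)
    {a b : RatFunc k} (hab : (W.baseChange (RatFunc k)).toAffine.Equation a b) :
    a ∈ Set.range (algebraMap k (RatFunc k)) ∧ b ∈ Set.range (algebraMap k (RatFunc k)) := by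
  have ha := point_ratFunc_const_x W hΔ hab
  refine ⟨ha, ?_⟩
  obtain ⟨c, rfl⟩ := ha
  apply ratFunc_const_of_isAlgebraic
  rw [Affine.equation_iff] at hab
  have hmonic : (X ^ 2 + (C (W.a₁ * c + W.a₃) * X
      + C (-(c ^ 3 + W.a₂ * c ^ 2 + W.a₄ * c + W.a₆))) : k[X]).Monic :=
    Polynomial.monic_X_pow_add (lt_of_le_of_lt Polynomial.degree_linear_le (by norm_num))
  refine ⟨_, hmonic.ne_zero, ?_⟩
  simp only [WeierstrassCurve.baseChange, WeierstrassCurve.map_a₁, WeierstrassCurve.map_a₂,
    WeierstrassCurve.map_a₃, WeierstrassCurve.map_a₄, WeierstrassCurve.map_a₆] at hab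
  simp only [map_add, map_mul, map_pow, map_neg, aeval_X, aeval_C]
  linear_combination hab

end Ell9c

end Claimed.Agent.R280
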