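import Claimed.Agent.R280.Ell.P9c

/-!
# Row 280, package Ell9d: `W(k(z_1,…,z_n)) = W(k)`

Uses the STATEMENT `point_ratFunc_const` of Ell9c.

PLAN (~600 lines)
* `ConstPts W K`: all points of `W` over the extension `K/k` have coordinates in `k`.
* `ConstPts.ratFunc`: `K/k`, `(a,b) ∈ W(K(u))`.  `W.baseChange (RatFunc K) = (W.baseChange K).baseChange (RatFunc K)` (`WeierstrassCurve.map_map`, `IsScalarTower.algebraMap_eq k K (RatFunc K)`); `point_ratFunc_const` over `K` (`Δ ≠ 0` by `map_Δ`): `a = algebraMap K _ a'`, `b = algebraMap K _ b'`;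
  `(a',b') ∈ W(K)` (`Affine.baseChange_equation`/`map_equation`, injectivity); hypothesis for `K`.
* `ConstPts.of_ringEquiv`: transport along `e : K ≃+* K'` commuting with the maps from `k` (make it an `AlgEquiv`, `Affine.baseChange_equation`).
* `exists_mvRatFunc_succ_equiv`: `MvPolynomial.finSuccEquiv k n : MvPolynomial (Fin (n+1)) k ≃ₐ[k] (MvPolynomial (Fin n) k)[X]`;   `Frac (R[X]) ≃ Frac ((Frac R)[X]) = RatFunc (Frac R)` for the domain `R = MvPolynomial (Fin n) k`:
  `RatFunc (Frac R)` is a fraction ring of `R[X]` (Mathlib: `instance : IsFractionRing R[X] (RatFunc (FractionRing R))`-type statement `RatFunc.instIsFractionRing…`/`Polynomial.isFractionRing…`; if absent: `IsFractionRing` by hand: injective `R[X] → K[X] → K(X)`, every element is `p/q`, clear the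
  denominators of the coefficients (`IsLocalization.integerNormalization`)).   Then `IsFractionRing.ringEquivOfRingEquiv`/`IsLocalization.ringEquivOfRingEquiv`.
* `constPts_zero`: `MvPolynomial (Fin 0) k ≃ₐ[k] k` (`MvPolynomial.isEmptyAlgEquiv`), so `algebraMap k (MvPolynomial (Fin 0) k)` is bijective, the ring is a field, `algebraMap _ (FractionRing _)` is bijective (`IsFractionRing`/`IsLocalization.atUnits`-type; `IsField.localization_map_bijective`).
* `point_mvRatFunc_const`: induction on `n`.
-/

set_option autoImplicit false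

namespace Claimed.Agent.R280

open WithZero WeierstrassCurve Polynomial
open scoped Classical

section Ell9d

/-- all `K`-points of `W` are defined over `k` -/
def ConstPts {k : Type} [Field k] (W : WeierstrassCurve k) (K : Type) [Field K] [Algebra k K] : Prop :=
  ∀ a b : K, (W.baseChange K).toAffine.Equation a b →
    a ∈ Set.range (algebraMap k K) ∧ b ∈ Set.range (algebraMap k K)

theorem ConstPts.ratFunc {k : Type} [Field k] {W : WeierstrassCurve k} (hΔ : W.Δ ≠ 0) {K : Type}
    [Field K] [Algebra k K] (h : ConstPts W K) : ConstPts W (RatFunc K) := by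
  intro a b hab
  have e : W.baseChange (RatFunc K) = (W.baseChange K).baseChange (RatFunc K) := by
    show W.map _ = (W.map _).map _
    rw [WeierstrassCurve.map_map, ← IsScalarTower.algebraMap_eq]
  rw [e] at hab
  have hΔ' : (W.baseChange K).Δ ≠ 0 := by
    have : (W.baseChange K).Δ = algebraMap k K W.Δ := WeierstrassCurve.map_Δ W (algebraMap k K)
    rw [this]
    exact (_root_.map_ne_zero _).2 hΔ
  obtain ⟨⟨a', rfl⟩, ⟨b', rfl⟩⟩ := point_ratFunc_const (W.baseChange K) hΔ' hab
  have hab' : (W.baseChange K).toAffine.Equation a' b' :=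
    (WeierstrassCurve.Affine.map_equation (W := (W.baseChange K).toAffine)
      (f := algebraMap K (RatFunc K)) (algebraMap K (RatFunc K)).injective a' b').1 hab
  obtain ⟨⟨a'', rfl⟩, ⟨b'', rfl⟩⟩ := h a' b' hab'
  exact ⟨⟨a'', IsScalarTower.algebraMap_apply k K (RatFunc K) a''⟩,
    ⟨b'', IsScalarTower.algebraMap_apply k K (RatFunc K) b''⟩⟩

theorem ConstPts.of_ringEquiv {k : Type} [Field k] {W : WeierstrassCurve k} {K K' : Type} [Field K]
    [Field K'] [Algebra k K] [Algebra k K'] (e : K ≃+* K')
    (he : ∀ c : k, e (algebraMap k K c) = algebraMap k K' c) (h : ConstPts W K) :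
    ConstPts W K' := by
  intro a b hab
  have e1 : W.baseChange K' = (W.baseChange K).map (e : K →+* K') := by
    show W.map _ = (W.map _).map _
    rw [WeierstrassCurve.map_map]
    congr 1
    ext c
    exact (he c).symm
  rw [e1] at hab
  obtain ⟨a', rfl⟩ := e.surjective a
  obtain ⟨b', rfl⟩ := e.surjective b
  have hab' : (W.baseChange K).toAffine.Equation a' b' :=
    (WeierstrassCurve.Affine.map_equation (W := (W.baseChange K).toAffine)
      (f := (e : K →+* K')) e.injective a' b').1 hab
  obtain ⟨⟨a'', rfl⟩, ⟨b'', rfl⟩⟩ := h a' b' hab'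
  exact ⟨⟨a'', (he a'').symm⟩, ⟨b'', (he b'').symm⟩⟩

theorem ell9d_ratFunc_equiv (R : Type) [CommRing R] [IsDomain R] :
    ∃ e : RatFunc (FractionRing R) ≃+* FractionRing R[X],
      ∀ p : R[X], e (algebraMap (FractionRing R)[X] (RatFunc (FractionRing R))
        (p.map (algebraMap R (FractionRing R)))) = algebraMap R[X] (FractionRing R[X]) p := by
  set F := FractionRing R with hF
  let i1 : Algebra R[X] F[X] := Polynomial.algebra R F
  have i3 : IsScalarTower R[X] F[X] (RatFunc F) := inferInstance
  have i4 : IsLocalization ((nonZeroDivisors R).map (C : R →+* R[X])) F[X] :=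
    Polynomial.isLocalization (nonZeroDivisors R) F
  have i5 : IsLocalization ((nonZeroDivisors F[X]).comap (algebraMap R[X] F[X])) (RatFunc F) :=
    IsLocalization.localization_localization_isLocalization_of_has_all_units
      ((nonZeroDivisors R).map (C : R →+* R[X])) (nonZeroDivisors F[X]) (RatFunc F)
      (fun x hx => hx.mem_nonZeroDivisors)
  have hmap : ∀ p : R[X], algebraMap R[X] F[X] p = p.map (algebraMap R F) := fun p => rfl
  have i6 : (nonZeroDivisors F[X]).comap (algebraMap R[X] F[X]) = nonZeroDivisors R[X] := by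
    ext p
    rw [Submonoid.mem_comap, mem_nonZeroDivisors_iff_ne_zero, mem_nonZeroDivisors_iff_ne_zero,
      hmap, Ne, Ne, Polynomial.map_eq_zero_iff (IsFractionRing.injective R F)]
  have i7 : IsFractionRing R[X] (RatFunc F) := by
    rw [i6] at i5
    exact i5
  refine ⟨IsFractionRing.ringEquivOfRingEquiv (RingEquiv.refl R[X]), fun p => ?_⟩
  have := IsFractionRing.ringEquivOfRingEquiv_algebraMap (K := RatFunc F)
    (L := FractionRing R[X]) (RingEquiv.refl R[X]) p
  rw [IsScalarTower.algebraMap_apply R[X] F[X] (RatFunc F), hmap] at this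
  exact this

theorem exists_mvRatFunc_succ_equiv (k : Type) [Field k] (n : ℕ) :
    ∃ e : RatFunc (FractionRing (MvPolynomial (Fin n) k)) ≃+*
        FractionRing (MvPolynomial (Fin (n + 1)) k),
      ∀ c : k, e (algebraMap k (RatFunc (FractionRing (MvPolynomial (Fin n) k))) c) =
        algebraMap k (FractionRing (MvPolynomial (Fin (n + 1)) k)) c := by
  obtain ⟨e1, he1⟩ := ell9d_ratFunc_equiv (MvPolynomial (Fin n) k)
  let e2 : FractionRing (MvPolynomial (Fin n) k)[X] ≃+*
      FractionRing (MvPolynomial (Fin (n + 1)) k) :=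
    IsFractionRing.ringEquivOfRingEquiv (MvPolynomial.finSuccEquiv k n).symm.toRingEquiv
  refine ⟨e1.trans e2, fun c => ?_⟩
  have h1 : algebraMap k (RatFunc (FractionRing (MvPolynomial (Fin n) k))) c =
      algebraMap (FractionRing (MvPolynomial (Fin n) k))[X] _
        ((algebraMap k (MvPolynomial (Fin n) k)[X] c).map
          (algebraMap (MvPolynomial (Fin n) k) (FractionRing (MvPolynomial (Fin n) k)))) := by
    rw [IsScalarTower.algebraMap_apply k (FractionRing (MvPolynomial (Fin n) k))[X],
      Polynomial.algebraMap_apply, Polynomial.algebraMap_apply, Polynomial.map_C,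
      ← IsScalarTower.algebraMap_apply]
  rw [RingEquiv.trans_apply, h1, he1]
  have h2 := IsFractionRing.ringEquivOfRingEquiv_algebraMap
    (K := FractionRing (MvPolynomial (Fin n) k)[X])
    (L := FractionRing (MvPolynomial (Fin (n + 1)) k))
    (MvPolynomial.finSuccEquiv k n).symm.toRingEquiv (algebraMap k (MvPolynomial (Fin n) k)[X] c)
  rw [show e2 = IsFractionRing.ringEquivOfRingEquiv
    (MvPolynomial.finSuccEquiv k n).symm.toRingEquiv from rfl, h2]
  have h3 : (MvPolynomial.finSuccEquiv k n).symm.toRingEquiv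
      (algebraMap k (MvPolynomial (Fin n) k)[X] c) = algebraMap k _ c :=
    (MvPolynomial.finSuccEquiv k n).symm.commutes c
  rw [h3, ← IsScalarTower.algebraMap_apply]

theorem constPts_zero {k : Type} [Field k] (W : WeierstrassCurve k) :
    ConstPts W (FractionRing (MvPolynomial (Fin 0) k)) := by
  have key : ∀ x : FractionRing (MvPolynomial (Fin 0) k),
      x ∈ Set.range (algebraMap k (FractionRing (MvPolynomial (Fin 0) k))) := by
    intro x
    obtain ⟨p, q, hq, rfl⟩ := IsFractionRing.div_surjective (A := MvPolynomial (Fin 0) k) x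
    rw [MvPolynomial.eq_C_of_isEmpty p, MvPolynomial.eq_C_of_isEmpty q]
    refine ⟨MvPolynomial.coeff 0 p / MvPolynomial.coeff 0 q, ?_⟩
    rw [map_div₀, IsScalarTower.algebraMap_apply k (MvPolynomial (Fin 0) k),
      IsScalarTower.algebraMap_apply k (MvPolynomial (Fin 0) k)]
    rfl
  exact fun a b _ => ⟨key a, key b⟩

/-- `W(k(z_1,…,z_n)) = W(k)` -/
theorem point_mvRatFunc_const {k : Type} [Field k] (W : WeierstrassCurve k) (hΔ : W.Δ ≠ 0) (n : ℕ)
    {a b : FractionRing (MvPolynomial (Fin n) k)}
    (hab : (W.baseChange (FractionRing (MvPolynomial (Fin n) k))).toAffine.Equation a b) :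
    a ∈ Set.range (algebraMap k (FractionRing (MvPolynomial (Fin n) k))) ∧
      b ∈ Set.range (algebraMap k (FractionRing (MvPolynomial (Fin n) k))) := by
  have key : ∀ n : ℕ, ConstPts W (FractionRing (MvPolynomial (Fin n) k)) := by
    intro n
    induction n with
    | zero => exact constPts_zero W
    | succ n ih =>
      obtain ⟨e, he⟩ := exists_mvRatFunc_succ_equiv k n
      exact (ih.ratFunc hΔ).of_ringEquiv e he
  exact key n a b hab

end Ell9d

end Claimed.Agent.R280
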